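import Mathlib

namespace Vale.Agent.P249

open Finset

/-- point data for one coordinate -/
structure PD where
  x : ℝ
  S : ℕ → ℝ
  Em : ℕ → ℕ → ℝ
  D : ℕ → ℝ
  χ : ℕ → ℝ

variable {E : Type*} [NormedAddCommGroup E] [NormedSpace ℝ E]

noncomputable def PD.V (P : PD) (Ψ : ℝ → E) : ℕ → ℕ → ℝ → ℝ → E
  | 0, up, ρ, b => (P.x - P.S up) • Ψ (b + P.D up / ρ)
  | k + 1, up, ρ, b =>
      P.χ k • ((P.S k - P.S up) • Ψ (b + P.Em k up / ρ) +
        PD.V P Ψ k k (ρ / 2) (b + P.Em k up / ρ)) + (1 - P.χ k) • PD.V P Ψ k up ρ b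

noncomputable def PD.Inc (P : PD) (Ψ : ℝ → E) (k up : ℕ) (ρ b : ℝ) : E :=
  (P.S k - P.S up) • Ψ (b + P.Em k up / ρ) + P.V Ψ k k (ρ / 2) (b + P.Em k up / ρ)

lemma PD.V_succ (P : PD) (Ψ : ℝ → E) (k up : ℕ) (ρ b : ℝ) :
    P.V Ψ (k + 1) up ρ b = P.χ k • P.Inc Ψ k up ρ b + (1 - P.χ k) • P.V Ψ k up ρ b := rfl

lemma PD.V_zero (P : PD) (Ψ : ℝ → E) (up : ℕ) (ρ b : ℝ) :
    P.V Ψ 0 up ρ b = (P.x - P.S up) • Ψ (b + P.D up / ρ) := rfl

structure PD.Good (P : PD) : Prop where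
  c0 : ∀ k, 0 ≤ P.χ k
  c1 : ∀ k, P.χ k ≤ 1
  hS : ∀ k l, |P.S k - P.S l| ≤ P.Em k l
  hx : ∀ k, |P.x - P.S k| ≤ P.D k
  t1 : ∀ k l, P.D l ≤ P.D k + P.Em k l
  t2 : ∀ k l, P.Em k l ≤ P.D k + P.D l
  t3 : ∀ k l, P.D k ≤ P.D l + P.Em k l
  t4 : ∀ k l, P.Em k k ≤ 2 * P.Em k l
  t5 : ∀ k l, P.Em l l ≤ 2 * P.Em k l

lemma PD.Good.E0 {P : PD} (h : P.Good) (k l : ℕ) : 0 ≤ P.Em k l :=
  le_trans (abs_nonneg _) (h.hS k l)

lemma PD.Good.D0 {P : PD} (h : P.Good) (k : ℕ) : 0 ≤ P.D k :=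
  le_trans (abs_nonneg _) (h.hx k)

/-- log-Lipschitz profile -/
def LL (Ψ : ℝ → E) : Prop := ∀ b b' : ℝ, 0 < b → b ≤ b' → ‖Ψ b' - Ψ b‖ ≤ Real.log (b' / b)

omit [NormedSpace ℝ E] in
lemma LL.lin {Ψ : ℝ → E} (h : LL Ψ) {b b' : ℝ} (hb : 0 < b) (hbb : b ≤ b') :
    ‖Ψ b' - Ψ b‖ ≤ (b' - b) / b := by
  refine le_trans (h b b' hb hbb) ?_
  have h1 : 0 < b' / b := div_pos (lt_of_lt_of_le hb hbb) hb
  have := Real.log_le_sub_one_of_pos h1
  have h2 : (b' - b) / b = b' / b - 1 := by field_simp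
  linarith

lemma LL.mv {Ψ : ℝ → E} (h : LL Ψ) {v ρ b b' : ℝ} (hb : 0 < b) (hbb : b ≤ b')
    (hv : |v| ≤ ρ * b) : ‖v • (Ψ b - Ψ b')‖ ≤ ρ * (b' - b) := by
  rw [norm_smul, Real.norm_eq_abs, norm_sub_rev]
  have h1 := h.lin hb hbb
  have h2 : 0 ≤ (b' - b) / b := div_nonneg (by linarith) hb.le
  calc |v| * ‖Ψ b' - Ψ b‖ ≤ (ρ * b) * ((b' - b) / b) :=
        mul_le_mul hv h1 (norm_nonneg _) (le_trans (abs_nonneg _) hv)
    _ = ρ * (b' - b) := by field_simp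

lemma three {P : PD} (hP : P.Good) {Ψ : ℝ → E} (h : LL Ψ) (k up : ℕ) {ρ b : ℝ} (hρ : 0 < ρ)
    (hb : 0 < b) :
    ‖(P.S k - P.S up) • Ψ (b + P.Em k up / ρ) + P.V Ψ 0 k (ρ / 2) (b + P.Em k up / ρ) -
      P.V Ψ 0 up ρ b‖ ≤ 6 * P.D k := by
  rw [PD.V_zero, PD.V_zero]
  set A := P.D up with hA
  set B := P.Em k up with hB
  set e := P.D k with he
  have hA0 : 0 ≤ A := hP.D0 _
  have hB0 : 0 ≤ B := hP.E0 _ _
  have he0 : 0 ≤ e := hP.D0 _
  have t1 : A ≤ e + B := hP.t1 k up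
  have t2 : B ≤ e + A := hP.t2 k up
  have t3 : e ≤ A + B := hP.t3 k up
  set mx := max A B with hmx
  have m1 : A ≤ mx := le_max_left _ _
  have m2 : B ≤ mx := le_max_right _ _
  have m3 : mx ≤ e + A := max_le (by linarith) t2
  have m4 : mx ≤ e + B := max_le t1 (by linarith)
  set bs := b + mx / ρ with hbs
  have key : (P.S k - P.S up) • Ψ (b + B / ρ) + (P.x - P.S k) • Ψ (b + B / ρ + e / (ρ / 2)) -
      (P.x - P.S up) • Ψ (b + A / ρ) =
      (P.S k - P.S up) • (Ψ (b + B / ρ) - Ψ bs) -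
        (P.x - P.S k) • (Ψ bs - Ψ (b + B / ρ + e / (ρ / 2))) -
        (P.x - P.S up) • (Ψ (b + A / ρ) - Ψ bs) := by
    simp only [smul_sub, sub_smul]
    abel
  rw [key]
  have hAρ : 0 ≤ A / ρ := div_nonneg hA0 hρ.le
  have hBρ : 0 ≤ B / ρ := div_nonneg hB0 hρ.le
  have hmρ : 0 ≤ mx / ρ := div_nonneg (le_trans hA0 m1) hρ.le
  have n1 : ‖(P.S k - P.S up) • (Ψ (b + B / ρ) - Ψ bs)‖ ≤ ρ * (bs - (b + B / ρ)) := by
    apply h.mv (by linarith)
    · have := div_le_div_of_nonneg_right m2 hρ.le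
      linarith
    · refine le_trans (hP.hS k up) ?_
      have : ρ * (b + B / ρ) = ρ * b + B := by field_simp
      rw [this]; nlinarith
  have n3 : ‖(P.x - P.S up) • (Ψ (b + A / ρ) - Ψ bs)‖ ≤ ρ * (bs - (b + A / ρ)) := by
    apply h.mv (by linarith)
    · have := div_le_div_of_nonneg_right m1 hρ.le
      linarith
    · refine le_trans (hP.hx up) ?_
      have : ρ * (b + A / ρ) = ρ * b + A := by field_simp
      rw [this]; nlinarith
  have e2 : e / (ρ / 2) = (2 * e) / ρ := by field_simp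
  have n2 : ‖(P.x - P.S k) • (Ψ bs - Ψ (b + B / ρ + e / (ρ / 2)))‖ ≤
      (2 * ρ) * ((b + B / ρ + e / (ρ / 2)) - bs) := by
    apply h.mv (by linarith)
    · rw [e2, hbs, add_assoc, ← add_div]
      have : mx / ρ ≤ (B + 2 * e) / ρ := div_le_div_of_nonneg_right (by linarith) hρ.le
      linarith
    · refine le_trans (hP.hx k) ?_
      have : 2 * ρ * bs = 2 * ρ * b + 2 * mx := by rw [hbs]; field_simp
      rw [this]; nlinarith
  have q1 : ρ * (bs - (b + B / ρ)) = mx - B := by rw [hbs]; field_simp; ring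
  have q3 : ρ * (bs - (b + A / ρ)) = mx - A := by rw [hbs]; field_simp; ring
  have q2 : (2 * ρ) * ((b + B / ρ + e / (ρ / 2)) - bs) = 2 * (B + 2 * e - mx) := by
    rw [hbs]; field_simp; ring
  refine le_trans (norm_sub_le _ _) ?_
  have := norm_sub_le ((P.S k - P.S up) • (Ψ (b + B / ρ) - Ψ bs))
    ((P.x - P.S k) • (Ψ bs - Ψ (b + B / ρ + e / (ρ / 2))))
  linarith

lemma lemA {P : PD} (hP : P.Good) {Ψ : ℝ → E} (h : LL Ψ) (k : ℕ) :
    ∀ (up : ℕ) (ρ b : ℝ), 0 < ρ → 0 < b →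
      ‖P.V Ψ k up ρ b - P.V Ψ 0 up ρ b‖ ≤ 6 * ∑ i ∈ range k, P.χ i * P.D i := by
  induction k with
  | zero => intro up ρ b _ _; simp
  | succ k ih =>
    intro up ρ b hρ hb
    have hb' : 0 < b + P.Em k up / ρ := by
      have := div_nonneg (hP.E0 k up) hρ.le
      linarith
    have h1 := three hP h k up hρ hb
    have h2 := ih k (ρ / 2) _ (by linarith) hb'
    have h3 := ih up ρ b hρ hb
    have key : P.V Ψ (k + 1) up ρ b - P.V Ψ 0 up ρ b =
        P.χ k • (((P.S k - P.S up) • Ψ (b + P.Em k up / ρ) +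
          P.V Ψ 0 k (ρ / 2) (b + P.Em k up / ρ) - P.V Ψ 0 up ρ b) +
          (P.V Ψ k k (ρ / 2) (b + P.Em k up / ρ) - P.V Ψ 0 k (ρ / 2) (b + P.Em k up / ρ))) +
          (1 - P.χ k) • (P.V Ψ k up ρ b - P.V Ψ 0 up ρ b) := by
      rw [PD.V_succ, PD.Inc]
      simp only [smul_sub, smul_add, sub_smul, one_smul]
      abel
    rw [key, sum_range_succ]
    have c0 := hP.c0 k
    have c1 := hP.c1 k
    refine le_trans (norm_add_le _ _) ?_
    rw [norm_smul, norm_smul, Real.norm_eq_abs, Real.norm_eq_abs, abs_of_nonneg c0,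
      abs_of_nonneg (by linarith : 0 ≤ 1 - P.χ k)]
    have h4 := le_trans (norm_add_le _ _) (add_le_add h1 h2)
    have h5 := mul_le_mul_of_nonneg_left h4 c0
    have h6 := mul_le_mul_of_nonneg_left h3 (by linarith : 0 ≤ 1 - P.χ k)
    nlinarith

lemma lemIns {P : PD} (hP : P.Good) {Ψ : ℝ → E} (h : LL Ψ) (k up : ℕ) {ρ b : ℝ} (hρ : 0 < ρ)
    (hb : 0 < b) :
    ‖P.Inc Ψ k up ρ b - P.V Ψ k up ρ b‖ ≤ 12 * ∑ i ∈ range (k + 1), P.D i := by
  have hb' : 0 < b + P.Em k up / ρ := by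
    have := div_nonneg (hP.E0 k up) hρ.le
    linarith
  have h1 := three hP h k up hρ hb
  have h2 := lemA hP h k k (ρ / 2) _ (by linarith) hb'
  have h3 := lemA hP h k up ρ b hρ hb
  have key : P.Inc Ψ k up ρ b - P.V Ψ k up ρ b =
      (((P.S k - P.S up) • Ψ (b + P.Em k up / ρ) +
          P.V Ψ 0 k (ρ / 2) (b + P.Em k up / ρ) - P.V Ψ 0 up ρ b) +
          (P.V Ψ k k (ρ / 2) (b + P.Em k up / ρ) - P.V Ψ 0 k (ρ / 2) (b + P.Em k up / ρ))) -
          (P.V Ψ k up ρ b - P.V Ψ 0 up ρ b) := by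
    rw [PD.Inc]; abel
  rw [key, sum_range_succ]
  have h4 := le_trans (norm_add_le _ _) (add_le_add h1 h2)
  have h5 := le_trans (norm_sub_le _ _) (add_le_add h4 h3)
  have h6 : ∑ i ∈ range k, P.χ i * P.D i ≤ ∑ i ∈ range k, P.D i := by
    apply sum_le_sum
    intro i _
    have := hP.c1 i
    have := hP.D0 i
    nlinarith
  have := hP.D0 k
  linarith

lemma V_map {F : Type*} [NormedAddCommGroup F] [NormedSpace ℝ F] (P : PD) (Ψ : ℝ → E)
    (f : E →ₗ[ℝ] F) (k : ℕ) : ∀ (up : ℕ) (ρ b : ℝ),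
      f (P.V Ψ k up ρ b) = P.V (fun t => f (Ψ t)) k up ρ b := by
  induction k with
  | zero => intro up ρ b; simp [PD.V_zero]
  | succ k ih =>
    intro up ρ b
    simp only [PD.V_succ, PD.Inc, map_add, map_smul, ih]

noncomputable def rr (r0 : ℝ) (i : ℕ) : ℝ := r0 * 2 ^ i

lemma rr_pos {r0 : ℝ} (h : 0 < r0) (i : ℕ) : 0 < rr r0 i := by unfold rr; positivity

lemma rr_succ (r0 : ℝ) (i : ℕ) : rr r0 (i + 1) = 2 * rr r0 i := by unfold rr; ring

lemma rr_mono {r0 : ℝ} (h : 0 < r0) {i k : ℕ} (hik : i ≤ k) : rr r0 i ≤ rr r0 k := by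
  unfold rr
  exact mul_le_mul_of_nonneg_left (pow_le_pow_right₀ (by norm_num) hik) h.le

lemma rr_lt {r0 : ℝ} (h : 0 < r0) {i k : ℕ} (hik : i < k) : 2 * rr r0 i ≤ rr r0 k := by
  rw [← rr_succ]; exact rr_mono h hik

/-- vanishing above the support -/
lemma V_above {P : PD} (hP : P.Good) {Ψ : ℝ → E} {bb : ℝ} (h0 : ∀ b, bb < b → Ψ b = 0) (k : ℕ) :
    ∀ (up : ℕ) (ρ b : ℝ), 0 < ρ → bb < b → P.V Ψ k up ρ b = 0 := by
  induction k with
  | zero =>
    intro up ρ b hρ hb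
    have := div_nonneg (hP.D0 up) hρ.le
    rw [PD.V_zero, h0 _ (by linarith), smul_zero]
  | succ k ih =>
    intro up ρ b hρ hb
    have := div_nonneg (hP.E0 k up) hρ.le
    rw [PD.V_succ, PD.Inc, h0 _ (by linarith), ih k _ _ (by linarith) (by linarith),
      ih up ρ b hρ hb]
    simp

/-- vanishing below the support -/
lemma V_below {P : PD} (hP : P.Good) {Ψ : ℝ → E} {bm r0 : ℝ} (hr : 0 < r0)
    (h0 : ∀ b, 0 < b → b ≤ bm → Ψ b = 0) (k : ℕ) :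
    ∀ (up : ℕ) (ρ b : ℝ), k ≤ up → rr r0 up ≤ ρ → 0 < b →
      b + P.D up / rr r0 up + 2 * ∑ i ∈ range k, P.D i / rr r0 i ≤ bm → P.V Ψ k up ρ b = 0 := by
  induction k with
  | zero =>
    intro up ρ b _ hρ hb hbm
    have hu := rr_pos hr up
    have h1 := div_nonneg (hP.D0 up) (le_trans hu.le hρ)
    have h2 : P.D up / ρ ≤ P.D up / rr r0 up := div_le_div_of_nonneg_left (hP.D0 up) hu hρ
    rw [PD.V_zero, h0 _ (by linarith) (by simp at hbm; linarith), smul_zero]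
  | succ k ih =>
    intro up ρ b hk hρ hb hbm
    have hu := rr_pos hr up
    have hkp := rr_pos hr k
    have hρ0 : 0 < ρ := lt_of_lt_of_le hu hρ
    have h1 := div_nonneg (hP.E0 k up) hρ0.le
    have hlt := rr_lt hr (show k < up by omega)
    have h2 : P.Em k up / ρ ≤ P.D k / rr r0 k + P.D up / rr r0 up := by
      have a1 : P.Em k up / ρ ≤ (P.D k + P.D up) / ρ :=
        div_le_div_of_nonneg_right (hP.t2 k up) hρ0.le
      have a2 : P.D k / ρ ≤ P.D k / rr r0 k :=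
        div_le_div_of_nonneg_left (hP.D0 k) hkp (by linarith)
      have a3 : P.D up / ρ ≤ P.D up / rr r0 up := div_le_div_of_nonneg_left (hP.D0 up) hu hρ
      rw [add_div] at a1
      linarith
    rw [sum_range_succ] at hbm
    have h3 : 0 ≤ ∑ i ∈ range k, P.D i / rr r0 i :=
      sum_nonneg fun i _ => div_nonneg (hP.D0 i) (rr_pos hr i).le
    have h4 : 0 ≤ P.D k / rr r0 k := div_nonneg (hP.D0 k) hkp.le
    rw [PD.V_succ, PD.Inc, h0 _ (by linarith) (by linarith),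
      ih k _ _ le_rfl (by linarith) (by linarith) (by linarith),
      ih up ρ b (by omega) hρ hb (by linarith)]
    simp

/-- crude size bound -/
lemma V_crude {P : PD} (hP : P.Good) {ψ : ℝ → ℝ} {bb m : ℝ} (hbb : 0 ≤ bb)
    (h0 : ∀ b, bb < b → ψ b = 0) (hm : ∀ b, |ψ b| ≤ m) (k : ℕ) :
    ∀ (up : ℕ) (ρ b : ℝ), 0 < ρ → 0 < b → |P.V ψ k up ρ b| ≤ 2 * ρ * bb * m := by
  have hm0 : 0 ≤ m := le_trans (abs_nonneg _) (hm 0)
  have term : ∀ (v A ρ b : ℝ), 0 < ρ → 0 < b → |v| ≤ A → |v • ψ (b + A / ρ)| ≤ ρ * bb * m := by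
    intro v A ρ b hρ hb hv
    by_cases hc : bb < b + A / ρ
    · rw [h0 _ hc]; simp; positivity
    · push Not at hc
      rw [smul_eq_mul, abs_mul]
      have : A ≤ ρ * bb := by
        have h1 : A / ρ ≤ bb := by linarith
        rwa [div_le_iff₀ hρ, mul_comm] at h1
      exact mul_le_mul (le_trans hv this) (hm _) (abs_nonneg _) (by positivity)
  induction k with
  | zero =>
    intro up ρ b hρ hb
    have := term _ _ ρ b hρ hb (hP.hx up)
    rw [PD.V_zero]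
    have : 0 ≤ ρ * bb * m := by positivity
    linarith
  | succ k ih =>
    intro up ρ b hρ hb
    have hb' : 0 < b + P.Em k up / ρ := by
      have := div_nonneg (hP.E0 k up) hρ.le
      linarith
    have h1 := term _ _ ρ b hρ hb (hP.hS k up)
    have h2 := ih k (ρ / 2) _ (by linarith) hb'
    have h3 := ih up ρ b hρ hb
    have h4 : |P.Inc ψ k up ρ b| ≤ 2 * ρ * bb * m := by
      rw [PD.Inc]
      refine le_trans (abs_add_le _ _) ?_
      linarith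
    have c0 := hP.c0 k
    have c1 := hP.c1 k
    rw [PD.V_succ]
    refine le_trans (abs_add_le _ _) ?_
    rw [smul_eq_mul, smul_eq_mul, abs_mul, abs_mul, abs_of_nonneg c0,
      abs_of_nonneg (by linarith : 0 ≤ 1 - P.χ k)]
    have h5 := mul_le_mul_of_nonneg_left h4 c0
    have h6 := mul_le_mul_of_nonneg_left h3 (by linarith : 0 ≤ 1 - P.χ k)
    nlinarith

lemma Inc_crude {P : PD} (hP : P.Good) {ψ : ℝ → ℝ} {bb m : ℝ} (hbb : 0 ≤ bb)
    (h0 : ∀ b, bb < b → ψ b = 0) (hm : ∀ b, |ψ b| ≤ m) (k up : ℕ) {ρ b : ℝ} (hρ : 0 < ρ)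
    (hb : 0 < b) : |P.Inc ψ k up ρ b| ≤ 2 * ρ * bb * m := by
  let P' : PD := { P with χ := fun i => if i = k then 1 else P.χ i }
  have hV : ∀ l, l ≤ k → ∀ (up : ℕ) (ρ b : ℝ), P'.V ψ l up ρ b = P.V ψ l up ρ b := by
    intro l
    induction l with
    | zero => intro _ up ρ b; rfl
    | succ l ih =>
      intro hl up ρ b
      have hne : l ≠ k := by omega
      simp only [PD.V_succ, PD.Inc, ih (by omega)]
      simp [P', hne]
  have hP' : P'.Good :=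
    { c0 := fun i => by
        by_cases hi : i = k
        · simp [P', hi]
        · simp [P', hi, hP.c0 i]
      c1 := fun i => by
        by_cases hi : i = k
        · simp [P', hi]
        · simp [P', hi, hP.c1 i]
      hS := hP.hS, hx := hP.hx, t1 := hP.t1, t2 := hP.t2, t3 := hP.t3, t4 := hP.t4, t5 := hP.t5 }
  have := V_crude hP' hbb h0 hm (k + 1) up ρ b hρ hb
  rw [PD.V_succ, PD.Inc, hV k le_rfl] at this
  simpa [P', PD.Inc] using this

end Vale.Agent.P249
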