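import Vale.Agent.P249.Tent

namespace Vale.Agent.P249

open Finset
open scoped ENNReal

variable {p : ℝ≥0∞} [Fact (1 ≤ p)] {X Ω : Type} [Fintype X] [Fintype Ω]

noncomputable def dd (p : ℝ≥0∞) [Fact (1 ≤ p)] (F : X → Ω → ℝ) (x y : X) : ℝ :=
  nm p (fun ω => F x ω - F y ω)

omit [Fintype X] in
lemma dd_isM (hq : 1 < p.toReal) (F : X → Ω → ℝ) : IsM (dd p F) := by
  refine ⟨fun x y => ?_, fun x y z => ?_, fun x => ?_⟩
  · unfold dd
    rw [← nm_abs hq, ← nm_abs hq (fun ω => F y ω - F x ω)]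
    simp only [abs_sub_comm]
  · unfold dd
    have := nm_add (p := p) (fun ω => F x ω - F y ω) (fun ω => F y ω - F z ω)
    simpa using this
  · unfold dd
    simp [nm_zero]

noncomputable def PP (p : ℝ≥0∞) [Fact (1 ≤ p)] (F : X → Ω → ℝ) (r0 : ℝ) (N : ℕ) (x0 : X) (l : ℝ)
    (ω : Ω) (x : X) : PD := mkPD (dd p F) r0 N x0 l (fun z => F z ω) x

structure Setup (p : ℝ≥0∞) [Fact (1 ≤ p)] (F : X → Ω → ℝ) (r0 : ℝ) (N : ℕ) (l : ℝ) : Prop where
  hq : 1 < p.toReal
  hr : 0 < r0
  hN : ∀ x y, dd p F x y ≤ rr r0 N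
  hl : 1 ≤ l
  hL : 1 ≤ Real.log (Fintype.card X)

variable {F : X → Ω → ℝ} {r0 : ℝ} {N : ℕ} {l : ℝ}

lemma D_norm (S : Setup p F r0 N l) (x0 x : X) (i : ℕ) :
    nm p (fun ω => (PP p F r0 N x0 l ω x).D i) ≤ lam (dd p F) r0 N x0 i x * rr r0 i := by
  have kp := ker_pr (dd_isM S.hq F) r0 N x0 i x
  have e : (fun ω => (PP p F r0 N x0 l ω x).D i) =
      fun ω => ∑ w, ker (dd p F) r0 N x0 i x w * |F x ω - F w ω| := by
    funext ω
    simp only [PP, mkPD, EE]
    rw [dlt_sum]
  rw [e]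
  refine le_trans (nm_sum _ _) (le_of_eq ?_)
  unfold lam
  rw [div_mul_cancel₀ _ (rr_pos S.hr i).ne']
  apply sum_congr rfl; intro w _
  rw [nm_smul (kp.nn w), nm_abs S.hq]
  rfl

lemma dl_norm (S : Setup p F r0 N l) (x0 x y : X) (i : ℕ) :
    nm p (fun ω => dl (PP p F r0 N x0 l ω x) (PP p F r0 N x0 l ω y) r0 i) ≤
      lam (dd p F) r0 N x0 i x + lam (dd p F) r0 N x0 i y := by
  have hr := rr_pos S.hr i
  have e : (fun ω => dl (PP p F r0 N x0 l ω x) (PP p F r0 N x0 l ω y) r0 i) =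
      fun ω => (1 / rr r0 i) * ((PP p F r0 N x0 l ω x).D i + (PP p F r0 N x0 l ω y).D i) := by
    funext ω; unfold dl; ring
  rw [e, nm_smul (by positivity)]
  have := le_trans (nm_add _ _) (add_le_add (D_norm S x0 x i) (D_norm S x0 y i))
  rw [one_div, ← div_eq_inv_mul, div_le_iff₀ hr]
  linarith

noncomputable def flo (Ω : Type) [Fintype Ω] : ℝ := 1 / (Fintype.card Ω + 1)

lemma flo_pos : 0 < flo Ω := by unfold flo; positivity

lemma flo_le : flo Ω ≤ 1 := by
  unfold flo
  rw [div_le_one (by positivity)]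
  have : (0 : ℝ) ≤ Fintype.card Ω := Nat.cast_nonneg _
  linarith

lemma flo_norm (hq : 1 < p.toReal) : nm p (fun _ : Ω => flo Ω) ≤ 1 := by
  apply nm_le_of hq zero_le_one
  rw [Real.one_rpow, abs_of_pos flo_pos, sum_const, card_univ, nsmul_eq_mul]
  have h1 : flo Ω ^ p.toReal ≤ flo Ω := by
    have := Real.rpow_le_rpow_of_exponent_ge flo_pos (flo_le (Ω := Ω)) hq.le
    rwa [Real.rpow_one] at this
  have h2 : (Fintype.card Ω : ℝ) * flo Ω ≤ 1 := by
    unfold flo
    rw [mul_one_div, div_le_one (by positivity)]; linarith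
  exact le_trans (mul_le_mul_of_nonneg_left h1 (Nat.cast_nonneg _)) h2

noncomputable def bmx (p : ℝ≥0∞) [Fact (1 ≤ p)] (F : X → Ω → ℝ) (r0 : ℝ) (N : ℕ) (x0 : X) (l : ℝ)
    (x y : X) (ω : Ω) : ℝ :=
  flo Ω + dl (PP p F r0 N x0 l ω x) (PP p F r0 N x0 l ω y) r0 N +
    2 * ∑ i ∈ range N, dl (PP p F r0 N x0 l ω x) (PP p F r0 N x0 l ω y) r0 i

lemma lam_sum2 (S : Setup p F r0 N l) (x0 x y : X) :
    ∑ i ∈ range N, (lam (dd p F) r0 N x0 i x + lam (dd p F) r0 N x0 i y) ≤
      4 * Real.log (Fintype.card X) := by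
  rw [sum_add_distrib]
  linarith [lam_sum (dd_isM S.hq F) S.hr N x0 x, lam_sum (dd_isM S.hq F) S.hr N x0 y]

lemma bmx_norm (S : Setup p F r0 N l) (x0 x y : X) :
    nm p (bmx p F r0 N x0 l x y) ≤ 3 + 8 * Real.log (Fintype.card X) := by
  unfold bmx
  refine le_trans (nm_add _ _) ?_
  have a1 := le_trans (nm_add (p := p) (fun _ : Ω => flo Ω) _)
    (add_le_add (flo_norm S.hq) (dl_norm S x0 x y N))
  rw [nm_smul (by norm_num)]
  have a2 := le_trans (nm_sum (p := p) (range N)
    (fun i ω => dl (PP p F r0 N x0 l ω x) (PP p F r0 N x0 l ω y) r0 i))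
    (sum_le_sum fun i _ => dl_norm S x0 x y i)
  have a3 := lam_sum2 S x0 x y
  have a4 := lam_top (d := dd p F) S.hr (S.hN x x0)
  have a5 := lam_top (d := dd p F) S.hr (S.hN y x0)
  linarith

lemma PP_good (S : Setup p F r0 N l) (x0 : X) (ω : Ω) (x : X) : (PP p F r0 N x0 l ω x).Good :=
  mkPD_good (dd_isM S.hq F) _ _ _ _ _ _

lemma bmx_pos (S : Setup p F r0 N l) (x0 x y : X) (ω : Ω) : 0 < bmx p F r0 N x0 l x y ω := by
  unfold bmx
  have h := fun i => dl_nonneg (PP_good S x0 ω x) (PP_good S x0 ω y) S.hr i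
  have := sum_nonneg (s := range N) fun i _ => h i
  linarith [flo_pos (Ω := Ω), h N]

lemma exists_j (S : Setup p F r0 N l) {x y : X} (hxy : r0 ≤ dd p F x y) :
    ∃ j, j ≤ N ∧ dd p F x y ≤ rr r0 j ∧ rr r0 j ≤ 2 * dd p F x y := by
  classical
  have ex : ∃ j, dd p F x y ≤ rr r0 j := ⟨N, S.hN x y⟩
  refine ⟨Nat.find ex, Nat.find_min' ex (S.hN x y), Nat.find_spec ex, ?_⟩
  rcases h : Nat.find ex with _ | k
  · unfold rr; simp; linarith [S.hr]
  · have := Nat.find_min ex (show k < Nat.find ex by omega)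
    rw [rr_succ]; linarith [not_le.mp this]

lemma chi_diff (S : Setup p F r0 N l) (x0 : X) {x y : X} {i : ℕ} (hi : dd p F x y ≤ rr r0 i) :
    |chi l (lam (dd p F) r0 N x0 i x) - chi l (lam (dd p F) r0 N x0 i y)| ≤
      8 * (dd p F x y / rr r0 i) / l := by
  have hM := dd_isM S.hq F
  have h1 := lam_close hM S.hr N x0 hi
  have h2 := lam_close hM S.hr N x0 (x := y) (y := x) (by rw [hM.symm]; exact hi)
  rw [hM.symm y x] at h2
  have := div_nonneg (hM.nn x y) (rr_pos S.hr i).le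
  exact chi_close (by linarith [S.hl]) (lam_nn hM S.hr N x0 i x) (lam_nn hM S.hr N x0 i y)
    (by positivity) h1 h2

lemma mis_sum (S : Setup p F r0 N l) (x0 : X) {x y : X} {j : ℕ} (hj : dd p F x y ≤ rr r0 j) :
    ∑ i ∈ Ico j N, |chi l (lam (dd p F) r0 N x0 i x) - chi l (lam (dd p F) r0 N x0 i y)| * rr r0 i ≤
      32 * dd p F x y * Real.log (Fintype.card X) := by
  have hM := dd_isM S.hq F
  have hd := hM.nn x y
  have hl : 0 < l := by linarith [S.hl]
  have ln := fun i z => lam_nn hM S.hr N x0 i z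
  calc _ ≤ ∑ i ∈ Ico j N, 8 * dd p F x y * (lam (dd p F) r0 N x0 i x + lam (dd p F) r0 N x0 i y) := by
        apply sum_le_sum; intro i hi
        have hri := rr_pos S.hr i
        have a1 := chi_diff S x0 (le_trans hj (rr_mono S.hr (mem_Ico.mp hi).1))
        by_cases hc : chi l (lam (dd p F) r0 N x0 i x) < 1 ∨ chi l (lam (dd p F) r0 N x0 i y) < 1
        · have a2 : 1 ≤ lam (dd p F) r0 N x0 i x + lam (dd p F) r0 N x0 i y := by
            rcases hc with hc | hc
            · linarith [chi_lt hl (ln i x) hc, ln i y, S.hl]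
            · linarith [chi_lt hl (ln i y) hc, ln i x, S.hl]
          have a3 : 8 * (dd p F x y / rr r0 i) / l ≤ 8 * (dd p F x y / rr r0 i) :=
            div_le_self (by positivity) S.hl
          have a4 := mul_le_mul_of_nonneg_right (le_trans a1 a3) hri.le
          have a5 : 8 * (dd p F x y / rr r0 i) * rr r0 i = 8 * dd p F x y := by field_simp
          have a6 := mul_le_mul_of_nonneg_left a2 (show 0 ≤ 8 * dd p F x y by positivity)
          linarith
        · push Not at hc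
          rw [le_antisymm (chi_le _ _) hc.1, le_antisymm (chi_le _ _) hc.2]
          have := ln i x
          have := ln i y
          simp only [sub_self, abs_zero, zero_mul]
          positivity
    _ ≤ ∑ i ∈ range N, 8 * dd p F x y * (lam (dd p F) r0 N x0 i x + lam (dd p F) r0 N x0 i y) := by
        apply sum_le_sum_of_subset_of_nonneg
        · intro i hi
          exact mem_range.mpr (mem_Ico.mp hi).2
        · intro i _ _
          have := ln i x
          have := ln i y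
          positivity
    _ ≤ _ := by
        rw [← mul_sum]
        have := mul_le_mul_of_nonneg_left (lam_sum2 S x0 x y) (show 0 ≤ 8 * dd p F x y by positivity)
        linarith

lemma mis_norm (S : Setup p F r0 N l) (x0 : X) {x y : X} {j : ℕ} (hj : dd p F x y ≤ rr r0 j) :
    nm p (fun ω => ∑ i ∈ Ico j N, |(PP p F r0 N x0 l ω x).χ i - (PP p F r0 N x0 l ω y).χ i| *
      (12 * ∑ i' ∈ range (i + 1), (PP p F r0 N x0 l ω x).D i')) ≤
      dd p F x y * (384 * Real.log (Fintype.card X) / l) := by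
  have hM := dd_isM S.hq F
  have hd := hM.nn x y
  have hl : 0 < l := by linarith [S.hl]
  have ln := fun i z => lam_nn hM S.hr N x0 i z
  have w0 : ∀ i, 0 ≤ ∑ i' ∈ range i, lam (dd p F) r0 N x0 i' x * rr r0 i' := fun i =>
    sum_nonneg fun i' _ => mul_nonneg (ln i' x) (rr_pos S.hr i').le
  refine le_trans (nm_sum _ _) ?_
  calc _ ≤ ∑ i ∈ Ico j N, (96 * dd p F x y / l) *
        ((∑ i' ∈ range (i + 1), lam (dd p F) r0 N x0 i' x * rr r0 i') / rr r0 i) := by
        apply sum_le_sum; intro i hi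
        have a1 := chi_diff S x0 (le_trans hj (rr_mono S.hr (mem_Ico.mp hi).1))
        have e : (fun ω => |(PP p F r0 N x0 l ω x).χ i - (PP p F r0 N x0 l ω y).χ i| *
          (12 * ∑ i' ∈ range (i + 1), (PP p F r0 N x0 l ω x).D i')) =
          fun ω => (|chi l (lam (dd p F) r0 N x0 i x) - chi l (lam (dd p F) r0 N x0 i y)| * 12) *
            ∑ i' ∈ range (i + 1), (PP p F r0 N x0 l ω x).D i' := by
          funext ω; simp only [PP, mkPD]; ring
        rw [e, nm_smul (by positivity)]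
        have a2 := le_trans (nm_sum (p := p) (range (i + 1))
          (fun i' ω => (PP p F r0 N x0 l ω x).D i')) (sum_le_sum fun i' _ => D_norm S x0 x i')
        calc _ ≤ (8 * (dd p F x y / rr r0 i) / l * 12) *
              ∑ i' ∈ range (i + 1), lam (dd p F) r0 N x0 i' x * rr r0 i' := by
              have := rr_pos S.hr i
              exact mul_le_mul (by linarith) a2 (nm_nn _) (by positivity)
          _ = _ := by ring
    _ ≤ ∑ i ∈ range N, (96 * dd p F x y / l) *
        ((∑ i' ∈ range (i + 1), lam (dd p F) r0 N x0 i' x * rr r0 i') / rr r0 i) := by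
        apply sum_le_sum_of_subset_of_nonneg
        · intro i hi
          exact mem_range.mpr (mem_Ico.mp hi).2
        · intro i _ _
          have := w0 (i + 1)
          have := rr_pos S.hr i
          positivity
    _ ≤ _ := by
        rw [← mul_sum]
        have b1 := geo_w S.hr (fun i => lam (dd p F) r0 N x0 i x) N
        have b2 := div_nonneg (w0 N) (rr_pos S.hr N).le
        have b3 := lam_sum hM S.hr N x0 x
        have b4 := mul_le_mul_of_nonneg_left
          (show ∑ i ∈ range N, (∑ i' ∈ range (i + 1), lam (dd p F) r0 N x0 i' x * rr r0 i') / rr r0 i ≤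
            4 * Real.log (Fintype.card X) by linarith) (show 0 ≤ 96 * dd p F x y / l by positivity)
        refine le_trans b4 (le_of_eq ?_)
        ring

lemma low_norm (S : Setup p F r0 N l) (x0 x : X) (j : ℕ) :
    nm p (fun ω => 6 * ∑ i ∈ range j, (PP p F r0 N x0 l ω x).χ i * (PP p F r0 N x0 l ω x).D i) ≤
      6 * (Real.exp (2 * l) * rr r0 j) := by
  have hM := dd_isM S.hq F
  have hl : 0 < l := by linarith [S.hl]
  rw [nm_smul (by norm_num)]
  apply mul_le_mul_of_nonneg_left _ (by norm_num)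
  refine le_trans (nm_sum _ _) ?_
  refine le_trans ?_ (mul_le_mul_of_nonneg_left (geo_r S.hr j) (Real.exp_pos _).le)
  rw [mul_sum]
  apply sum_le_sum; intro i _
  have e : (fun ω => (PP p F r0 N x0 l ω x).χ i * (PP p F r0 N x0 l ω x).D i) =
      fun ω => chi l (lam (dd p F) r0 N x0 i x) * (PP p F r0 N x0 l ω x).D i := rfl
  rw [e, nm_smul (chi_nn _ _)]
  have hri := rr_pos S.hr i
  rcases eq_or_lt_of_le (chi_nn l (lam (dd p F) r0 N x0 i x)) with h | h
  · rw [← h, zero_mul]; positivity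
  · have a1 := chi_pos hl (lam_nn hM S.hr N x0 i x) h
    have a2 := D_norm S x0 x i
    have a3 := mul_le_mul_of_nonneg_right (chi_le l (lam (dd p F) r0 N x0 i x))
      (nm_nn (p := p) (fun ω => (PP p F r0 N x0 l ω x).D i))
    have a4 := mul_le_mul_of_nonneg_right
      (show lam (dd p F) r0 N x0 i x ≤ Real.exp (2 * l) by linarith) hri.le
    linarith

open Classical in
lemma M_exists (S : Setup p F r0 N l) (x0 : X) {x y : X} {j : ℕ} (hj : dd p F x y ≤ rr r0 j) :
    ∃ M : Ω → ℝ, (∀ ω, 0 ≤ M ω) ∧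
      (∀ ω i, j ≤ i → i < N → 0 < chi l (lam (dd p F) r0 N x0 i y) →
        dl (PP p F r0 N x0 l ω x) (PP p F r0 N x0 l ω y) r0 i ≤ M ω) ∧
      nm p M ≤ 40 * Real.exp (2 * l) * Real.log (Fintype.card X) ^ (1 / p.toReal) := by
  have hM := dd_isM S.hq F
  have hq := S.hq
  have hl : 0 < l := by linarith [S.hl]
  have ln := fun i z => lam_nn hM S.hr N x0 i z
  set q := p.toReal with hqdef
  set G := (range N).filter (fun i => j ≤ i ∧ 0 < chi l (lam (dd p F) r0 N x0 i y)) with hG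
  let δ : ℕ → Ω → ℝ := fun i ω => dl (PP p F r0 N x0 l ω x) (PP p F r0 N x0 l ω y) r0 i
  have δ0 : ∀ i ω, 0 ≤ δ i ω := fun i ω => dl_nonneg (PP_good S x0 ω x) (PP_good S x0 ω y) S.hr i
  have s0 : ∀ ω, 0 ≤ ∑ i ∈ G, δ i ω ^ q := fun ω => sum_nonneg fun i _ => Real.rpow_nonneg (δ0 i ω) q
  refine ⟨fun ω => (∑ i ∈ G, δ i ω ^ q) ^ (1 / q), fun ω => Real.rpow_nonneg (s0 ω) _, ?_, ?_⟩
  · intro ω i hi hiN hc
    have hiG : i ∈ G := by simp only [hG, mem_filter, mem_range]; exact ⟨hiN, hi, hc⟩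
    have a1 := single_le_sum (f := fun i => δ i ω ^ q) (fun i _ => Real.rpow_nonneg (δ0 i ω) q) hiG
    have a2 := Real.rpow_le_rpow (Real.rpow_nonneg (δ0 i ω) q) a1 (show 0 ≤ 1 / q by positivity)
    rw [← Real.rpow_mul (δ0 i ω), mul_one_div_cancel (by linarith), Real.rpow_one] at a2
    exact a2
  · have L1 := S.hL
    set L := Real.log (Fintype.card X) with hL
    set Γ := 10 * Real.exp (2 * l) with hΓ
    have hΓ1 : 1 ≤ Γ := by
      have := Real.add_one_le_exp (2 * l)
      linarith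
    apply nm_le_of hq (by positivity)
    have e1 : ∑ ω, |(∑ i ∈ G, δ i ω ^ q) ^ (1 / q)| ^ q = ∑ i ∈ G, nm p (δ i) ^ q := by
      simp only [hqdef, nm_rpow hq]
      rw [sum_comm]
      apply sum_congr rfl; intro ω _
      rw [abs_of_nonneg (Real.rpow_nonneg (s0 ω) _), ← Real.rpow_mul (s0 ω),
        one_div_mul_cancel (by linarith), Real.rpow_one]
      apply sum_congr rfl; intro i _
      rw [abs_of_nonneg (δ0 i ω)]
    rw [e1]
    have e2 : ∑ i ∈ G, nm p (δ i) ^ q ≤
        ∑ i ∈ G, Γ ^ q * (lam (dd p F) r0 N x0 i x + lam (dd p F) r0 N x0 i y) := by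
      apply sum_le_sum; intro i hi
      simp only [hG, mem_filter, mem_range] at hi
      have b1 := chi_pos hl (ln i y) hi.2.2
      have hi' := le_trans hj (rr_mono S.hr hi.2.1)
      have b2 := lam_close hM S.hr N x0 hi'
      have b3 : dd p F x y / rr r0 i ≤ 1 := by rw [div_le_one (rr_pos S.hr i)]; exact hi'
      have b4 := mul_le_mul_of_nonneg_left
        (show 1 + 8 * (dd p F x y / rr r0 i) ≤ 9 by linarith)
        (show 0 ≤ 1 + lam (dd p F) r0 N x0 i y by linarith [ln i y])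
      set t := lam (dd p F) r0 N x0 i x + lam (dd p F) r0 N x0 i y with ht
      have t0 : 0 ≤ t := add_nonneg (ln i x) (ln i y)
      have t1 : t ≤ Γ := by linarith
      have b5 := Real.rpow_le_rpow (nm_nn _) (dl_norm S x0 x y i) (show 0 ≤ q by linarith)
      have b6 : t ^ q = t ^ (q - 1) * t := by
        rw [← Real.rpow_add_one' t0 (by linarith)]; congr 1; ring
      have b7 : t ^ (q - 1) ≤ Γ ^ q :=
        le_trans (Real.rpow_le_rpow t0 t1 (by linarith))
          (Real.rpow_le_rpow_of_exponent_le hΓ1 (by linarith))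
      have b8 := mul_le_mul_of_nonneg_right b7 t0
      exact le_trans b5 (by linarith)
    refine le_trans e2 ?_
    rw [← mul_sum]
    have e3 : ∑ i ∈ G, (lam (dd p F) r0 N x0 i x + lam (dd p F) r0 N x0 i y) ≤ 4 * L :=
      le_trans (sum_le_sum_of_subset_of_nonneg (filter_subset _ _)
        fun i _ _ => add_nonneg (ln i x) (ln i y)) (lam_sum2 S x0 x y)
    have e4 : (40 * Real.exp (2 * l) * L ^ (1 / q)) ^ q = Γ ^ q * (4 ^ q * L) := by
      have : 40 * Real.exp (2 * l) * L ^ (1 / q) = Γ * (4 * L ^ (1 / q)) := by rw [hΓ]; ring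
      rw [this, Real.mul_rpow (by positivity) (by positivity),
        Real.mul_rpow (x := 4) (y := L ^ (1 / q)) (by positivity) (by positivity),
        ← Real.rpow_mul (show 0 ≤ L by linarith),
        one_div_mul_cancel (by linarith), Real.rpow_one]
    rw [e4]
    apply mul_le_mul_of_nonneg_left _ (by positivity)
    have b4 : (4 : ℝ) ≤ 4 ^ q := by
      have := Real.rpow_le_rpow_of_exponent_le (show (1 : ℝ) ≤ 4 by norm_num) hq.le
      rwa [Real.rpow_one] at this
    have := mul_le_mul_of_nonneg_right b4 (show 0 ≤ L by linarith)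
    linarith

noncomputable def Del (q L l η : ℝ) : ℝ :=
  1 + (196 / η + 296) * (5 + 80 * Real.exp (2 * l) * L ^ (1 / q)) + (64 + 2 * L / l + 1 / η) +
    36 * η * (3 + 8 * L) + 384 * L / l + 24 * Real.exp (2 * l)

theorem err_norm {E : Type*} [NormedAddCommGroup E] [NormedSpace ℝ E] (S : Setup p F r0 N l) (x0 : X)
    {x y : X} (hxy : r0 ≤ dd p F x y) {Ψ : ℝ → E} (h : LL Ψ) {η : ℝ} (hη : 0 < η) :
    ∃ Err : Ω → ℝ, (∀ ω, ‖(PP p F r0 N x0 l ω x).V Ψ N N (rr r0 N) (flo Ω) -
      (PP p F r0 N x0 l ω y).V Ψ N N (rr r0 N) (flo Ω) -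
      (F x ω - F y ω) • Ψ (|F x ω - F y ω| / dd p F x y + flo Ω)‖ ≤ Err ω) ∧
      nm p Err + dd p F x y ≤ Del p.toReal (Real.log (Fintype.card X)) l η * dd p F x y := by
  have hM := dd_isM S.hq F
  have hq := S.hq
  have hl : 0 < l := by linarith [S.hl]
  have hd : 0 < dd p F x y := lt_of_lt_of_le S.hr hxy
  obtain ⟨j, hjN, hj1, hj2⟩ := exists_j S hxy
  obtain ⟨M1, M10, M11, M12⟩ := M_exists S x0 hj1
  set d := dd p F x y with hdd
  set L := Real.log (Fintype.card X) with hL
  set σ := TT (fun i => chi l (lam (dd p F) r0 N x0 i y)) N 0 with hσ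
  let a0 : Ω → ℝ := fun ω => |F x ω - F y ω| / d
  let M : Ω → ℝ := fun ω => a0 ω + 2 * dl (PP p F r0 N x0 l ω x) (PP p F r0 N x0 l ω y) r0 N + 2 * M1 ω
  have a00 : ∀ ω, 0 ≤ a0 ω := fun ω => div_nonneg (abs_nonneg _) hd.le
  have na0 : nm p a0 = 1 := by
    have e : a0 = fun ω => (1 / d) * |F x ω - F y ω| := by funext ω; simp only [a0]; ring
    rw [e, nm_smul (by positivity), nm_abs hq]
    show 1 / d * d = 1
    field_simp
  have nM : nm p M ≤ 5 + 80 * Real.exp (2 * l) * L ^ (1 / p.toReal) := by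
    refine le_trans (nm_add _ _) ?_
    have b1 := nm_add (p := p) a0
      (fun ω => 2 * dl (PP p F r0 N x0 l ω x) (PP p F r0 N x0 l ω y) r0 N)
    rw [nm_smul (by norm_num)] at b1 ⊢
    have b2 := dl_norm S x0 x y N
    have a4 := lam_top (d := dd p F) S.hr (S.hN x x0)
    have a5 := lam_top (d := dd p F) S.hr (S.hN y x0)
    linarith
  have hσ1 : 1 ≤ σ := by rw [hσ]; unfold TT; exact one_le_pow₀ (by norm_num)
  have hlσ : Real.log (64 * σ) ≤ 64 + 2 * L / l := by
    rw [Real.log_mul (by norm_num) (by linarith)]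
    have b1 := Real.log_le_sub_one_of_pos (show (0 : ℝ) < 64 by norm_num)
    have b2 := Real.log_le_log (by linarith) (TT_le hM S.hr N x0 hl y)
    rw [Real.log_exp] at b2
    linarith
  have hlσ0 : 0 ≤ Real.log (64 * σ) := Real.log_nonneg (by linarith)
  refine ⟨fun ω => (d * (196 / η + 296)) * M ω + (d * (Real.log (64 * σ) + 1 / η)) * a0 ω +
    (d * (36 * η)) * bmx p F r0 N x0 l x y ω +
    ∑ i ∈ Ico j N, |(PP p F r0 N x0 l ω x).χ i - (PP p F r0 N x0 l ω y).χ i| *
      (12 * ∑ i' ∈ range (i + 1), (PP p F r0 N x0 l ω x).D i') +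
    6 * ∑ i ∈ range j, (PP p F r0 N x0 l ω x).χ i * (PP p F r0 N x0 l ω x).D i +
    6 * ∑ i ∈ range j, (PP p F r0 N x0 l ω y).χ i * (PP p F r0 N x0 l ω y).D i, fun ω => ?_, ?_⟩
  · have gx := PP_good S x0 ω x
    have gy := PP_good S x0 ω y
    have dN := dl_nonneg gx gy S.hr N
    have key : ∀ i, dl (PP p F r0 N x0 l ω x) (PP p F r0 N x0 l ω y) r0 i * 2 ≤ M ω →
        2 * (PP p F r0 N x0 l ω x).D i ≤ M ω * rr r0 i ∧
        2 * (PP p F r0 N x0 l ω y).D i ≤ M ω * rr r0 i := by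
      intro i hi
      unfold dl at hi
      rw [div_mul_eq_mul_div, div_le_iff₀ (rr_pos S.hr i)] at hi
      constructor <;> linarith [gx.D0 i, gy.D0 i]
    have m := main_err gx gy (mkPD_pair hM S.hr N x0 l (fun z => F z ω) hd hjN hj1 hj2) h
      (M := M ω) (bm := bmx p F r0 N x0 l x y ω) (flo_pos (Ω := Ω)) hη
      (by show a0 ω ≤ M ω; simp only [M]; linarith [M10 ω])
      (fun i hi hiN hc => key i (by
        have := M11 ω i hi hiN hc
        simp only [M]; linarith [a00 ω]))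
      (key N (by simp only [M]; linarith [a00 ω, M10 ω])) le_rfl
    refine le_trans m (le_of_eq ?_)
    simp only [a0]
    ring
  · have n1 := mis_norm S x0 hj1
    have n2 := low_norm S x0 x j
    have n3 := low_norm S x0 y j
    have n4 := bmx_norm S x0 x y
    have c1 := nm_add (p := p) (fun ω => (d * (196 / η + 296)) * M ω)
      (fun ω => (d * (Real.log (64 * σ) + 1 / η)) * a0 ω)
    rw [nm_smul (by positivity), nm_smul (by positivity), na0] at c1
    have c2 := nm_smul (p := p) (show 0 ≤ d * (36 * η) by positivity) (bmx p F r0 N x0 l x y)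
    have c3 := le_trans (nm_add _ _) (add_le_add (le_trans (nm_add _ _) (add_le_add
      (le_trans (nm_add _ _) (add_le_add (le_trans (nm_add _ _) (add_le_add c1 c2.le)) n1)) n2)) n3)
    have d1 := mul_le_mul_of_nonneg_left nM (show 0 ≤ d * (196 / η + 296) by positivity)
    have d2 := mul_le_mul_of_nonneg_left hlσ hd.le
    have d3 := mul_le_mul_of_nonneg_left n4 (show 0 ≤ d * (36 * η) by positivity)
    have d4 := mul_le_mul_of_nonneg_left hj2 (Real.exp_pos (2 * l)).le
    unfold Del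
    linarith

end Vale.Agent.P249
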