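import Vale.Agent.P249.Core1

namespace Vale.Agent.P249

open Finset
open scoped ENNReal

variable {p : ℝ≥0∞} [Fact (1 ≤ p)] {X Ω : Type} [Fintype X] [Fintype Ω]
variable {F : X → Ω → ℝ} {r0 : ℝ} {N : ℕ} {l : ℝ}

noncomputable def HH (p : ℝ≥0∞) [Fact (1 ≤ p)] (F : X → Ω → ℝ) (r0 : ℝ) (N : ℕ) (x0 : X) (l : ℝ)
    (m s : ℕ) (ω : Ω) (x : X) : ℝ :=
  (PP p F r0 N x0 l ω x).V (psi p.toReal m s) N N (rr r0 N) (flo Ω)

noncomputable def RR (p : ℝ≥0∞) [Fact (1 ≤ p)] (F : X → Ω → ℝ) (r0 : ℝ) (N : ℕ) (x0 : X) (l : ℝ)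
    (m Nw : ℕ) (x y : X) (ω : Ω) : ℝ :=
  nm p (fun s : Fin Nw => HH p F r0 N x0 l m s ω x - HH p F r0 N x0 l m s ω y)

lemma RR_eq (x0 : X) (m Nw : ℕ) (x y : X) (ω : Ω) : RR p F r0 N x0 l m Nw x y ω =
    ‖(PP p F r0 N x0 l ω x).V (Psi p m Nw) N N (rr r0 N) (flo Ω) -
      (PP p F r0 N x0 l ω y).V (Psi p m Nw) N N (rr r0 N) (flo Ω)‖ := by
  unfold RR nm
  congr 1
  ext s
  have h := fun z => V_map (PP p F r0 N x0 l ω z) (Psi p m Nw)
    (PiLp.projₗ (𝕜 := ℝ) p (fun _ : Fin Nw => ℝ) s) N N (rr r0 N) (flo Ω)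
  have h1 := h x
  have h2 := h y
  simp only [PiLp.projₗ_apply] at h1 h2
  simp only [PiLp.sub_apply, h1, h2]
  rfl

lemma RR_bounds (S : Setup p F r0 N l) (x0 : X) {x y : X} (hxy : r0 ≤ dd p F x y) {η : ℝ}
    (hη : 0 < η) {m Nw : ℕ} (hNw : ⌈1 - Real.log (flo Ω)⌉₊ + 3 * m + 1 ≤ Nw) :
    nm p (RR p F r0 N x0 l m Nw x y) ≤
      (N0 p m + Del p.toReal (Real.log (Fintype.card X)) l η) * dd p F x y ∧
    (N0 p m - Del p.toReal (Real.log (Fintype.card X)) l η) * dd p F x y ≤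
      nm p (RR p F r0 N x0 l m Nw x y) := by
  have hq := S.hq
  have hd : 0 < dd p F x y := lt_of_lt_of_le S.hr hxy
  obtain ⟨Err, h1, h2⟩ := err_norm S x0 hxy (Psi_LL hq m Nw) hη
  have N00 : 0 ≤ N0 p m := nm_nn _
  have pt : ∀ ω, |RR p F r0 N x0 l m Nw x y ω - N0 p m * abs (F x ω - F y ω)| ≤
      Err ω + |F x ω - F y ω| := by
    intro ω
    have a0 : |F x ω - F y ω| / dd p F x y ≤ 1 := by
      rw [div_le_one hd]; exact le_nm hq (fun ω => F x ω - F y ω) ω
    have a1 : 0 ≤ |F x ω - F y ω| / dd p F x y := by positivity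
    have fp := flo_pos (Ω := Ω)
    have a2 := Psi_ref hq (m := m) (Nw := Nw) (b := |F x ω - F y ω| / dd p F x y + flo Ω)
      (by linarith) (by linarith [flo_le (Ω := Ω)]) (by
        refine le_trans ?_ hNw
        have := Real.log_le_log fp (show flo Ω ≤ |F x ω - F y ω| / dd p F x y + flo Ω by linarith)
        have := Nat.ceil_mono (show 1 - Real.log (|F x ω - F y ω| / dd p F x y + flo Ω) ≤
          1 - Real.log (flo Ω) by linarith)
        omega)
    have a3 := le_trans (abs_norm_sub_norm_le _ _) (h1 ω)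
    rw [← RR_eq, norm_smul, Real.norm_eq_abs] at a3
    have a4 := mul_le_mul_of_nonneg_left a2 (abs_nonneg (F x ω - F y ω))
    rw [← abs_of_nonneg (abs_nonneg (F x ω - F y ω)), ← abs_mul, abs_abs] at a4
    have a5 := abs_le.mp a3
    have a6 := abs_le.mp a4
    rw [abs_le]
    constructor <;> linarith [a5.1, a5.2, a6.1, a6.2]
  have nF : nm p (fun ω => |F x ω - F y ω|) = dd p F x y := nm_abs hq _
  have n1 := nm_add (p := p) Err (fun ω => |F x ω - F y ω|)
  have n2 := nm_smul (p := p) N00 (fun ω => |F x ω - F y ω|)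
  rw [nF] at n1 n2
  constructor
  · have b1 := nm_mono hq (f := RR p F r0 N x0 l m Nw x y)
      (g := fun ω => N0 p m * |F x ω - F y ω| + (Err ω + |F x ω - F y ω|)) (fun ω => by
        rw [abs_of_nonneg (show 0 ≤ RR p F r0 N x0 l m Nw x y ω from nm_nn _)]
        linarith [(abs_le.mp (pt ω)).2])
    have b2 := le_trans b1 (nm_add _ _)
    linarith
  · have b1 := nm_mono hq (f := fun ω => N0 p m * |F x ω - F y ω|)
      (g := fun ω => RR p F r0 N x0 l m Nw x y ω + (Err ω + |F x ω - F y ω|)) (fun ω => by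
        rw [abs_of_nonneg (by positivity)]
        linarith [(abs_le.mp (pt ω)).1])
    have b2 := le_trans b1 (nm_add _ _)
    linarith

noncomputable def Kc (L l : ℝ) (m : ℕ) : ℝ :=
  Real.exp (2 * L / l) * Real.exp (3 * m + 1) * (120 * m + 168 + 256 * m * L)

lemma HH_lip (S : Setup p F r0 N l) (x0 : X) {x y : X} (hxy : r0 ≤ dd p F x y) (m s : ℕ) (ω : Ω) :
    Real.exp s * |HH p F r0 N x0 l m s ω x - HH p F r0 N x0 l m s ω y| ≤
      Kc (Real.log (Fintype.card X)) l m * dd p F x y := by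
  have hM := dd_isM S.hq F
  have hl : 0 < l := by linarith [S.hl]
  have hd : 0 < dd p F x y := lt_of_lt_of_le S.hr hxy
  obtain ⟨j, hjN, hj1, hj2⟩ := exists_j S hxy
  have a1 := main_lip (PP_good S x0 ω x) (PP_good S x0 ω y)
    (mkPD_pair hM S.hr N x0 l (fun z => F z ω) hd hjN hj1 hj2) (psi_LL S.hq m s)
    (bb := Real.exp (3 * m + 1 - s)) (m := m) (Real.exp_pos _).le (flo_pos (Ω := Ω)) (by
      intro b hb
      unfold psi
      apply tent_zero
      have := Real.log_lt_log (Real.exp_pos _) hb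
      rw [Real.log_exp] at this
      exact le_trans (by linarith) (le_abs_self _)) (fun b => tent_le S.hq m _)
  have a2 := mis_sum S x0 hj1
  have a3 := TT_le hM S.hr N x0 hl y
  have m0 : (0 : ℝ) ≤ m := Nat.cast_nonneg m
  have L0 : 0 ≤ Real.log (Fintype.card X) := by linarith [S.hL]
  have a4 : |HH p F r0 N x0 l m s ω x - HH p F r0 N x0 l m s ω y| ≤
      Real.exp (2 * Real.log (Fintype.card X) / l) * Real.exp (3 * m + 1 - s) *
      ((120 * m + 168) * dd p F x y + 8 * m * (32 * dd p F x y * Real.log (Fintype.card X))) := by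
    refine le_trans a1 (mul_le_mul (mul_le_mul_of_nonneg_right a3 (Real.exp_pos _).le) ?_ ?_
      (by positivity))
    · exact add_le_add le_rfl (mul_le_mul_of_nonneg_left a2 (by positivity))
    · have : 0 ≤ ∑ i ∈ Ico j N, |(PP p F r0 N x0 l ω x).χ i - (PP p F r0 N x0 l ω y).χ i| * rr r0 i :=
        sum_nonneg fun i _ => mul_nonneg (abs_nonneg _) (rr_pos S.hr i).le
      positivity
  refine le_trans (mul_le_mul_of_nonneg_left a4 (Real.exp_pos _).le) (le_of_eq ?_)
  unfold Kc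
  rw [Real.exp_sub]
  field_simp
  ring

lemma HH_zero (S : Setup p F r0 N l) (x0 : X) (x y : X) (m s : ℕ) (ω : Ω)
    (hs : (s : ℝ) < m + 1 - Real.log (bmx p F r0 N x0 l x y ω)) :
    HH p F r0 N x0 l m s ω x = 0 ∧ HH p F r0 N x0 l m s ω y = 0 := by
  have gx := PP_good S x0 ω x
  have gy := PP_good S x0 ω y
  have h0 : ∀ b, 0 < b → b ≤ bmx p F r0 N x0 l x y ω → psi p.toReal m s b = 0 := by
    intro b hb hb2
    unfold psi
    apply tent_zero
    have := Real.log_le_log hb hb2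
    exact le_trans (by linarith) (neg_le_abs _)
  have e1 : ∀ i, (PP p F r0 N x0 l ω x).D i / rr r0 i ≤
      dl (PP p F r0 N x0 l ω x) (PP p F r0 N x0 l ω y) r0 i := fun i =>
    div_le_div_of_nonneg_right (by linarith [gy.D0 i]) (rr_pos S.hr i).le
  have e2 : ∀ i, (PP p F r0 N x0 l ω y).D i / rr r0 i ≤
      dl (PP p F r0 N x0 l ω x) (PP p F r0 N x0 l ω y) r0 i := fun i =>
    div_le_div_of_nonneg_right (by linarith [gx.D0 i]) (rr_pos S.hr i).le
  constructor
  · apply V_below gx S.hr h0 N N _ _ le_rfl le_rfl flo_pos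
    unfold bmx
    have := sum_le_sum (s := range N) fun i _ => e1 i
    linarith [e1 N]
  · apply V_below gy S.hr h0 N N _ _ le_rfl le_rfl flo_pos
    unfold bmx
    have := sum_le_sum (s := range N) fun i _ => e2 i
    linarith [e2 N]

lemma young {a b q : ℝ} (ha : 0 ≤ a) (hb : 0 < b) (hq : 1 < q) : b ^ (q - 1) * a ≤ a ^ q + b ^ q := by
  have p1 : 0 ≤ a ^ q := by positivity
  have p2 : 0 ≤ b ^ q := by positivity
  rcases le_total a b with h | h
  · have e : b ^ q = b ^ (q - 1) * b := by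
      rw [← Real.rpow_add_one hb.ne']; congr 1; ring
    have := mul_le_mul_of_nonneg_left h (show 0 ≤ b ^ (q - 1) by positivity)
    linarith
  · have e : a ^ q = a ^ (q - 1) * a := by
      rw [← Real.rpow_add_one (by linarith)]; congr 1; ring
    have := mul_le_mul_of_nonneg_right
      (Real.rpow_le_rpow hb.le h (show 0 ≤ q - 1 by linarith)) ha
    linarith

lemma HH_L1 (S : Setup p F r0 N l) (x0 : X) {x y : X} (hxy : r0 ≤ dd p F x y) (m Nw : ℕ) :
    ∑ ω, ∑ s : Fin Nw, Real.exp (-(p.toReal - 1) * s) *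
      (|HH p F r0 N x0 l m s ω x - HH p F r0 N x0 l m s ω y| / dd p F x y) ≤
      Real.exp (-(p.toReal - 1) * m) / (1 - Real.exp (-(p.toReal - 1))) *
        ((nm p (RR p F r0 N x0 l m Nw x y) / dd p F x y) ^ p.toReal +
          nm p (bmx p F r0 N x0 l x y) ^ p.toReal) := by
  have hq := S.hq
  have hd : 0 < dd p F x y := lt_of_lt_of_le S.hr hxy
  have h1 : 0 < 1 - Real.exp (-(p.toReal - 1)) := by
    have : Real.exp (-(p.toReal - 1)) < 1 := Real.exp_lt_one_iff.mpr (by linarith)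
    linarith
  rw [Real.div_rpow (nm_nn _) hd.le, nm_rpow hq, nm_rpow hq, sum_div, ← sum_add_distrib, mul_sum]
  apply sum_le_sum; intro ω _
  have bp := bmx_pos S x0 x y ω
  have R0 : 0 ≤ RR p F r0 N x0 l m Nw x y ω := nm_nn _
  set R := RR p F r0 N x0 l m Nw x y ω with hR
  set b := bmx p F r0 N x0 l x y ω with hb
  set c := p.toReal - 1 with hc
  have g := geo_tail (show 0 < c by linarith) (m + 1 - Real.log b) Nw
  rw [← Fin.sum_univ_eq_sum_range
    (fun s => if m + 1 - Real.log b ≤ (s : ℝ) then Real.exp (-c * s) else 0)] at g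
  have a1 : ∑ s : Fin Nw, Real.exp (-c * s) *
      (|HH p F r0 N x0 l m s ω x - HH p F r0 N x0 l m s ω y| / dd p F x y) ≤
      (∑ s : Fin Nw, (if m + 1 - Real.log b ≤ ((s : ℕ) : ℝ) then Real.exp (-c * (s : ℕ)) else 0)) *
        (R / dd p F x y) := by
    rw [sum_mul]
    apply sum_le_sum; intro s _
    split_ifs with h
    · apply mul_le_mul_of_nonneg_left _ (Real.exp_pos _).le
      apply div_le_div_of_nonneg_right _ hd.le
      exact le_nm hq (fun s : Fin Nw => HH p F r0 N x0 l m s ω x - HH p F r0 N x0 l m s ω y) s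
    · obtain ⟨z1, z2⟩ := HH_zero S x0 x y m s ω (not_le.mp h)
      rw [z1, z2]; simp
  refine le_trans a1 (le_trans (mul_le_mul_of_nonneg_right g (by positivity)) ?_)
  have a2 : Real.exp (-c * (m + 1 - Real.log b)) ≤ Real.exp (-c * m) * b ^ c := by
    rw [Real.rpow_def_of_pos bp, ← Real.exp_add]
    apply Real.exp_le_exp.mpr
    nlinarith
  have a3 := young (show 0 ≤ R / dd p F x y by positivity) bp hq
  rw [abs_of_nonneg R0, abs_of_pos bp, ← Real.div_rpow R0 hd.le]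
  calc Real.exp (-c * (m + 1 - Real.log b)) / (1 - Real.exp (-c)) * (R / dd p F x y)
      ≤ (Real.exp (-c * m) * b ^ c) / (1 - Real.exp (-c)) * (R / dd p F x y) :=
        mul_le_mul_of_nonneg_right (div_le_div_of_nonneg_right a2 h1.le) (by positivity)
    _ = Real.exp (-c * m) / (1 - Real.exp (-c)) * (b ^ c * (R / dd p F x y)) := by ring
    _ ≤ _ := mul_le_mul_of_nonneg_left a3 (by positivity)

lemma LS_toList {I : Type} [Fintype I] (g : I → ℝ) : LS g (univ : Finset I).toList = ∑ a, g a := by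
  unfold LS
  exact Finset.sum_map_toList _ _

lemma exists_setup {d : X → X → ℝ} (hM : IsM d) (inj : ∀ x y, x ≠ y → 0 < d x y) :
    ∃ (r0 : ℝ) (N : ℕ), 0 < r0 ∧ (∀ x y, x ≠ y → r0 ≤ d x y) ∧ ∀ x y, d x y ≤ rr r0 N := by
  have t0 : ∀ e : X × X, 0 ≤ 1 / d e.1 e.2 := fun e => div_nonneg zero_le_one (hM.nn _ _)
  have s0 : 0 ≤ ∑ e : X × X, 1 / d e.1 e.2 := sum_nonneg fun e _ => t0 e
  obtain ⟨A, hA⟩ : ∃ A, A = ∑ e : X × X, 1 / d e.1 e.2 := ⟨_, rfl⟩
  obtain ⟨B, hB⟩ : ∃ B, B = ∑ e : X × X, d e.1 e.2 := ⟨_, rfl⟩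
  have a1 : ∀ x y, 1 / d x y ≤ A := fun x y => by
    rw [hA]
    exact single_le_sum (f := fun e : X × X => 1 / d e.1 e.2) (fun e _ => t0 e)
      (mem_univ (x, y))
  have a2 : ∀ x y, d x y ≤ B := fun x y => by
    rw [hB]
    exact single_le_sum (f := fun e : X × X => d e.1 e.2) (fun e _ => hM.nn _ _)
      (mem_univ (x, y))
  rw [← hA] at s0
  have hr : 0 < 1 / (1 + A) := by positivity
  obtain ⟨N, hN⟩ := pow_unbounded_of_one_lt (B / (1 / (1 + A))) (show (1 : ℝ) < 2 by norm_num)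
  refine ⟨1 / (1 + A), N, hr, fun x y hxy => ?_, fun x y => ?_⟩
  · have hd := inj x y hxy
    have a3 := a1 x y
    rw [div_le_iff₀ hd] at a3
    rw [div_le_iff₀ (by positivity)]
    linarith
  · rw [div_lt_iff₀ hr] at hN
    unfold rr
    linarith [a2 x y]

lemma final_ratio {q ε N nd d A : ℝ} (hq : 1 < q) (hε : 0 < ε) (hε1 : ε ≤ 1 / 8) (hN : 0 < N)
    (hnd : 0 < nd) (hd : 0 < d) (hA : 0 ≤ A) {P : ℝ} (h1 : ((1 - ε) * N) ^ q ≤ P)
    (h2 : P ≤ ((1 + ε) * N) ^ q) (h3 : (1 - 4 * ε) * P * nd ≤ (A / d) ^ q)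
    (h4 : (A / d) ^ q ≤ (1 + 2 * ε) * P * nd) :
    ((1 - 4 * ε) * nd) ^ (1 / q) * ((1 - ε) * N) * d ≤ A ∧
    A ≤ (1 + 20 * ε) * (((1 - 4 * ε) * nd) ^ (1 / q) * ((1 - ε) * N)) * d := by
  have hq0 : 0 < q := by linarith
  have e0 : 0 < 1 - 4 * ε := by linarith
  have e1 : 0 < 1 - ε := by linarith
  have w : (((1 - 4 * ε) * nd) ^ (1 / q)) ^ q = (1 - 4 * ε) * nd := by
    rw [← Real.rpow_mul (by positivity), one_div_mul_cancel hq0.ne', Real.rpow_one]
  constructor
  · rw [← le_div_iff₀ hd, ← Real.rpow_le_rpow_iff (by positivity) (by positivity) hq0,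
      Real.mul_rpow (by positivity) (by positivity), w]
    have := mul_le_mul_of_nonneg_left h1 (show 0 ≤ (1 - 4 * ε) * nd by positivity)
    linarith
  · rw [← div_le_iff₀ hd, ← Real.rpow_le_rpow_iff (by positivity) (by positivity) hq0]
    set B := (1 + 2 * ε) / (1 - 4 * ε) with hB
    have B1 : 1 ≤ B := by rw [hB, le_div_iff₀ e0]; linarith
    have B2 : B ≤ B ^ q := by
      have := Real.rpow_le_rpow_of_exponent_le B1 hq.le
      rwa [Real.rpow_one] at this
    have B3 : B * (1 + ε) ≤ (1 + 20 * ε) * (1 - ε) := by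
      rw [hB, div_mul_eq_mul_div, div_le_iff₀ e0]
      nlinarith [mul_pos hε hε, mul_pos hε (mul_pos hε hε)]
    have a1 : (B * ((1 + ε) * N)) ^ q ≤ ((1 + 20 * ε) * ((1 - ε) * N)) ^ q := by
      apply Real.rpow_le_rpow (by positivity) _ hq0.le
      have := mul_le_mul_of_nonneg_right B3 hN.le
      linarith
    rw [Real.mul_rpow (by positivity) (by positivity)] at a1
    have a2 : (1 + 20 * ε) * (((1 - 4 * ε) * nd) ^ (1 / q) * ((1 - ε) * N)) =
        ((1 - 4 * ε) * nd) ^ (1 / q) * ((1 + 20 * ε) * ((1 - ε) * N)) := by ring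
    rw [a2, Real.mul_rpow (x := ((1 - 4 * ε) * nd) ^ (1 / q)) (by positivity) (by positivity), w]
    have a3 : (1 + 2 * ε) = (1 - 4 * ε) * B := by rw [hB, mul_div_cancel₀ _ e0.ne']
    have a4 := mul_le_mul_of_nonneg_right B2 (show 0 ≤ ((1 + ε) * N) ^ q by positivity)
    have a5 := mul_le_mul_of_nonneg_left h2 (show 0 ≤ B by linarith)
    have a6 := mul_le_mul_of_nonneg_left (le_trans a5 (le_trans a4 a1))
      (show 0 ≤ (1 - 4 * ε) * nd by positivity)
    rw [a3] at h4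
    linarith

theorem core (p : ℝ≥0∞) [Fact (1 ≤ p)] (hq : 1 < p.toReal) {ε : ℝ} (hε : 0 < ε) (hε1 : ε ≤ 1 / 8) :
    ∃ L0, 0 < L0 ∧ ∀ (X Ω : Type) [Fintype X] [Fintype Ω] (F : X → Ω → ℝ)
      (_ : ∀ x y, x ≠ y → 0 < dd p F x y) (L l η t : ℝ) (h nd : ℕ)
      (_ : L = Real.log (Fintype.card X)) (_ : 1 ≤ L) (_ : 1 ≤ l) (_ : 0 < η) (_ : 8 ≤ h)
      (_ : Del p.toReal L l η ≤ ε * h / 4)
      (_ : Real.exp (-(p.toReal - 1) * (2 * h : ℕ)) / (1 - Real.exp (-(p.toReal - 1))) *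
        ((4 * h) ^ p.toReal + (3 + 8 * L) ^ p.toReal) ≤ L0) (_ : 1 ≤ t)
      (_ : Real.exp (2 * L) * p.toReal ^ p.toReal * Kc L l (2 * h) ^ p.toReal * Real.exp (7 - t) ≤ ε)
      (_ : 4 * ((t * Kc L l (2 * h)) ^ p.toReal) ^ 2 * (1 + 2 * L) / ε ^ 2 ≤ nd),
      ∃ (G : X → Fin nd → ℝ) (s : ℝ), 0 < s ∧ ∀ x y,
        s * dd p F x y ≤ nm p (fun i => G x i - G y i) ∧
        nm p (fun i => G x i - G y i) ≤ (1 + 20 * ε) * s * dd p F x y := by
  classical
  obtain ⟨L0, hL0, hmerge⟩ := merge hq hε (by linarith)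
  refine ⟨L0, hL0, ?_⟩
  intro X Ω _ _ F inj L l η t h nd hL hL1 hl hη hh c1 c2 ht c3 c4
  obtain ⟨r0, N, hr, hr1, hr2⟩ := exists_setup (dd_isM hq F) inj
  have S : Setup p F r0 N l := ⟨hq, hr, hr2, hl, by rw [← hL]; exact hL1⟩
  have hcard : 0 < Fintype.card X := by
    rcases Nat.eq_zero_or_pos (Fintype.card X) with h0 | h0
    · rw [h0] at hL; simp at hL; linarith
    · exact h0
  obtain ⟨x0⟩ := Fintype.card_pos_iff.mp hcard
  set q := p.toReal with hqdef
  have hq0 : 0 < q := by linarith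
  set m := 2 * h with hm
  set Nw := ⌈1 - Real.log (flo Ω)⌉₊ + 3 * m + 1 with hNw
  have hh8 : (8 : ℝ) ≤ h := by exact_mod_cast hh
  have N1 := N0_ge hq h
  have N2 := N0_le hq m
  rw [← hm] at N1
  have hDel : Del q L l η ≤ ε * N0 p m := by
    have := mul_le_mul_of_nonneg_left N1 hε.le
    linarith
  have K1 : 1 ≤ Kc L l m := by
    unfold Kc
    have a1 : 1 ≤ Real.exp (2 * L / l) := Real.one_le_exp (by positivity)
    have a2 : 1 ≤ Real.exp (3 * m + 1) := Real.one_le_exp (by positivity)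
    have a3 : (1 : ℝ) ≤ 120 * m + 168 + 256 * m * L := by
      have : (0 : ℝ) ≤ 120 * m + 256 * m * L := by positivity
      linarith
    exact one_le_mul_of_one_le_of_one_le (one_le_mul_of_one_le_of_one_le a1 a2) a3
  let J := {e : X × X // e.1 ≠ e.2}
  let g : Fin Nw × Ω → X → ℝ := fun a x => Real.exp (a.1 : ℕ) * HH p F r0 N x0 l m a.1 a.2 x
  let u : J → Fin Nw × Ω → ℝ := fun e a => (1 / dd p F e.1.1 e.1.2) * (g a e.1.1 - g a e.1.2)
  let ν : Fin Nw × Ω → ℝ := fun a => Real.exp (-q * (a.1 : ℕ))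
  have ua : ∀ (e : J) (a : Fin Nw × Ω), |u e a| = Real.exp (a.1 : ℕ) *
      (|HH p F r0 N x0 l m a.1 a.2 e.1.1 - HH p F r0 N x0 l m a.1 a.2 e.1.2| / dd p F e.1.1 e.1.2) := by
    intro e a
    have hd := inj _ _ e.2
    simp only [u, g]
    rw [← mul_sub, abs_mul, abs_mul, abs_of_pos (show 0 < 1 / dd p F e.1.1 e.1.2 by positivity),
      abs_of_pos (Real.exp_pos _)]
    ring
  have Pe : ∀ e : J, LS (fun a => ν a * |u e a| ^ q) (univ : Finset (Fin Nw × Ω)).toList =
      (nm p (RR p F r0 N x0 l m Nw e.1.1 e.1.2) / dd p F e.1.1 e.1.2) ^ q := by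
    intro e
    have hd := inj _ _ e.2
    rw [LS_toList, Real.div_rpow (nm_nn _) hd.le, nm_rpow hq, sum_div, Fintype.sum_prod_type_right]
    apply sum_congr rfl; intro ω _
    rw [abs_of_nonneg (show 0 ≤ RR p F r0 N x0 l m Nw e.1.1 e.1.2 ω from nm_nn _), RR, nm_rpow hq,
      sum_div]
    apply sum_congr rfl; intro s _
    rw [ua, Real.mul_rpow (Real.exp_pos _).le (by positivity), ← Real.exp_mul, ← mul_assoc,
      Real.div_rpow (abs_nonneg _) hd.le]
    simp only [ν]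
    rw [← Real.exp_add]
    have : -q * ((s : ℕ) : ℝ) + ((s : ℕ) : ℝ) * q = 0 := by ring
    rw [this, Real.exp_zero, one_mul]
  have Rb : ∀ e : J, (1 - ε) * N0 p m ≤ nm p (RR p F r0 N x0 l m Nw e.1.1 e.1.2) / dd p F e.1.1 e.1.2 ∧
      nm p (RR p F r0 N x0 l m Nw e.1.1 e.1.2) / dd p F e.1.1 e.1.2 ≤ (1 + ε) * N0 p m := by
    intro e
    have hd := inj _ _ e.2
    obtain ⟨b1, b2⟩ := RR_bounds S x0 (hr1 _ _ e.2) hη (m := m) (Nw := Nw) le_rfl
    rw [← hL] at b1 b2
    have b3 := mul_le_mul_of_nonneg_right hDel hd.le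
    rw [le_div_iff₀ hd, div_le_iff₀ hd]
    constructor <;> linarith
  have NN : 1 ≤ (1 - ε) * N0 p m := by nlinarith
  have hJ : (Fintype.card J : ℝ) ≤ Real.exp (2 * L) := by
    have a1 : Fintype.card J ≤ Fintype.card (X × X) := Fintype.card_subtype_le _
    rw [Fintype.card_prod] at a1
    have a2 : Real.exp (2 * L) = (Fintype.card X : ℝ) * Fintype.card X := by
      rw [two_mul, Real.exp_add, hL, Real.exp_log (by exact_mod_cast hcard)]
    rw [a2]; exact_mod_cast a1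
  have hnd : (0 : ℝ) < nd := lt_of_lt_of_le (by positivity) c4
  obtain ⟨s, hs⟩ := hmerge (Fin Nw × Ω) J ν (fun a => (Real.exp_pos _).le)
    (fun a => Real.exp_le_one_iff.mpr (by
      have : (0 : ℝ) ≤ q * (a.1 : ℕ) := by positivity
      linarith)) (univ : Finset (Fin Nw × Ω)).toList u (Kc L l m) t K1 ht
    (fun e a => by
      have hd := inj _ _ e.2
      rw [ua, ← mul_div_assoc, div_le_iff₀ hd, hL]
      exact HH_lip S x0 (hr1 _ _ e.2) m a.1 a.2)
    (fun e => by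
      refine le_trans ?_ c2
      have a1 := HH_L1 S x0 (hr1 _ _ e.2) m Nw
      have a2 : LS (fun a => ν a * |u e a|) (univ : Finset (Fin Nw × Ω)).toList =
          ∑ ω, ∑ s : Fin Nw, Real.exp (-(q - 1) * s) *
          (|HH p F r0 N x0 l m s ω e.1.1 - HH p F r0 N x0 l m s ω e.1.2| / dd p F e.1.1 e.1.2) := by
        rw [LS_toList, Fintype.sum_prod_type_right]
        apply sum_congr rfl; intro ω _
        apply sum_congr rfl; intro s _
        rw [ua, ← mul_assoc]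
        simp only [ν]
        rw [← Real.exp_add]
        congr 2; ring
      rw [a2]
      refine le_trans a1 (mul_le_mul_of_nonneg_left (add_le_add ?_ ?_) ?_)
      · apply Real.rpow_le_rpow (div_nonneg (nm_nn _) (inj _ _ e.2).le) _ hq0.le
        have b1 := (Rb e).2
        have b2 : (m : ℝ) = 2 * h := by rw [hm]; push_cast; ring
        nlinarith
      · apply Real.rpow_le_rpow (nm_nn _) _ hq0.le
        rw [hL]; exact bmx_norm S x0 _ _
      · have : Real.exp (-(q - 1)) < 1 := Real.exp_lt_one_iff.mpr (by linarith)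
        exact div_nonneg (Real.exp_pos _).le (by linarith))
    (fun e => by
      rw [Pe]
      exact Real.one_le_rpow (le_trans NN (Rb e).1) hq0.le)
    (by
      refine le_trans ?_ c3
      gcongr)
    nd
    (by
      refine le_trans ?_ c4
      have : Real.log (2 * Fintype.card J) ≤ 1 + 2 * L := by
        rcases Nat.eq_zero_or_pos (Fintype.card J) with h0 | h0
        · rw [h0]; simp; linarith
        · have a1 : (0 : ℝ) < Fintype.card J := by exact_mod_cast h0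
          rw [Real.log_mul (by norm_num) a1.ne']
          have a2 := Real.log_le_log a1 hJ
          rw [Real.log_exp] at a2
          have a3 := Real.log_le_sub_one_of_pos (show (0 : ℝ) < 2 by norm_num)
          linarith
      gcongr)
  refine ⟨fun x j => LS (fun a => g a x) (s j), ((1 - 4 * ε) * nd) ^ (1 / q) * ((1 - ε) * N0 p m),
    mul_pos (Real.rpow_pos_of_pos (mul_pos (by linarith) hnd) _) (by linarith), fun x y => ?_⟩
  by_cases hxy : x = y
  · subst hxy
    rw [(dd_isM hq F).self]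
    simp [nm_zero]
  · have hd := inj x y hxy
    obtain ⟨h3, h4⟩ := hs ⟨(x, y), hxy⟩
    obtain ⟨b1, b2⟩ := Rb ⟨(x, y), hxy⟩
    rw [Pe] at h3 h4
    have e : ∑ j, |LS (u ⟨(x, y), hxy⟩) (s j)| ^ q =
        (nm p (fun j => LS (fun a => g a x) (s j) - LS (fun a => g a y) (s j)) / dd p F x y) ^ q := by
      rw [Real.div_rpow (nm_nn _) hd.le, nm_rpow hq, sum_div]
      apply sum_congr rfl; intro j _
      simp only [u]
      rw [LS_mul, LS_sub, abs_mul, abs_of_pos (show 0 < 1 / dd p F x y by positivity),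
        ← Real.div_rpow (abs_nonneg _) hd.le]
      congr 1; ring
    rw [e] at h3 h4
    exact final_ratio hq hε hε1 (by nlinarith) hnd hd (nm_nn _)
      (Real.rpow_le_rpow (by linarith) b1 hq0.le)
      (Real.rpow_le_rpow (div_nonneg (nm_nn _) hd.le) b2 hq0.le) h3 h4

end Vale.Agent.P249
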