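import Vale.Agent.P249.Lip

namespace Vale.Agent.P249

open Finset

variable {X : Type*} [Fintype X]

structure Pr (a : X → ℝ) : Prop where
  nn : ∀ z, 0 ≤ a z
  one : ∑ z, a z = 1

noncomputable def mean (f a : X → ℝ) : ℝ := ∑ z, a z * f z

noncomputable def EE (f a b : X → ℝ) : ℝ := ∑ z, a z * ∑ w, b w * |f z - f w|

lemma EE_comm (f a b : X → ℝ) : EE f a b = EE f b a := by
  unfold EE
  simp only [mul_sum]
  rw [sum_comm]
  apply sum_congr rfl; intro z _
  apply sum_congr rfl; intro w _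
  rw [abs_sub_comm]; ring

lemma Pr.avg_le {a : X → ℝ} (ha : Pr a) {g : X → ℝ} {c : ℝ} (h : ∀ z, g z ≤ c) :
    ∑ z, a z * g z ≤ c := by
  calc ∑ z, a z * g z ≤ ∑ z, a z * c := sum_le_sum fun z _ => mul_le_mul_of_nonneg_left (h z) (ha.nn z)
    _ = c := by rw [← sum_mul, ha.one, one_mul]

lemma Pr.le_avg {a : X → ℝ} (ha : Pr a) {g : X → ℝ} {c : ℝ} (h : ∀ z, c ≤ g z) :
    c ≤ ∑ z, a z * g z := by
  calc c = ∑ z, a z * c := by rw [← sum_mul, ha.one, one_mul]
    _ ≤ ∑ z, a z * g z := sum_le_sum fun z _ => mul_le_mul_of_nonneg_left (h z) (ha.nn z)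

lemma Pr.mono {a : X → ℝ} (ha : Pr a) {g g' : X → ℝ} (h : ∀ z, g z ≤ g' z) :
    ∑ z, a z * g z ≤ ∑ z, a z * g' z :=
  sum_le_sum fun z _ => mul_le_mul_of_nonneg_left (h z) (ha.nn z)

lemma Pr.add_const {a : X → ℝ} (ha : Pr a) (g : X → ℝ) (c : ℝ) :
    ∑ z, a z * (c + g z) = c + ∑ z, a z * g z := by
  simp only [mul_add, sum_add_distrib]
  rw [← sum_mul, ha.one, one_mul]

lemma Pr.abs_sub_le {a : X → ℝ} (ha : Pr a) (g : X → ℝ) (c : ℝ) :
    |c - ∑ z, a z * g z| ≤ ∑ z, a z * |c - g z| := by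
  have : c - ∑ z, a z * g z = ∑ z, a z * (c - g z) := by
    simp only [mul_sub, sum_sub_distrib]
    rw [← sum_mul, ha.one, one_mul]
  rw [this]
  refine le_trans (abs_sum_le_sum_abs _ _) (le_of_eq ?_)
  apply sum_congr rfl; intro z _
  rw [abs_mul, abs_of_nonneg (ha.nn z)]

lemma mean_sub_le {f a b : X → ℝ} (ha : Pr a) (hb : Pr b) : |mean f a - mean f b| ≤ EE f a b := by
  unfold EE
  rw [abs_sub_comm]
  refine le_trans (ha.abs_sub_le f (mean f b)) (ha.mono fun z => ?_)
  rw [abs_sub_comm]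
  exact hb.abs_sub_le f (f z)

lemma inner_lip {f b : X → ℝ} (hb : Pr b) (z z' : X) :
    |(∑ w, b w * |f z - f w|) - (∑ w, b w * |f z' - f w|)| ≤ |f z - f z'| := by
  rw [abs_le]
  constructor
  · have := hb.mono (g := fun w => |f z' - f w|) (g' := fun w => |f z - f z'| + |f z - f w|)
      (fun w => by
        have := abs_sub_le (f z') (f z) (f w)
        rw [abs_sub_comm (f z') (f z)] at this
        exact this)
    rw [hb.add_const] at this
    linarith
  · have := hb.mono (g := fun w => |f z - f w|) (g' := fun w => |f z - f z'| + |f z' - f w|)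
      (fun w => abs_sub_le _ _ _)
    rw [hb.add_const] at this
    linarith

lemma EE_tri {f a b c : X → ℝ} (ha : Pr a) (hb : Pr b) (hc : Pr c) :
    EE f a c ≤ EE f a b + EE f b c := by
  have h1 : ∀ z, ∑ w, c w * |f z - f w| ≤ ∑ u, b u * |f z - f u| + EE f b c := by
    intro z
    have := hb.le_avg (c := ∑ w, c w * |f z - f w|)
      (g := fun u => |f z - f u| + ∑ w, c w * |f u - f w|) (fun u => by
        have := (abs_le.mp (inner_lip (f := f) hc z u)).2
        linarith)
    simp only [mul_add, sum_add_distrib] at this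
    exact this
  have h2 := ha.mono h1
  simp only [mul_add, sum_add_distrib] at h2
  rw [← sum_mul, ha.one, one_mul] at h2
  exact h2

lemma perturb {f g a a' c : X → ℝ} {τ : ℝ} (ha : Pr a) (ha' : Pr a') (hc : Pr c)
    (h : ∀ z, |a z - a' z| ≤ τ * a z) (hg : ∀ z z', |g z - g z'| ≤ |f z - f z'|) :
    |∑ z, a z * g z - ∑ z, a' z * g z| ≤ τ * EE f a c := by
  have h1 : ∀ u, |∑ z, a z * g z - ∑ z, a' z * g z| ≤ τ * ∑ z, a z * |f u - f z| := by
    intro u
    have : ∑ z, a z * g z - ∑ z, a' z * g z = ∑ z, (a z - a' z) * (g z - g u) := by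
      simp only [mul_sub, sub_mul, sum_sub_distrib]
      rw [← sum_mul, ← sum_mul, ha.one, ha'.one]; ring
    rw [this, mul_sum]
    refine le_trans (abs_sum_le_sum_abs _ _) (sum_le_sum fun z _ => ?_)
    rw [abs_mul, ← mul_assoc, abs_sub_comm (f u)]
    exact mul_le_mul (h z) (hg z u) (abs_nonneg _) (le_trans (abs_nonneg _) (h z))
  have h2 := hc.le_avg h1
  rw [EE_comm]
  unfold EE
  rw [mul_sum]
  refine le_trans h2 (le_of_eq ?_)
  apply sum_congr rfl; intro u _
  ring

lemma EE_pert2 {f a b b' : X → ℝ} {τ : ℝ} (ha : Pr a) (hb : Pr b) (hb' : Pr b')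
    (h : ∀ z, |b z - b' z| ≤ τ * b z) : |EE f a b - EE f a b'| ≤ τ * EE f a b := by
  rw [EE_comm f a b, EE_comm f a b']
  exact perturb hb hb' ha h (inner_lip ha)

lemma EE_pert1 {f a a' b : X → ℝ} {τ : ℝ} (ha : Pr a) (ha' : Pr a') (hb : Pr b)
    (h : ∀ z, |a z - a' z| ≤ τ * a z) : |EE f a b - EE f a' b| ≤ τ * EE f a a :=
  perturb ha ha' ha h (inner_lip hb)

open Classical in
noncomputable def dlt (x : X) : X → ℝ := fun z => if z = x then 1 else 0

lemma dlt_sum (x : X) (g : X → ℝ) : ∑ z, dlt x z * g z = g x := by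
  classical
  unfold dlt
  simp

lemma dlt_pr (x : X) : Pr (dlt x) :=
  ⟨fun z => by unfold dlt; split_ifs <;> norm_num, by simpa using dlt_sum x (fun _ => 1)⟩

structure IsM (d : X → X → ℝ) : Prop where
  symm : ∀ x y, d x y = d y x
  tri : ∀ x y z, d x z ≤ d x y + d y z
  self : ∀ x, d x x = 0

omit [Fintype X] in
lemma IsM.nn {d : X → X → ℝ} (h : IsM d) (x y : X) : 0 ≤ d x y := by
  have := h.tri x y x
  rw [h.self, h.symm y x] at this
  linarith

noncomputable def ZZ (d : X → X → ℝ) (r : ℝ) (x : X) : ℝ := ∑ w, Real.exp (-(d x w / r))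

noncomputable def gib (d : X → X → ℝ) (r : ℝ) (x z : X) : ℝ := Real.exp (-(d x z / r)) / ZZ d r x

lemma ZZ_ge {d : X → X → ℝ} (h : IsM d) (r : ℝ) (x : X) : 1 ≤ ZZ d r x := by
  unfold ZZ
  have := single_le_sum (f := fun w => Real.exp (-(d x w / r))) (fun w _ => (Real.exp_pos _).le)
    (mem_univ x)
  simpa [h.self] using this

lemma ZZ_le {d : X → X → ℝ} (h : IsM d) {r : ℝ} (hr : 0 < r) (x : X) :
    ZZ d r x ≤ Fintype.card X := by
  unfold ZZ
  calc ∑ w, Real.exp (-(d x w / r)) ≤ ∑ _w : X, (1 : ℝ) := by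
        apply sum_le_sum; intro w _
        rw [Real.exp_le_one_iff]
        have := div_nonneg (h.nn x w) hr.le
        linarith
    _ = Fintype.card X := by simp

lemma gib_pr {d : X → X → ℝ} (h : IsM d) (r : ℝ) (x : X) : Pr (gib d r x) := by
  have hZ : 0 < ZZ d r x := lt_of_lt_of_le one_pos (ZZ_ge h r x)
  refine ⟨fun z => div_nonneg (Real.exp_pos _).le hZ.le, ?_⟩
  unfold gib
  rw [← sum_div]
  exact div_self hZ.ne'

omit [Fintype X] in
lemma exp_shift {d : X → X → ℝ} (h : IsM d) {r : ℝ} (hr : 0 < r) (x y z : X) :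
    Real.exp (-(d y z / r)) ≤ Real.exp (d x y / r) * Real.exp (-(d x z / r)) := by
  rw [← Real.exp_add, Real.exp_le_exp]
  have := div_le_div_of_nonneg_right (h.tri x y z) hr.le
  rw [add_div] at this
  linarith

lemma gib_ratio {d : X → X → ℝ} (h : IsM d) {r : ℝ} (hr : 0 < r) (x y z : X) :
    gib d r y z ≤ Real.exp (2 * (d x y / r)) * gib d r x z := by
  have hZx : 0 < ZZ d r x := lt_of_lt_of_le one_pos (ZZ_ge h r x)
  have hZy : 0 < ZZ d r y := lt_of_lt_of_le one_pos (ZZ_ge h r y)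
  have h1 := exp_shift h hr x y z
  have h2 : ZZ d r x ≤ Real.exp (d x y / r) * ZZ d r y := by
    unfold ZZ
    rw [mul_sum]
    apply sum_le_sum; intro w _
    have := exp_shift h hr y x w
    rwa [h.symm y x] at this
  unfold gib
  rw [← mul_div_assoc, div_le_div_iff₀ hZy hZx, two_mul, Real.exp_add]
  calc Real.exp (-(d y z / r)) * ZZ d r x
      ≤ (Real.exp (d x y / r) * Real.exp (-(d x z / r))) * (Real.exp (d x y / r) * ZZ d r y) :=
        mul_le_mul h1 h2 hZx.le (by positivity)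
    _ = _ := by ring

lemma exp_two_le {u : ℝ} (h0 : 0 ≤ u) (h1 : u ≤ 1) : Real.exp (2 * u) ≤ 1 + 7 * u := by
  have hc := convexOn_exp.2 (Set.mem_univ 0) (Set.mem_univ 2) (show 0 ≤ 1 - u by linarith) h0
    (by ring)
  simp only [smul_eq_mul, mul_zero, zero_add, Real.exp_zero, mul_one] at hc
  have he : Real.exp 2 ≤ 8 := by
    have := Real.exp_one_lt_d9
    have h2 : Real.exp 2 = Real.exp 1 * Real.exp 1 := by rw [← Real.exp_add]; norm_num
    have := Real.exp_pos 1
    nlinarith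
  rw [mul_comm 2 u]
  nlinarith

lemma gib_close {d : X → X → ℝ} (h : IsM d) {r : ℝ} (hr : 0 < r) {x y : X} (hxy : d x y ≤ r)
    (z : X) : |gib d r x z - gib d r y z| ≤ 7 * (d x y / r) * gib d r x z := by
  have u0 : 0 ≤ d x y / r := div_nonneg (h.nn x y) hr.le
  have u1 : d x y / r ≤ 1 := by rw [div_le_one hr]; exact hxy
  have h1 := gib_ratio h hr x y z
  have h2 := gib_ratio h hr y x z
  rw [h.symm y x] at h2
  have h3 := exp_two_le u0 u1
  have gx := (gib_pr h r x).nn z
  have gy := (gib_pr h r y).nn z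
  have h4 := mul_le_mul_of_nonneg_right h3 gx
  have h5 := mul_le_mul_of_nonneg_right h3 gy
  rw [abs_le]
  constructor
  · linarith
  · rcases le_total (gib d r x z) (gib d r y z) with hc | hc
    · have : 0 ≤ 7 * (d x y / r) * gib d r x z := by positivity
      linarith
    · have := mul_le_mul_of_nonneg_left hc (show 0 ≤ 7 * (d x y / r) by positivity)
      linarith

noncomputable def ker (d : X → X → ℝ) (r0 : ℝ) (N : ℕ) (x0 : X) (i : ℕ) (x : X) : X → ℝ :=
  if i < N then gib d (rr r0 i) x else dlt x0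

lemma ker_pr {d : X → X → ℝ} (h : IsM d) (r0 : ℝ) (N : ℕ) (x0 : X) (i : ℕ) (x : X) :
    Pr (ker d r0 N x0 i x) := by
  unfold ker
  split_ifs
  · exact gib_pr h _ _
  · exact dlt_pr _

lemma ker_close {d : X → X → ℝ} (h : IsM d) {r0 : ℝ} (hr : 0 < r0) (N : ℕ) (x0 : X) {i : ℕ}
    {x y : X} (hxy : d x y ≤ rr r0 i) (z : X) :
    |ker d r0 N x0 i x z - ker d r0 N x0 i y z| ≤ 7 * (d x y / rr r0 i) * ker d r0 N x0 i x z := by
  unfold ker
  split_ifs
  · exact gib_close h (rr_pos hr i) hxy z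
  · have := (dlt_pr x0).nn z
    have := div_nonneg (h.nn x y) (rr_pos hr i).le
    simp only [sub_self, abs_zero]
    positivity

noncomputable def lam (d : X → X → ℝ) (r0 : ℝ) (N : ℕ) (x0 : X) (i : ℕ) (x : X) : ℝ :=
  (∑ z, ker d r0 N x0 i x z * d x z) / rr r0 i

lemma lam_nn {d : X → X → ℝ} (h : IsM d) {r0 : ℝ} (hr : 0 < r0) (N : ℕ) (x0 : X) (i : ℕ) (x : X) :
    0 ≤ lam d r0 N x0 i x :=
  div_nonneg ((ker_pr h r0 N x0 i x).le_avg fun z => h.nn x z) (rr_pos hr i).le

lemma lam_top {d : X → X → ℝ} {r0 : ℝ} (hr : 0 < r0) {N : ℕ} {x0 : X} {x : X}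
    (hN : d x x0 ≤ rr r0 N) : lam d r0 N x0 N x ≤ 1 := by
  unfold lam ker
  rw [if_neg (lt_irrefl N), dlt_sum, div_le_one (rr_pos hr N)]
  exact hN

lemma ZZ_step {d : X → X → ℝ} (h : IsM d) {r : ℝ} (hr : 0 < r) (x : X) :
    Real.log (ZZ d r x) + ((∑ z, gib d r x z * d x z) / r) / 2 ≤ Real.log (ZZ d (2 * r) x) := by
  have hZ : 0 < ZZ d r x := lt_of_lt_of_le one_pos (ZZ_ge h r x)
  have hZ2 : 0 < ZZ d (2 * r) x := lt_of_lt_of_le one_pos (ZZ_ge h _ x)
  set a := ((∑ z, gib d r x z * d x z) / r) / 2 with ha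
  have hp := gib_pr h r x
  have h1 : ZZ d (2 * r) x = ZZ d r x * ∑ z, gib d r x z * Real.exp (d x z / (2 * r)) := by
    rw [mul_sum]
    unfold ZZ
    apply sum_congr rfl; intro z _
    unfold gib
    have : ZZ d r x * (Real.exp (-(d x z / r)) / ZZ d r x * Real.exp (d x z / (2 * r))) =
        Real.exp (-(d x z / r)) * Real.exp (d x z / (2 * r)) := by field_simp
    unfold ZZ at this
    unfold ZZ
    rw [this, ← Real.exp_add]
    congr 1
    field_simp; ring
  have h2 : Real.exp a ≤ ∑ z, gib d r x z * Real.exp (d x z / (2 * r)) := by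
    have h3 := hp.mono (g := fun z => (Real.exp a * (1 - a)) + (Real.exp a / (2 * r)) * d x z)
      (g' := fun z => Real.exp (d x z / (2 * r))) (fun z => by
        have e1 := Real.add_one_le_exp (d x z / (2 * r) - a)
        have e2 : Real.exp (d x z / (2 * r)) = Real.exp a * Real.exp (d x z / (2 * r) - a) := by
          rw [← Real.exp_add]; congr 1; ring
        have e3 := mul_le_mul_of_nonneg_left e1 (Real.exp_pos a).le
        have e4 : Real.exp a / (2 * r) * d x z = Real.exp a * (d x z / (2 * r)) := by ring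
        show Real.exp a * (1 - a) + Real.exp a / (2 * r) * d x z ≤ Real.exp (d x z / (2 * r))
        rw [e2, e4]; linarith)
    rw [hp.add_const] at h3
    have h4 : ∑ z, gib d r x z * (Real.exp a / (2 * r) * d x z) = Real.exp a * a := by
      have : ∑ z, gib d r x z * (Real.exp a / (2 * r) * d x z) =
          Real.exp a / (2 * r) * ∑ z, gib d r x z * d x z := by
        rw [mul_sum]; apply sum_congr rfl; intro z _; ring
      rw [this]
      have e5 : ∀ t : ℝ, t / (2 * r) * ∑ z, gib d r x z * d x z = t * a := by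
        intro t; rw [ha]; field_simp
      exact e5 _
    rw [h4] at h3
    linarith
  rw [← Real.log_exp a, ← Real.log_mul hZ.ne' (Real.exp_pos a).ne']
  apply Real.log_le_log (by positivity)
  rw [h1]
  exact mul_le_mul_of_nonneg_left h2 hZ.le

lemma lam_sum {d : X → X → ℝ} (h : IsM d) {r0 : ℝ} (hr : 0 < r0) (N : ℕ) (x0 x : X) :
    ∑ i ∈ range N, lam d r0 N x0 i x ≤ 2 * Real.log (Fintype.card X) := by
  have key : ∀ k, k ≤ N → ∑ i ∈ range k, lam d r0 N x0 i x ≤ 2 * Real.log (ZZ d (rr r0 k) x) := by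
    intro k
    induction k with
    | zero =>
      intro _
      have := Real.log_nonneg (ZZ_ge h (rr r0 0) x)
      simp only [range_zero, sum_empty]
      linarith
    | succ k ih =>
      intro hk
      have h1 := ih (by omega)
      have h2 := ZZ_step h (rr_pos hr k) x
      rw [sum_range_succ, rr_succ]
      have h3 : lam d r0 N x0 k x = (∑ z, gib d (rr r0 k) x z * d x z) / rr r0 k := by
        unfold lam ker
        rw [if_pos (show k < N by omega)]
      linarith
  refine le_trans (key N le_rfl) ?_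
  have := Real.log_le_log (lt_of_lt_of_le one_pos (ZZ_ge h (rr r0 N) x)) (ZZ_le h (rr_pos hr N) x)
  linarith

lemma lam_close {d : X → X → ℝ} (h : IsM d) {r0 : ℝ} (hr : 0 < r0) (N : ℕ) (x0 : X) {i : ℕ}
    {x y : X} (hxy : d x y ≤ rr r0 i) :
    1 + lam d r0 N x0 i x ≤ (1 + lam d r0 N x0 i y) * (1 + 8 * (d x y / rr r0 i)) := by
  have hri := rr_pos hr i
  have px := ker_pr h r0 N x0 i x
  have u0 : 0 ≤ d x y / rr r0 i := div_nonneg (h.nn x y) hri.le
  have h1 := px.mono (g := fun z => d x z) (g' := fun z => d x y + d y z) (fun z => h.tri x y z)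
  rw [px.add_const] at h1
  have h2 : ∑ z, ker d r0 N x0 i x z * d y z ≤
      (1 + 7 * (d x y / rr r0 i)) * ∑ z, ker d r0 N x0 i y z * d y z := by
    rw [mul_sum]
    apply sum_le_sum; intro z _
    rw [← mul_assoc]
    apply mul_le_mul_of_nonneg_right _ (h.nn y z)
    have := ker_close h hr N x0 (i := i) (x := y) (y := x) (by rw [h.symm]; exact hxy) z
    rw [h.symm y x] at this
    have := (abs_le.mp this).1
    linarith
  have h3 : lam d r0 N x0 i x ≤ d x y / rr r0 i + (1 + 7 * (d x y / rr r0 i)) * lam d r0 N x0 i y := by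
    unfold lam
    rw [← mul_div_assoc, ← add_div]
    exact div_le_div_of_nonneg_right (by linarith) hri.le
  have h4 := lam_nn h hr N x0 i y
  nlinarith

noncomputable def chi (l t : ℝ) : ℝ := max 0 (min 1 (2 - Real.log (1 + t) / l))

lemma chi_nn (l t : ℝ) : 0 ≤ chi l t := le_max_left _ _

lemma chi_le (l t : ℝ) : chi l t ≤ 1 := max_le zero_le_one (min_le_left _ _)

lemma chi_lt {l t : ℝ} (hl : 0 < l) (ht : 0 ≤ t) (h : chi l t < 1) : l ≤ t := by
  by_contra hc
  push Not at hc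
  have h1 : Real.log (1 + t) ≤ t := by
    have := Real.log_le_sub_one_of_pos (show 0 < 1 + t by linarith)
    linarith
  have h2 : Real.log (1 + t) / l ≤ 1 := by rw [div_le_one hl]; linarith
  unfold chi at h
  rw [min_eq_left (by linarith), max_eq_right zero_le_one] at h
  exact lt_irrefl _ h

lemma chi_pos {l t : ℝ} (hl : 0 < l) (ht : 0 ≤ t) (h : 0 < chi l t) : 1 + t ≤ Real.exp (2 * l) := by
  unfold chi at h
  have h1 : 0 < 2 - Real.log (1 + t) / l := by
    rcases lt_max_iff.mp h with h | h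
    · exact absurd h (lt_irrefl _)
    · exact lt_of_lt_of_le h (min_le_right _ _)
  have h2 : Real.log (1 + t) < 2 * l := by
    rw [← div_lt_iff₀ hl]; linarith
  rw [← Real.exp_log (show 0 < 1 + t by linarith)]
  exact Real.exp_le_exp.mpr h2.le

lemma chi_close {l s t u : ℝ} (hl : 0 < l) (hs : 0 ≤ s) (ht : 0 ≤ t) (hu : 0 ≤ u)
    (h1 : 1 + s ≤ (1 + t) * (1 + u)) (h2 : 1 + t ≤ (1 + s) * (1 + u)) :
    |chi l s - chi l t| ≤ u / l := by
  have key : ∀ a b : ℝ, 0 ≤ a → 0 ≤ b → 1 + a ≤ (1 + b) * (1 + u) →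
      Real.log (1 + a) / l ≤ Real.log (1 + b) / l + u / l := by
    intro a b ha hb h
    rw [← add_div]
    apply div_le_div_of_nonneg_right _ hl.le
    have l1 := Real.log_le_log (by linarith) h
    rw [Real.log_mul (by linarith) (by linarith)] at l1
    have l2 := Real.log_le_sub_one_of_pos (show 0 < 1 + u by linarith)
    linarith
  have k1 := key s t hs ht h1
  have k2 := key t s ht hs h2
  unfold chi
  refine le_trans (abs_max_sub_max_le_max _ _ _ _) ?_
  apply max_le
  · simp only [sub_self, abs_zero]; positivity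
  · refine le_trans (abs_min_sub_min_le_max _ _ _ _) ?_
    apply max_le
    · simp only [sub_self, abs_zero]; positivity
    · rw [abs_le]; constructor <;> linarith

noncomputable def mkPD (d : X → X → ℝ) (r0 : ℝ) (N : ℕ) (x0 : X) (l : ℝ) (f : X → ℝ) (x : X) : PD where
  x := f x
  S i := mean f (ker d r0 N x0 i x)
  Em i k := EE f (ker d r0 N x0 i x) (ker d r0 N x0 k x)
  D k := EE f (dlt x) (ker d r0 N x0 k x)
  χ i := chi l (lam d r0 N x0 i x)

lemma mean_dlt (f : X → ℝ) (x : X) : mean f (dlt x) = f x := dlt_sum x f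

lemma mkPD_good {d : X → X → ℝ} (h : IsM d) (r0 : ℝ) (N : ℕ) (x0 : X) (l : ℝ) (f : X → ℝ) (x : X) :
    (mkPD d r0 N x0 l f x).Good := by
  have kp := fun i => ker_pr h r0 N x0 i x
  have dp := dlt_pr x
  refine ⟨fun k => chi_nn _ _, fun k => chi_le _ _, fun k l => mean_sub_le (kp k) (kp l),
    fun k => ?_, fun k l => EE_tri dp (kp k) (kp l), fun k l => ?_, fun k l => ?_,
    fun k l => ?_, fun k l => ?_⟩
  · have := mean_sub_le (f := f) dp (kp k)
    rwa [mean_dlt] at this
  · have := EE_tri (f := f) (kp k) dp (kp l)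
    rwa [EE_comm f _ (dlt x)] at this
  · have := EE_tri (f := f) dp (kp l) (kp k)
    rwa [EE_comm f (ker d r0 N x0 l x)] at this
  · have := EE_tri (f := f) (kp k) (kp l) (kp k)
    rw [EE_comm f (ker d r0 N x0 l x)] at this
    simp only [mkPD]; linarith
  · have := EE_tri (f := f) (kp l) (kp k) (kp l)
    rw [EE_comm f (ker d r0 N x0 l x) (ker d r0 N x0 k x)] at this
    simp only [mkPD]; linarith

noncomputable def TT (c : ℕ → ℝ) (N k : ℕ) : ℝ :=
  2 ^ ((range N).filter (fun i => k ≤ i ∧ c i < 1)).card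

lemma pair_half {d : X → X → ℝ} (h : IsM d) {r0 : ℝ} (hr : 0 < r0) (N : ℕ) (x0 : X) (f : X → ℝ)
    {x y : X} {j : ℕ} (hj : d x y ≤ rr r0 j) :
    (∀ i, j ≤ i → |mean f (ker d r0 N x0 i x) - mean f (ker d r0 N x0 i y)| ≤
      7 * (d x y / rr r0 i) * EE f (ker d r0 N x0 i x) (ker d r0 N x0 i x)) ∧
    (∀ i k, j ≤ i → i < k → |EE f (ker d r0 N x0 i x) (ker d r0 N x0 k x) -
      EE f (ker d r0 N x0 i y) (ker d r0 N x0 k y)| ≤
      7 * d x y * (EE f (ker d r0 N x0 i x) (ker d r0 N x0 k x) / rr r0 k +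
        EE f (ker d r0 N x0 i x) (ker d r0 N x0 i x) / rr r0 i)) := by
  have kp := fun i x => ker_pr h r0 N x0 i x
  have kc := fun i (hi : j ≤ i) => ker_close h hr N x0 (le_trans hj (rr_mono hr hi))
  constructor
  · intro i hi
    exact perturb (kp i x) (kp i y) (kp i x) (kc i hi) (fun _ _ => le_rfl)
  · intro i k hi hik
    have a1 := EE_pert2 (f := f) (kp i x) (kp k x) (kp k y) (kc k (le_trans hi hik.le))
    have a2 := EE_pert1 (f := f) (kp i x) (kp i y) (kp k y) (kc i hi)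
    have a3 := abs_sub_le (EE f (ker d r0 N x0 i x) (ker d r0 N x0 k x))
      (EE f (ker d r0 N x0 i x) (ker d r0 N x0 k y)) (EE f (ker d r0 N x0 i y) (ker d r0 N x0 k y))
    have e : 7 * d x y * (EE f (ker d r0 N x0 i x) (ker d r0 N x0 k x) / rr r0 k +
        EE f (ker d r0 N x0 i x) (ker d r0 N x0 i x) / rr r0 i) =
        7 * (d x y / rr r0 k) * EE f (ker d r0 N x0 i x) (ker d r0 N x0 k x) +
        7 * (d x y / rr r0 i) * EE f (ker d r0 N x0 i x) (ker d r0 N x0 i x) := by ring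
    linarith

lemma mkPD_pair {d : X → X → ℝ} (h : IsM d) {r0 : ℝ} (hr : 0 < r0) (N : ℕ) (x0 : X) (l : ℝ)
    (f : X → ℝ) {x y : X} {j : ℕ} (hd : 0 < d x y) (hjN : j ≤ N) (hj : d x y ≤ rr r0 j)
    (hj2 : rr r0 j ≤ 2 * d x y) :
    PairHyp (mkPD d r0 N x0 l f x) (mkPD d r0 N x0 l f y) (d x y) r0 j N (|f x - f y| / d x y)
      (TT (fun i => chi l (lam d r0 N x0 i y)) N) (TT (fun i => chi l (lam d r0 N x0 i y)) N 0) := by
  obtain ⟨p1, p2⟩ := pair_half h hr N x0 f hj
  obtain ⟨q1, q2⟩ := pair_half h hr N x0 f (x := y) (y := x) (by rw [h.symm]; exact hj)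
  rw [h.symm y x] at q1 q2
  have kp := fun i x => ker_pr h r0 N x0 i x
  refine ⟨hd, hr, hjN, hj, hj2, fun i hi _ => p1 i hi, fun i hi _ => ?_, fun i k hi hik _ => p2 i k hi hik,
    fun i k hi hik _ => ?_, fun k hk _ => ?_, ?_, ?_, fun k => ?_, fun k hk hc => ?_, ?_, fun k => ?_⟩
  · rw [abs_sub_comm]; exact q1 i hi
  · rw [abs_sub_comm]; exact q2 i k hi hik
  · have a1 := EE_pert2 (f := f) (dlt_pr x) (kp k x) (kp k y)
      (ker_close h hr N x0 (le_trans hj (rr_mono hr hk)))
    have a2 : |EE f (dlt x) (ker d r0 N x0 k y) - EE f (dlt y) (ker d r0 N x0 k y)| ≤ |f x - f y| := by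
      unfold EE
      rw [dlt_sum, dlt_sum]
      exact inner_lip (kp k y) x y
    have a3 := abs_sub_le (EE f (dlt x) (ker d r0 N x0 k x)) (EE f (dlt x) (ker d r0 N x0 k y))
      (EE f (dlt y) (ker d r0 N x0 k y))
    have e : |f x - f y| / d x y * d x y = |f x - f y| := by field_simp
    have e2 : 7 * d x y * (EE f (dlt x) (ker d r0 N x0 k x) / rr r0 k) =
      7 * (d x y / rr r0 k) * EE f (dlt x) (ker d r0 N x0 k x) := by ring
    simp only [mkPD]
    linarith
  · simp only [mkPD]; field_simp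
  · simp only [mkPD, ker, lt_irrefl, if_false]
  · unfold TT
    apply pow_le_pow_right₀ (by norm_num)
    apply card_le_card
    intro i hi
    simp only [mem_filter] at hi ⊢
    exact ⟨hi.1, by omega, hi.2.2⟩
  · unfold TT
    rw [← pow_succ']
    apply pow_le_pow_right₀ (by norm_num)
    apply card_lt_card
    refine ⟨?_, ?_⟩
    · intro i hi
      simp only [mem_filter] at hi ⊢
      exact ⟨hi.1, by omega, hi.2.2⟩
    · intro hsub
      have : k ∈ (range N).filter (fun i => k ≤ i ∧ chi l (lam d r0 N x0 i y) < 1) := by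
        simp only [mem_filter, mem_range]
        exact ⟨hk, le_rfl, hc⟩
      have := hsub this
      simp only [mem_filter] at this
      omega
  · unfold TT
    exact one_le_pow₀ (by norm_num)
  · unfold TT
    apply pow_le_pow_right₀ (by norm_num)
    apply card_le_card
    intro i hi
    simp only [mem_filter] at hi ⊢
    exact ⟨hi.1, by omega, hi.2.2⟩

lemma TT_le {d : X → X → ℝ} (h : IsM d) {r0 : ℝ} (hr : 0 < r0) (N : ℕ) (x0 : X) {l : ℝ}
    (hl : 0 < l) (y : X) :
    TT (fun i => chi l (lam d r0 N x0 i y)) N 0 ≤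
      Real.exp (2 * Real.log (Fintype.card X) / l) := by
  unfold TT
  set s := (range N).filter (fun i => 0 ≤ i ∧ chi l (lam d r0 N x0 i y) < 1) with hs
  have h1 : (s.card : ℝ) * l ≤ 2 * Real.log (Fintype.card X) := by
    calc (s.card : ℝ) * l = ∑ _i ∈ s, l := by simp
      _ ≤ ∑ i ∈ s, lam d r0 N x0 i y := by
          apply sum_le_sum; intro i hi
          simp only [hs, mem_filter] at hi
          exact chi_lt hl (lam_nn h hr N x0 i y) hi.2.2
      _ ≤ ∑ i ∈ range N, lam d r0 N x0 i y :=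
          sum_le_sum_of_subset_of_nonneg (filter_subset _ _) fun i _ _ => lam_nn h hr N x0 i y
      _ ≤ _ := lam_sum h hr N x0 y
  have h2 : (s.card : ℝ) ≤ 2 * Real.log (Fintype.card X) / l := by rw [le_div_iff₀ hl]; exact h1
  calc (2 : ℝ) ^ s.card ≤ (Real.exp 1) ^ s.card := by
        apply pow_le_pow_left₀ (by norm_num)
        have := Real.add_one_le_exp 1
        linarith
    _ = Real.exp (s.card : ℝ) := by rw [← Real.exp_nat_mul]; simp
    _ ≤ _ := Real.exp_le_exp.mpr h2

end Vale.Agent.P249
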