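import Vale.Agent.P249.Main

namespace Vale.Agent.P249

open Finset

noncomputable def pot2 (C bb ρ bx by' : ℝ) : ℝ :=
  if min bx by' ≤ bb then C * (max 0 (bb - bx) + max 0 (bb - by')) + 2 * (ρ * |bx - by'|) else 0

lemma pot2_nonneg {C bb ρ bx by' : ℝ} (hC : 0 ≤ C) (hρ : 0 ≤ ρ) : 0 ≤ pot2 C bb ρ bx by' := by
  unfold pot2
  split_ifs
  · have := le_max_left 0 (bb - bx)
    have := le_max_left 0 (bb - by')
    positivity
  · exact le_rfl

lemma pot2_comm (C bb ρ bx by' : ℝ) : pot2 C bb ρ bx by' = pot2 C bb ρ by' bx := by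
  unfold pot2
  rw [min_comm, abs_sub_comm, add_comm (max 0 (bb - bx))]

/-- one matched step, when the first point has the lower level -/
lemma lip_step {ψ : ℝ → ℝ} (h : LL ψ) {bb m d σ ρ bx by' vx vy Ex Ey : ℝ}
    (h0 : ∀ b, bb < b → ψ b = 0) (hm : ∀ b, |ψ b| ≤ m) (hd : 0 < d) (hσ : 0 ≤ σ) (hρ : 0 < ρ)
    (hx : 0 < bx) (hvx : |vx| ≤ Ex) (hEy : 0 ≤ Ey)
    (hle : bx + Ex / ρ ≤ by' + Ey / ρ) (hv : |vx - vy| ≤ 56 * d * σ * (Ex / ρ))
    (hE : |Ex - Ey| ≤ 42 * d * σ * (Ex / ρ)) :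
    |vx * ψ (bx + Ex / ρ) - vy * ψ (by' + Ey / ρ)| +
      pot2 ((56 * m + 84) * d * σ) bb (ρ / 2) (bx + Ex / ρ) (by' + Ey / ρ) ≤
      pot2 ((56 * m + 84) * d * σ) bb ρ bx by' := by
  have hm0 : 0 ≤ m := le_trans (abs_nonneg _) (hm 0)
  have hEx : 0 ≤ Ex := le_trans (abs_nonneg _) hvx
  have e1 : 0 ≤ Ex / ρ := div_nonneg hEx hρ.le
  have e2 : 0 ≤ Ey / ρ := div_nonneg hEy hρ.le
  by_cases hc : bb < bx + Ex / ρ
  · rw [h0 _ hc, h0 _ (lt_of_lt_of_le hc hle)]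
    have : pot2 ((56 * m + 84) * d * σ) bb (ρ / 2) (bx + Ex / ρ) (by' + Ey / ρ) = 0 := by
      unfold pot2
      rw [if_neg]
      rw [min_eq_left hle]; exact not_le.mpr hc
    rw [this]
    simp only [mul_zero, sub_self, abs_zero, add_zero]
    exact pot2_nonneg (by positivity) hρ.le
  · push Not at hc
    have g1 := gap_step (bx := bx) (by' := by') (Ex := Ex) (Ey := Ey) hρ
    have n1 := h.mv (v := vx) (ρ := ρ) (show 0 < bx + Ex / ρ by linarith) hle (by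
      refine le_trans hvx ?_
      have : ρ * (bx + Ex / ρ) = ρ * bx + Ex := by field_simp
      rw [this]; nlinarith)
    rw [smul_eq_mul, Real.norm_eq_abs] at n1
    have n2 : |(vx - vy) * ψ (by' + Ey / ρ)| ≤ 56 * d * σ * (Ex / ρ) * m := by
      rw [abs_mul]
      exact mul_le_mul hv (hm _) (abs_nonneg _) (by positivity)
    have key : vx * ψ (bx + Ex / ρ) - vy * ψ (by' + Ey / ρ) =
        vx * (ψ (bx + Ex / ρ) - ψ (by' + Ey / ρ)) + (vx - vy) * ψ (by' + Ey / ρ) := by ring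
    have n3 := abs_add_le (vx * (ψ (bx + Ex / ρ) - ψ (by' + Ey / ρ))) ((vx - vy) * ψ (by' + Ey / ρ))
    have n4 : (by' + Ey / ρ) - (bx + Ex / ρ) ≤ |(bx + Ex / ρ) - (by' + Ey / ρ)| := by
      rw [abs_sub_comm]; exact le_abs_self _
    have n5 := mul_le_mul_of_nonneg_left n4 hρ.le
    unfold pot2
    rw [if_pos (le_trans (min_le_left _ _) hc), if_pos (le_trans (min_le_left _ _) (by linarith)),
      key, max_eq_right (show 0 ≤ bb - (bx + Ex / ρ) by linarith),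
      max_eq_right (show 0 ≤ bb - bx by linarith)]
    have n6 : max 0 (bb - (by' + Ey / ρ)) ≤ max 0 (bb - by') := max_le_max le_rfl (by linarith)
    have n7 := mul_le_mul_of_nonneg_left n6 (show 0 ≤ (56 * m + 84) * d * σ by positivity)
    linarith

lemma Inc_above {P : PD} (hP : P.Good) {ψ : ℝ → ℝ} {bb : ℝ} (h0 : ∀ b, bb < b → ψ b = 0)
    (k up : ℕ) {ρ b : ℝ} (hρ : 0 < ρ) (hb : bb < b + P.Em k up / ρ) :
    P.V ψ k k (ρ / 2) (b + P.Em k up / ρ) = 0 :=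
  V_above hP h0 k k _ _ (by linarith) hb

lemma lip_data {P : PD} (hP : P.Good) {d r0 σ ρ c1 c2 e : ℝ} {k up : ℕ} (hd : 0 < d) (hr : 0 < r0)
    (hk : k < up) (hρ : 0 < ρ) (hρ2 : ρ ≤ 2 * rr r0 k * σ)
    (h1 : |c1| ≤ 7 * (d / rr r0 k) * P.Em k k) (h2 : |c2| ≤ 7 * (d / rr r0 up) * P.Em up up)
    (h3 : |e| ≤ 7 * d * (P.Em k up / rr r0 up + P.Em k k / rr r0 k)) :
    |c1 - c2| ≤ 56 * d * σ * (P.Em k up / ρ) ∧ |e| ≤ 42 * d * σ * (P.Em k up / ρ) := by
  have hu := rr_pos hr up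
  have hkp := rr_pos hr k
  have hlt := rr_lt hr hk
  have E0 := hP.E0 k up
  have a0 : P.Em k up / rr r0 k ≤ 2 * σ * (P.Em k up / ρ) := by
    rw [← mul_div_assoc, div_le_div_iff₀ hkp hρ]
    nlinarith
  have a1 : P.Em k up / rr r0 up ≤ P.Em k up / rr r0 k :=
    div_le_div_of_nonneg_left E0 hkp (by linarith)
  have a2 : P.Em k k / rr r0 k ≤ (2 * P.Em k up) / rr r0 k :=
    div_le_div_of_nonneg_right (hP.t4 k up) hkp.le
  have a3 : P.Em up up / rr r0 up ≤ (2 * P.Em k up) / rr r0 up :=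
    div_le_div_of_nonneg_right (hP.t5 k up) hu.le
  rw [mul_div_assoc] at a2 a3
  have e1 : 7 * (d / rr r0 k) * P.Em k k = 7 * d * (P.Em k k / rr r0 k) := by ring
  have e2 : 7 * (d / rr r0 up) * P.Em up up = 7 * d * (P.Em up up / rr r0 up) := by ring
  have b1 : d * (P.Em k k / rr r0 k) ≤ d * (4 * σ * (P.Em k up / ρ)) :=
    mul_le_mul_of_nonneg_left (by linarith) hd.le
  have b2 : d * (P.Em up up / rr r0 up) ≤ d * (4 * σ * (P.Em k up / ρ)) :=
    mul_le_mul_of_nonneg_left (by linarith) hd.le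
  have b3 : d * (P.Em k up / rr r0 up) ≤ d * (2 * σ * (P.Em k up / ρ)) :=
    mul_le_mul_of_nonneg_left (by linarith) hd.le
  have := abs_sub c1 c2
  constructor <;> linarith

lemma lip_ind {P Q : PD} (hP : P.Good) (hQ : Q.Good) {d r0 a0 σ : ℝ} {j N : ℕ} {T : ℕ → ℝ}
    (H : PairHyp P Q d r0 j N a0 T σ) {ψ : ℝ → ℝ} (h : LL ψ) {bb m : ℝ} (hbb : 0 ≤ bb)
    (h0 : ∀ b, bb < b → ψ b = 0) (hm : ∀ b, |ψ b| ≤ m)
    (k : ℕ) (hk : j ≤ k) : ∀ (up : ℕ) (ρ bx by' : ℝ), k ≤ up → up ≤ N → 0 < ρ →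
      ρ ≤ rr r0 k * T k → 0 < bx → 0 < by' →
      |P.V ψ k up ρ bx - Q.V ψ k up ρ by'| ≤
        pot2 ((56 * m + 84) * d * σ) bb ρ bx by' + 8 * d * σ * bb * m +
          ∑ i ∈ Ico j k, |P.χ i - Q.χ i| * (8 * rr r0 i * σ * bb * m) := by
  have hd := H.d0
  have hm0 : 0 ≤ m := le_trans (abs_nonneg _) (hm 0)
  have hσ : 1 ≤ σ := le_trans H.hT3 (H.hT4 N)
  induction k, hk using Nat.le_induction with
  | base =>
    intro up ρ bx by' _ _ hρ hρ2 hx hy
    have c1 := V_crude hP hbb h0 hm j up ρ bx hρ hx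
    have c2 := V_crude hQ hbb h0 hm j up ρ by' hρ hy
    have c3 := pot2_nonneg (C := (56 * m + 84) * d * σ) (bb := bb) (bx := bx) (by' := by')
      (by positivity) hρ.le
    have c4 : ρ ≤ 2 * d * σ := by
      have := mul_le_mul_of_nonneg_left (H.hT4 j) (rr_pos H.r00 j).le
      have := mul_le_mul_of_nonneg_right H.hj2 (show 0 ≤ σ by linarith)
      linarith
    have c5 := mul_le_mul_of_nonneg_right c4 (show 0 ≤ bb * m by positivity)
    have := abs_sub (P.V ψ j up ρ bx) (Q.V ψ j up ρ by')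
    rw [Ico_self, sum_empty]
    linarith
  | succ k hk ih =>
    intro up ρ bx by' hk1 hk2 hρ hρ2 hx hy
    have hkup : k < up := hk1
    have hkN : k < N := lt_of_lt_of_le hkup hk2
    have hkp := rr_pos H.r00 k
    have hρ3 : ρ ≤ 2 * rr r0 k * σ := by
      rw [rr_succ] at hρ2
      have := mul_le_mul_of_nonneg_left (H.hT4 (k + 1)) (show 0 ≤ 2 * rr r0 k by positivity)
      linarith
    set R := pot2 ((56 * m + 84) * d * σ) bb ρ bx by' + 8 * d * σ * bb * m +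
          ∑ i ∈ Ico j k, |P.χ i - Q.χ i| * (8 * rr r0 i * σ * bb * m) with hR
    have c0 := hQ.c0 k
    have c1 := hQ.c1 k
    have e1 : 0 ≤ P.Em k up / ρ := div_nonneg (hP.E0 k up) hρ.le
    have e2 : 0 ≤ Q.Em k up / ρ := div_nonneg (hQ.E0 k up) hρ.le
    have b1 : |P.Inc ψ k up ρ bx - Q.Inc ψ k up ρ by'| ≤ R := by
      have i1 := ih k (ρ / 2) (bx + P.Em k up / ρ) (by' + Q.Em k up / ρ) le_rfl hkN.le
        (by linarith) (by
          rw [rr_succ] at hρ2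
          have := mul_le_mul_of_nonneg_left (H.hT1 k) hkp.le
          linarith) (by linarith) (by linarith)
      have i2 : |(P.S k - P.S up) * ψ (bx + P.Em k up / ρ) -
          (Q.S k - Q.S up) * ψ (by' + Q.Em k up / ρ)| +
          pot2 ((56 * m + 84) * d * σ) bb (ρ / 2) (bx + P.Em k up / ρ) (by' + Q.Em k up / ρ) ≤
          pot2 ((56 * m + 84) * d * σ) bb ρ bx by' := by
        rcases le_total (bx + P.Em k up / ρ) (by' + Q.Em k up / ρ) with hle | hle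
        · obtain ⟨d1, d2⟩ := lip_data hP hd H.r00 hkup hρ hρ3 (H.hcP k hk hkN.le)
            (H.hcP up (le_trans hk hkup.le) hk2) (H.hEP k up hk hkup hk2)
          apply lip_step h h0 hm hd (by linarith) hρ hx (hP.hS k up) (hQ.E0 k up) hle _ d2
          have : P.S k - P.S up - (Q.S k - Q.S up) = P.S k - Q.S k - (P.S up - Q.S up) := by ring
          rw [this]; exact d1
        · obtain ⟨d1, d2⟩ := lip_data hQ hd H.r00 hkup hρ hρ3 (H.hcQ k hk hkN.le)
            (H.hcQ up (le_trans hk hkup.le) hk2) (H.hEQ k up hk hkup hk2)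
          rw [abs_sub_comm, pot2_comm, pot2_comm _ _ ρ]
          rw [abs_sub_comm] at d2
          apply lip_step h h0 hm hd (by linarith) hρ hy (hQ.hS k up) (hP.E0 k up) hle _ d2
          have : Q.S k - Q.S up - (P.S k - P.S up) = -(P.S k - Q.S k - (P.S up - Q.S up)) := by ring
          rw [this, abs_neg]; exact d1
      have key : P.Inc ψ k up ρ bx - Q.Inc ψ k up ρ by' =
          ((P.S k - P.S up) * ψ (bx + P.Em k up / ρ) -
          (Q.S k - Q.S up) * ψ (by' + Q.Em k up / ρ)) +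
          (P.V ψ k k (ρ / 2) (bx + P.Em k up / ρ) - Q.V ψ k k (ρ / 2) (by' + Q.Em k up / ρ)) := by
        rw [PD.Inc, PD.Inc, smul_eq_mul, smul_eq_mul]; ring
      rw [key]
      refine le_trans (abs_add_le _ _) ?_
      linarith
    have b2 : (1 - Q.χ k) * |P.V ψ k up ρ bx - Q.V ψ k up ρ by'| ≤ (1 - Q.χ k) * R := by
      rcases eq_or_lt_of_le c1 with hc | hc
      · rw [hc]; simp
      · apply mul_le_mul_of_nonneg_left _ (by linarith)
        apply ih up ρ bx by' hkup.le hk2 hρ _ hx hy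
        have h1 := H.hT2 k hkN hc
        rw [rr_succ] at hρ2
        have h3 := mul_le_mul_of_nonneg_left h1 hkp.le
        linarith
    have b3 : |P.Inc ψ k up ρ bx - P.V ψ k up ρ bx| ≤ 8 * rr r0 k * σ * bb * m := by
      have a1 := Inc_crude hP hbb h0 hm k up hρ hx
      have a2 := V_crude hP hbb h0 hm k up ρ bx hρ hx
      have a3 := abs_sub (P.Inc ψ k up ρ bx) (P.V ψ k up ρ bx)
      have a4 := mul_le_mul_of_nonneg_right hρ3 (show 0 ≤ bb * m by positivity)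
      linarith
    have key : P.V ψ (k + 1) up ρ bx - Q.V ψ (k + 1) up ρ by' =
        Q.χ k * (P.Inc ψ k up ρ bx - Q.Inc ψ k up ρ by') +
        (1 - Q.χ k) * (P.V ψ k up ρ bx - Q.V ψ k up ρ by') +
        (P.χ k - Q.χ k) * (P.Inc ψ k up ρ bx - P.V ψ k up ρ bx) := by
      rw [PD.V_succ, PD.V_succ]
      simp only [smul_eq_mul]
      ring
    rw [key]
    refine le_trans (abs_add_le _ _) ?_
    refine le_trans (add_le_add_left (abs_add_le _ _) _) ?_
    rw [abs_mul, abs_mul, abs_mul,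
      abs_of_nonneg c0, abs_of_nonneg (by linarith : 0 ≤ 1 - Q.χ k)]
    have b4 := mul_le_mul_of_nonneg_left b3 (abs_nonneg (P.χ k - Q.χ k))
    have b1' := mul_le_mul_of_nonneg_left b1 c0
    rw [sum_Ico_succ_top hk]
    have b5 : Q.χ k * R + (1 - Q.χ k) * R = R := by ring
    linarith

theorem main_lip {P Q : PD} (hP : P.Good) (hQ : Q.Good) {d r0 a0 σ : ℝ} {j N : ℕ} {T : ℕ → ℝ}
    (H : PairHyp P Q d r0 j N a0 T σ) {ψ : ℝ → ℝ} (h : LL ψ) {bb m fl : ℝ} (hbb : 0 ≤ bb)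
    (hfl : 0 < fl) (h0 : ∀ b, bb < b → ψ b = 0) (hm : ∀ b, |ψ b| ≤ m) :
    |P.V ψ N N (rr r0 N) fl - Q.V ψ N N (rr r0 N) fl| ≤
      σ * bb * ((120 * m + 168) * d + 8 * m * ∑ i ∈ Ico j N, |P.χ i - Q.χ i| * rr r0 i) := by
  have hd := H.d0
  have hm0 : 0 ≤ m := le_trans (abs_nonneg _) (hm 0)
  have hσ : 1 ≤ σ := le_trans H.hT3 (H.hT4 N)
  have hN := rr_pos H.r00 N
  have l := lip_ind hP hQ H h hbb h0 hm N H.jN N (rr r0 N) fl fl le_rfl le_rfl hN
    (le_mul_of_one_le_right hN.le H.hT3) hfl hfl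
  refine le_trans l ?_
  have p1 : pot2 ((56 * m + 84) * d * σ) bb (rr r0 N) fl fl ≤ (56 * m + 84) * d * σ * (2 * bb) := by
    unfold pot2
    split_ifs
    · simp only [sub_self, abs_zero, mul_zero, add_zero]
      apply mul_le_mul_of_nonneg_left _ (by positivity)
      have : max 0 (bb - fl) ≤ bb := max_le hbb (by linarith)
      linarith
    · positivity
  have p2 : ∑ i ∈ Ico j N, |P.χ i - Q.χ i| * (8 * rr r0 i * σ * bb * m) =
      σ * bb * (8 * m * ∑ i ∈ Ico j N, |P.χ i - Q.χ i| * rr r0 i) := by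
    rw [mul_sum, mul_sum]
    apply sum_congr rfl
    intro i _
    ring
  rw [p2]
  linarith

end Vale.Agent.P249
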