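import Vale.Agent.P249.Pair

namespace Vale.Agent.P249

open Finset

variable {E : Type*} [NormedAddCommGroup E] [NormedSpace ℝ E]

lemma Inv.skip {P Q : PD} (hP : P.Good) (hQ : Q.Good) {d r0 a0 σ : ℝ} {j N : ℕ} {T : ℕ → ℝ}
    (H : PairHyp P Q d r0 j N a0 T σ) {M fl bm : ℝ} {k up : ℕ} {ρ bx by' : ℝ}
    (I : Inv P Q d r0 N T M fl bm (k + 1) up ρ bx by') (hχ : Q.χ k < 1) :
    Inv P Q d r0 N T M fl bm k up ρ bx by' := by
  have hk : k < N := lt_of_lt_of_le (Nat.lt_succ_self k) (le_trans I.k1 I.k2)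
  have h0 := dl_nonneg hP hQ H.r00 k
  have m1 := I.m1
  have m2 := I.m2
  rw [sum_range_succ] at m1 m2
  refine { I with k1 := le_trans (Nat.le_succ k) I.k1, r2 := ?_, m1 := by linarith, m2 := by linarith }
  have h1 := H.hT2 k hk hχ
  have h2 := I.r2
  rw [rr_succ] at h2
  have h3 := mul_le_mul_of_nonneg_left h1 (rr_pos H.r00 k).le
  linarith

lemma Em_le_dl {P Q : PD} (hP : P.Good) (hQ : Q.Good) {r0 : ℝ} (hr : 0 < r0) {k up : ℕ}
    (hk : k < up) :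
    P.Em k up / rr r0 up + Q.Em k up / rr r0 up ≤ dl P Q r0 k + dl P Q r0 up := by
  have hu := rr_pos hr up
  have hkp := rr_pos hr k
  have hlt := rr_lt hr hk
  have a1 : (P.Em k up + Q.Em k up) / rr r0 up ≤
      ((P.D k + Q.D k) + (P.D up + Q.D up)) / rr r0 up :=
    div_le_div_of_nonneg_right (by linarith [hP.t2 k up, hQ.t2 k up]) hu.le
  have a2 : (P.D k + Q.D k) / rr r0 up ≤ (P.D k + Q.D k) / rr r0 k :=
    div_le_div_of_nonneg_left (add_nonneg (hP.D0 k) (hQ.D0 k)) hkp (by linarith)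
  rw [add_div, add_div (P.D k + Q.D k)] at a1
  unfold dl
  linarith

lemma gap_step {ρ bx by' Ex Ey : ℝ} (hρ : 0 < ρ) :
    ρ * |(bx + Ex / ρ) - (by' + Ey / ρ)| ≤ ρ * |bx - by'| + |Ex - Ey| := by
  have z1 : (bx + Ex / ρ) - (by' + Ey / ρ) = (bx - by') + (Ex - Ey) / ρ := by ring
  rw [z1]
  have z2 := abs_add_le (bx - by') ((Ex - Ey) / ρ)
  rw [abs_div, abs_of_pos hρ] at z2
  have z3 : ρ * (|Ex - Ey| / ρ) = |Ex - Ey| := by field_simp
  have z6 := mul_le_mul_of_nonneg_left z2 hρ.le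
  rw [mul_add, z3] at z6
  exact z6

lemma c_new {d r E2 E1 ρ b c : ℝ} (hd : 0 < d) (hr : 0 < r) (hρ : 0 < ρ) (hb : 0 < b)
    (h1 : E2 ≤ 2 * E1) (hc : c ≤ 7 * (d / r) * E2) :
    c ≤ 28 * d * ((ρ / 2) * (b + E1 / ρ) / r) := by
  have e : 28 * d * ((ρ / 2) * (b + E1 / ρ) / r) = 14 * (d / r) * (ρ * b) + 7 * (d / r) * (2 * E1) := by
    field_simp; ring
  rw [e]
  have h2 : 0 ≤ 14 * (d / r) * (ρ * b) := by positivity
  have h3 := mul_le_mul_of_nonneg_left h1 (show 0 ≤ 7 * (d / r) by positivity)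
  linarith

lemma Inv.inc {P Q : PD} (hP : P.Good) (hQ : Q.Good) {d r0 a0 σ : ℝ} {j N : ℕ} {T : ℕ → ℝ}
    (H : PairHyp P Q d r0 j N a0 T σ) {M fl bm : ℝ} (hfl : 0 < fl) {k up : ℕ} {ρ bx by' : ℝ}
    (hjk : j ≤ k) (I : Inv P Q d r0 N T M fl bm (k + 1) up ρ bx by')
    (u1 : 2 * P.D k ≤ M * rr r0 k) (u2 : 2 * Q.D k ≤ M * rr r0 k) :
    Inv P Q d r0 N T M fl bm k k (ρ / 2) (bx + P.Em k up / ρ) (by' + Q.Em k up / ρ) := by
  have hd := H.d0
  have hkup : k < up := I.k1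
  have hkN : k ≤ N := le_trans hkup.le I.k2
  have hu := rr_pos H.r00 up
  have hkp := rr_pos H.r00 k
  have hlt := rr_lt H.r00 hkup
  have hρ : 0 < ρ := lt_of_lt_of_le hu I.r1
  have hx : 0 < bx := lt_of_lt_of_le hfl I.f1
  have hy : 0 < by' := lt_of_lt_of_le hfl I.f2
  have EP := hP.E0 k up
  have EQ := hQ.E0 k up
  have e1 : 0 ≤ P.Em k up / ρ := div_nonneg EP hρ.le
  have e2 : 0 ≤ Q.Em k up / ρ := div_nonneg EQ hρ.le
  have e3 : P.Em k up / ρ ≤ P.Em k up / rr r0 up := div_le_div_of_nonneg_left EP hu I.r1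
  have e4 : Q.Em k up / ρ ≤ Q.Em k up / rr r0 up := div_le_div_of_nonneg_left EQ hu I.r1
  have e5 := Em_le_dl hP hQ H.r00 hkup
  have m1 := I.m1
  have m2 := I.m2
  rw [sum_range_succ] at m1 m2
  have hM : 0 ≤ M := by
    have := hP.D0 k
    exact nonneg_of_mul_nonneg_left (le_trans (by linarith) u1) hkp
  refine ⟨le_rfl, hkN, by linarith [I.r1], ?_, by linarith [I.f1], by linarith [I.f2],
    by linarith, by linarith, c_new hd hkp hρ hx (hP.t4 k up) (H.hcP k hjk hkN),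
    c_new hd hkp hρ hy (hQ.t4 k up) (H.hcQ k hjk hkN), ?_, u1, u2⟩
  · have h2 := I.r2
    rw [rr_succ] at h2
    have h3 := mul_le_mul_of_nonneg_left (H.hT1 k) hkp.le
    linarith
  · have g1 := gap_step (bx := bx) (by' := by') (Ex := P.Em k up) (Ey := Q.Em k up) hρ
    have g2 := H.hEP k up hjk hkup I.k2
    have g3 : P.Em k up / rr r0 up ≤ M := by
      rw [div_le_iff₀ hu]
      have := hP.t2 k up
      have := I.u1
      have : M * rr r0 k ≤ M * rr r0 up := mul_le_mul_of_nonneg_left (by linarith) hM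
      linarith
    have g4 : P.Em k k / rr r0 k ≤ M := by
      rw [div_le_iff₀ hkp]
      have := hP.t2 k k
      linarith
    have g5 := mul_le_mul_of_nonneg_left (add_le_add g3 g4) (show 0 ≤ 7 * d by positivity)
    have g6 := I.g
    linarith

noncomputable def Bnd (P Q : PD) (d r0 : ℝ) (j : ℕ) (M η Cst : ℝ) (k up : ℕ) (ρ bx by' : ℝ) : ℝ :=
  pot d M η (ρ * bx / rr r0 up) (ρ * |bx - by'|) + pot d M η (ρ * by' / rr r0 up) (ρ * |bx - by'|) +
    35 * d * η * (dl P Q r0 up + 2 * ∑ i ∈ range k, dl P Q r0 i) +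
    ∑ i ∈ Ico j k, |P.χ i - Q.χ i| * (12 * ∑ i' ∈ range (i + 1), P.D i') + Cst

lemma inc_cost {P Q : PD} (hP : P.Good) (hQ : Q.Good) {d r0 a0 σ : ℝ} {j N : ℕ} {T : ℕ → ℝ}
    (H : PairHyp P Q d r0 j N a0 T σ) {Ψ : ℝ → E} (h : LL Ψ) {M fl bm η : ℝ} (hfl : 0 < fl)
    (hη : 0 < η) {k up : ℕ} {ρ bx by' : ℝ}
    (hjk : j ≤ k) (I : Inv P Q d r0 N T M fl bm (k + 1) up ρ bx by')
    (u1 : 2 * P.D k ≤ M * rr r0 k) (u2 : 2 * Q.D k ≤ M * rr r0 k) :
    ‖(P.S k - P.S up) • Ψ (bx + P.Em k up / ρ) - (Q.S k - Q.S up) • Ψ (by' + Q.Em k up / ρ) +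
      (P.S up - Q.S up) • Ψ (max bx by') -
      (P.S k - Q.S k) • Ψ (max (bx + P.Em k up / ρ) (by' + Q.Em k up / ρ))‖ +
      (pot d M η ((ρ / 2) * (bx + P.Em k up / ρ) / rr r0 k)
        ((ρ / 2) * |(bx + P.Em k up / ρ) - (by' + Q.Em k up / ρ)|) +
      pot d M η ((ρ / 2) * (by' + Q.Em k up / ρ) / rr r0 k)
        ((ρ / 2) * |(bx + P.Em k up / ρ) - (by' + Q.Em k up / ρ)|)) ≤
      pot d M η (ρ * bx / rr r0 up) (ρ * |bx - by'|) +
      pot d M η (ρ * by' / rr r0 up) (ρ * |bx - by'|) +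
      35 * d * η * (dl P Q r0 k + dl P Q r0 up) := by
  have hd := H.d0
  have hkup : k < up := I.k1
  have hkN : k ≤ N := le_trans hkup.le I.k2
  have hjup : j ≤ up := le_trans hjk hkup.le
  have hu := rr_pos H.r00 up
  have hkp := rr_pos H.r00 k
  have hlt := rr_lt H.r00 hkup
  have hρ : 0 < ρ := lt_of_lt_of_le hu I.r1
  have hx : 0 < bx := lt_of_lt_of_le hfl I.f1
  have hy : 0 < by' := lt_of_lt_of_le hfl I.f2
  have hM : 0 ≤ M := by
    have := hP.D0 k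
    exact nonneg_of_mul_nonneg_left (le_trans (by linarith) u1) hkp
  have mc := match_cost h (cu := P.S up - Q.S up) hρ hx hy (hP.hS k up) (hQ.hS k up)
  have e0 : P.S k - P.S up - (Q.S k - Q.S up) + (P.S up - Q.S up) = P.S k - Q.S k := by ring
  rw [e0] at mc
  have g1 := gap_step (bx := bx) (by' := by') (Ex := P.Em k up) (Ey := Q.Em k up) hρ
  have hc2 : |P.S up - Q.S up| ≤ 7 * d * M := by
    have a1 := H.hcP up hjup I.k2
    have a2 : P.Em up up ≤ M * rr r0 up := by linarith [hP.t2 up up, I.u1]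
    have a3 := mul_le_mul_of_nonneg_left a2 (show 0 ≤ 7 * (d / rr r0 up) by positivity)
    have a4 : 7 * (d / rr r0 up) * (M * rr r0 up) = 7 * d * M := by field_simp
    linarith
  have hMk : M * rr r0 k ≤ M * rr r0 up := mul_le_mul_of_nonneg_left (by linarith) hM
  have eh : (ρ / 2) * |(bx + P.Em k up / ρ) - (by' + Q.Em k up / ρ)| =
      (ρ * |(bx + P.Em k up / ρ) - (by' + Q.Em k up / ρ)|) / 2 := by ring
  have s1 := stepReal (M := M) (G' := ρ * |(bx + P.Em k up / ρ) - (by' + Q.Em k up / ρ)|)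
    hd hη hρ hkp hlt hx (hP.E0 k up) (hP.E0 k k) (hP.t4 k up)
    (by linarith [hP.t2 k up, I.u1]) (by linarith [hP.t2 k k]) I.c1 hc2 (by positivity) I.g
    (by positivity) (by linarith [H.hEP k up hjk hkup I.k2])
  have s2 := stepReal (M := M) (G' := ρ * |(bx + P.Em k up / ρ) - (by' + Q.Em k up / ρ)|)
    hd hη hρ hkp hlt hy (hQ.E0 k up) (hQ.E0 k k) (hQ.t4 k up)
    (by linarith [hQ.t2 k up, I.u2]) (by linarith [hQ.t2 k k]) I.c2 hc2 (by positivity) I.g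
    (by positivity) (by linarith [H.hEQ k up hjk hkup I.k2])
  have e5 := mul_le_mul_of_nonneg_left (Em_le_dl hP hQ H.r00 hkup)
    (show 0 ≤ 35 * d * η by positivity)
  rw [eh]
  linarith

lemma main_ind {P Q : PD} (hP : P.Good) (hQ : Q.Good) {d r0 a0 σ : ℝ} {j N : ℕ} {T : ℕ → ℝ}
    (H : PairHyp P Q d r0 j N a0 T σ) {Ψ : ℝ → E} (h : LL Ψ) {M fl bm η : ℝ} (hfl : 0 < fl)
    (hη : 0 < η) (haM : a0 ≤ M)
    (hM : ∀ i, j ≤ i → i < N → 0 < Q.χ i → 2 * P.D i ≤ M * rr r0 i ∧ 2 * Q.D i ≤ M * rr r0 i)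
    (k : ℕ) (hk : j ≤ k) : ∀ (up : ℕ) (ρ bx by' : ℝ), Inv P Q d r0 N T M fl bm k up ρ bx by' →
      ‖P.V Ψ k up ρ bx - Q.V Ψ k up ρ by' + (P.S up - Q.S up) • Ψ (max bx by') -
        (P.x - Q.x) • Ψ (a0 + fl)‖ ≤
      Bnd P Q d r0 j M η (d * (100 * M + a0 * (Real.log (64 * σ) + 1 / η) + η * bm) +
        6 * ∑ i ∈ range j, P.χ i * P.D i + 6 * ∑ i ∈ range j, Q.χ i * Q.D i) k up ρ bx by' := by
  have hd := H.d0
  have ha : 0 ≤ a0 := by
    have := abs_nonneg (P.x - Q.x)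
    rw [H.ha0] at this
    exact nonneg_of_mul_nonneg_left this hd
  have hM0 : 0 ≤ M := le_trans ha haM
  induction k, hk using Nat.le_induction with
  | base =>
    intro up ρ bx by' I
    have hu := rr_pos H.r00 up
    have hρ : 0 < ρ := lt_of_lt_of_le hu I.r1
    have hx : 0 < bx := lt_of_lt_of_le hfl I.f1
    have hy : 0 < by' := lt_of_lt_of_le hfl I.f2
    have c0 := closing hP hQ H h hfl hη haM I
    have c1 := lemA hP h j up ρ bx hρ hx
    have c2 := lemA hQ h j up ρ by' hρ hy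
    have key : P.V Ψ j up ρ bx - Q.V Ψ j up ρ by' + (P.S up - Q.S up) • Ψ (max bx by') -
        (P.x - Q.x) • Ψ (a0 + fl) =
        (P.V Ψ 0 up ρ bx - Q.V Ψ 0 up ρ by' + (P.S up - Q.S up) • Ψ (max bx by') -
        (P.x - Q.x) • Ψ (a0 + fl)) + (P.V Ψ j up ρ bx - P.V Ψ 0 up ρ bx) -
        (Q.V Ψ j up ρ by' - Q.V Ψ 0 up ρ by') := by abel
    rw [key]
    have n := le_trans (norm_sub_le _ _) (add_le_add (le_trans (norm_add_le _ _) (add_le_add c0 c1)) c2)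
    refine le_trans n ?_
    unfold Bnd
    have p1 := pot_nonneg (η := η) (β := ρ * bx / rr r0 up) hd hM0
      (show 0 ≤ ρ * |bx - by'| by positivity)
    have p2 := pot_nonneg (η := η) (β := ρ * by' / rr r0 up) hd hM0
      (show 0 ≤ ρ * |bx - by'| by positivity)
    have p3 : 0 ≤ ∑ i ∈ range j, dl P Q r0 i := sum_nonneg fun i _ => dl_nonneg hP hQ H.r00 i
    have p4 := dl_nonneg hP hQ H.r00 up
    have p5 : 0 ≤ 35 * d * η * (dl P Q r0 up + 2 * ∑ i ∈ range j, dl P Q r0 i) := by positivity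
    rw [Ico_self, sum_empty]
    linarith
  | succ k hk ih =>
    intro up ρ bx by' I
    have hu := rr_pos H.r00 up
    have hρ : 0 < ρ := lt_of_lt_of_le hu I.r1
    have hx : 0 < bx := lt_of_lt_of_le hfl I.f1
    have hkN : k < N := lt_of_lt_of_le (Nat.lt_succ_self k) (le_trans I.k1 I.k2)
    set Cst := d * (100 * M + a0 * (Real.log (64 * σ) + 1 / η) + η * bm) +
        6 * ∑ i ∈ range j, P.χ i * P.D i + 6 * ∑ i ∈ range j, Q.χ i * Q.D i with hCst
    set tg := (P.S up - Q.S up) • Ψ (max bx by') - (P.x - Q.x) • Ψ (a0 + fl) with htg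
    set R := pot d M η (ρ * bx / rr r0 up) (ρ * |bx - by'|) +
      pot d M η (ρ * by' / rr r0 up) (ρ * |bx - by'|) +
      35 * d * η * (dl P Q r0 up + 2 * ∑ i ∈ range (k + 1), dl P Q r0 i) +
      ∑ i ∈ Ico j k, |P.χ i - Q.χ i| * (12 * ∑ i' ∈ range (i + 1), P.D i') + Cst with hR
    have c0 := hQ.c0 k
    have c1 := hQ.c1 k
    have b1 : Q.χ k * ‖P.Inc Ψ k up ρ bx - Q.Inc Ψ k up ρ by' + tg‖ ≤ Q.χ k * R := by
      rcases eq_or_lt_of_le c0 with hc | hc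
      · rw [← hc]; simp
      · apply mul_le_mul_of_nonneg_left _ c0
        obtain ⟨u1, u2⟩ := hM k hk hkN hc
        have I' := I.inc hP hQ H hfl hk u1 u2
        have i1 := ih k _ _ _ I'
        have i2 := inc_cost hP hQ H h hfl hη hk I u1 u2
        have key : P.Inc Ψ k up ρ bx - Q.Inc Ψ k up ρ by' + tg =
          (P.V Ψ k k (ρ / 2) (bx + P.Em k up / ρ) - Q.V Ψ k k (ρ / 2) (by' + Q.Em k up / ρ) +
            (P.S k - Q.S k) • Ψ (max (bx + P.Em k up / ρ) (by' + Q.Em k up / ρ)) -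
            (P.x - Q.x) • Ψ (a0 + fl)) +
          ((P.S k - P.S up) • Ψ (bx + P.Em k up / ρ) - (Q.S k - Q.S up) • Ψ (by' + Q.Em k up / ρ) +
            (P.S up - Q.S up) • Ψ (max bx by') -
            (P.S k - Q.S k) • Ψ (max (bx + P.Em k up / ρ) (by' + Q.Em k up / ρ))) := by
          rw [PD.Inc, PD.Inc, htg]; abel
        rw [key]
        refine le_trans (norm_add_le _ _) ?_
        unfold Bnd at i1
        rw [hR, sum_range_succ]
        linarith
    have b2 : (1 - Q.χ k) * ‖P.V Ψ k up ρ bx - Q.V Ψ k up ρ by' + tg‖ ≤ (1 - Q.χ k) * R := by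
      rcases eq_or_lt_of_le c1 with hc | hc
      · rw [hc]; simp
      · apply mul_le_mul_of_nonneg_left _ (by linarith)
        have i1 := ih up _ _ _ (I.skip hP hQ H hc)
        have key : P.V Ψ k up ρ bx - Q.V Ψ k up ρ by' + tg =
          P.V Ψ k up ρ bx - Q.V Ψ k up ρ by' + (P.S up - Q.S up) • Ψ (max bx by') -
            (P.x - Q.x) • Ψ (a0 + fl) := by rw [htg]; abel
        rw [key]
        refine le_trans i1 ?_
        unfold Bnd
        rw [hR, sum_range_succ]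
        have p4 := dl_nonneg hP hQ H.r00 k
        have p5 : 0 ≤ 35 * d * η * dl P Q r0 k := by positivity
        linarith
    have b3 := lemIns hP h k up hρ hx
    have key : P.V Ψ (k + 1) up ρ bx - Q.V Ψ (k + 1) up ρ by' + (P.S up - Q.S up) • Ψ (max bx by') -
        (P.x - Q.x) • Ψ (a0 + fl) =
        Q.χ k • (P.Inc Ψ k up ρ bx - Q.Inc Ψ k up ρ by' + tg) +
        (1 - Q.χ k) • (P.V Ψ k up ρ bx - Q.V Ψ k up ρ by' + tg) +
        (P.χ k - Q.χ k) • (P.Inc Ψ k up ρ bx - P.V Ψ k up ρ bx) := by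
      have : (P.S up - Q.S up) • Ψ (max bx by') = tg + (P.x - Q.x) • Ψ (a0 + fl) := by
        rw [htg]; abel
      rw [PD.V_succ, PD.V_succ, this]
      simp only [smul_sub, smul_add, sub_smul, one_smul]
      abel
    rw [key]
    refine le_trans (norm_add_le _ _) ?_
    refine le_trans (add_le_add_left (norm_add_le _ _) _) ?_
    rw [norm_smul, norm_smul, norm_smul, Real.norm_eq_abs, Real.norm_eq_abs, Real.norm_eq_abs,
      abs_of_nonneg c0, abs_of_nonneg (by linarith : 0 ≤ 1 - Q.χ k)]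
    have b4 := mul_le_mul_of_nonneg_left b3 (abs_nonneg (P.χ k - Q.χ k))
    unfold Bnd
    rw [sum_Ico_succ_top hk]
    have b5 : Q.χ k * R + (1 - Q.χ k) * R = R := by ring
    linarith

theorem main_err {P Q : PD} (hP : P.Good) (hQ : Q.Good) {d r0 a0 σ : ℝ} {j N : ℕ} {T : ℕ → ℝ}
    (H : PairHyp P Q d r0 j N a0 T σ) {Ψ : ℝ → E} (h : LL Ψ) {M fl bm η : ℝ} (hfl : 0 < fl)
    (hη : 0 < η) (haM : a0 ≤ M)
    (hM : ∀ i, j ≤ i → i < N → 0 < Q.χ i → 2 * P.D i ≤ M * rr r0 i ∧ 2 * Q.D i ≤ M * rr r0 i)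
    (hMN : 2 * P.D N ≤ M * rr r0 N ∧ 2 * Q.D N ≤ M * rr r0 N)
    (hbm : fl + dl P Q r0 N + 2 * ∑ i ∈ range N, dl P Q r0 i ≤ bm) :
    ‖P.V Ψ N N (rr r0 N) fl - Q.V Ψ N N (rr r0 N) fl - (P.x - Q.x) • Ψ (a0 + fl)‖ ≤
      d * (196 * (M / η) + 296 * M + a0 * (Real.log (64 * σ) + 1 / η) + 36 * η * bm) +
      ∑ i ∈ Ico j N, |P.χ i - Q.χ i| * (12 * ∑ i' ∈ range (i + 1), P.D i') +
      6 * ∑ i ∈ range j, P.χ i * P.D i + 6 * ∑ i ∈ range j, Q.χ i * Q.D i := by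
  have hd := H.d0
  have hN := rr_pos H.r00 N
  have ha : 0 ≤ a0 := by
    have := abs_nonneg (P.x - Q.x)
    rw [H.ha0] at this
    exact nonneg_of_mul_nonneg_left this hd
  have hM0 : 0 ≤ M := le_trans ha haM
  have I : Inv P Q d r0 N T M fl bm N N (rr r0 N) fl fl :=
    ⟨le_rfl, le_rfl, le_rfl, le_mul_of_one_le_right hN.le H.hT3, le_rfl, le_rfl, hbm, hbm,
      by rw [H.top]; simp; positivity, by rw [H.top]; simp; positivity,
      by simp; positivity, hMN.1, hMN.2⟩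
  have m := main_ind hP hQ H h hfl hη haM hM N H.jN N _ _ _ I
  rw [H.top, sub_self, zero_smul, add_zero] at m
  refine le_trans m ?_
  unfold Bnd
  have p1 : pot d M η (rr r0 N * fl / rr r0 N) (rr r0 N * |fl - fl|) ≤ 98 * d * (M / η + M) := by
    unfold pot
    have : 0 ≤ d * (rr r0 N * fl / rr r0 N) := by positivity
    split_ifs
    · simp only [sub_self, abs_zero, mul_zero, add_zero]
      linarith
    · positivity
  have p2 := mul_le_mul_of_nonneg_left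
    (show dl P Q r0 N + 2 * ∑ i ∈ range N, dl P Q r0 i ≤ bm by linarith)
    (show 0 ≤ 35 * d * η by positivity)
  linarith

end Vale.Agent.P249
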