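import Vale.Agent.P249.Kernel

namespace Vale.Agent.P249

open Finset

variable {I : Type*}

noncomputable def Ex (ν : I → ℝ) : List I → (List I → ℝ) → ℝ
  | [], f => f []
  | a :: l, f => ν a * Ex ν l (fun s => f (a :: s)) + (1 - ν a) * Ex ν l f

section
variable {ν : I → ℝ}

lemma Ex_mono (h0 : ∀ a, 0 ≤ ν a) (h1 : ∀ a, ν a ≤ 1) (l : List I) :
    ∀ f g : List I → ℝ, (∀ s, f s ≤ g s) → Ex ν l f ≤ Ex ν l g := by
  induction l with
  | nil => intro f g h; exact h []
  | cons a l ih =>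
    intro f g h
    simp only [Ex]
    have a1 := mul_le_mul_of_nonneg_left (ih _ _ fun s => h (a :: s)) (h0 a)
    have a2 := mul_le_mul_of_nonneg_left (ih _ _ h) (sub_nonneg.mpr (h1 a))
    linarith

lemma Ex_add (l : List I) :
    ∀ f g : List I → ℝ, Ex ν l (fun s => f s + g s) = Ex ν l f + Ex ν l g := by
  induction l with
  | nil => intro f g; rfl
  | cons a l ih =>
    intro f g
    simp only [Ex]
    rw [ih (fun s => f (a :: s)) (fun s => g (a :: s)), ih f g]
    ring

lemma Ex_mul (c : ℝ) (l : List I) :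
    ∀ f : List I → ℝ, Ex ν l (fun s => c * f s) = c * Ex ν l f := by
  induction l with
  | nil => intro f; rfl
  | cons a l ih =>
    intro f
    simp only [Ex]
    rw [ih (fun s => f (a :: s)), ih f]
    ring

lemma Ex_const (c : ℝ) (l : List I) : Ex ν l (fun _ => c) = c := by
  induction l with
  | nil => rfl
  | cons a l ih => simp only [Ex, ih]; ring

lemma Ex_sub (l : List I) (f g : List I → ℝ) :
    Ex ν l (fun s => f s - g s) = Ex ν l f - Ex ν l g := by
  have := Ex_add (ν := ν) l f (fun s => (-1) * g s)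
  rw [Ex_mul] at this
  simp only [neg_mul, one_mul, ← sub_eq_add_neg] at this
  exact this

lemma Ex_sum {J : Type*} (t : Finset J) (l : List I) (f : J → List I → ℝ) :
    Ex ν l (fun s => ∑ e ∈ t, f e s) = ∑ e ∈ t, Ex ν l (f e) := by
  classical
  induction t using Finset.induction_on with
  | empty => simp [Ex_const]
  | insert a t ha ih =>
    simp only [sum_insert ha]
    rw [Ex_add, ih]

lemma Ex_exists (h0 : ∀ a, 0 ≤ ν a) (h1 : ∀ a, ν a ≤ 1) (l : List I) :
    ∀ f : List I → ℝ, ∃ s, f s ≤ Ex ν l f := by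
  induction l with
  | nil => intro f; exact ⟨[], le_rfl⟩
  | cons a l ih =>
    intro f
    obtain ⟨s1, e1⟩ := ih (fun s => f (a :: s))
    obtain ⟨s2, e2⟩ := ih f
    simp only [Ex]
    have a1 := mul_le_mul_of_nonneg_left e1 (h0 a)
    have a2 := mul_le_mul_of_nonneg_left e2 (sub_nonneg.mpr (h1 a))
    rcases le_total (f (a :: s1)) (f s2) with h | h
    · refine ⟨a :: s1, ?_⟩
      have := mul_le_mul_of_nonneg_left h (sub_nonneg.mpr (h1 a))
      linarith
    · refine ⟨s2, ?_⟩
      have := mul_le_mul_of_nonneg_left h (h0 a)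
      linarith

end

noncomputable def LS (g : I → ℝ) (s : List I) : ℝ := (s.map g).sum

@[simp] lemma LS_nil (g : I → ℝ) : LS g [] = 0 := rfl

@[simp] lemma LS_cons (g : I → ℝ) (a : I) (s : List I) : LS g (a :: s) = g a + LS g s := by
  simp [LS]

lemma LS_nn {g : I → ℝ} (h : ∀ a, 0 ≤ g a) (s : List I) : 0 ≤ LS g s := by
  induction s with
  | nil => simp
  | cons a s ih => rw [LS_cons]; exact add_nonneg (h a) ih

lemma LS_mono {g g' : I → ℝ} (h : ∀ a, g a ≤ g' a) (s : List I) : LS g s ≤ LS g' s := by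
  induction s with
  | nil => simp
  | cons a s ih => rw [LS_cons, LS_cons]; exact add_le_add (h a) ih

lemma LS_mul (c : ℝ) (g : I → ℝ) (s : List I) : LS (fun a => c * g a) s = c * LS g s := by
  induction s with
  | nil => simp
  | cons a s ih => rw [LS_cons, LS_cons, ih]; ring

lemma LS_sub (g g' : I → ℝ) (s : List I) : LS (fun a => g a - g' a) s = LS g s - LS g' s := by
  induction s with
  | nil => simp
  | cons a s ih => rw [LS_cons, LS_cons, LS_cons, ih]; ring

lemma Ex_LS (ν g : I → ℝ) (l : List I) : Ex ν l (LS g) = LS (fun a => ν a * g a) l := by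
  induction l with
  | nil => rfl
  | cons a l ih =>
    simp only [Ex, LS_cons]
    rw [Ex_add l (fun _ => g a) (LS g), Ex_const, ih]
    ring

lemma Ex_exp {ν : I → ℝ} (h0 : ∀ a, 0 ≤ ν a) (h1 : ∀ a, ν a ≤ 1) (g : I → ℝ) (l : List I) :
    Ex ν l (fun s => Real.exp (LS g s)) ≤ Real.exp (LS (fun a => ν a * (Real.exp (g a) - 1)) l) := by
  induction l with
  | nil => simp [Ex]
  | cons a l ih =>
    simp only [Ex, LS_cons, Real.exp_add]
    rw [Ex_mul]
    have p : 0 ≤ Ex ν l (fun s => Real.exp (LS g s)) := by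
      have := Ex_mono h0 h1 l (fun _ => 0) (fun s => Real.exp (LS g s)) fun s => (Real.exp_pos _).le
      rwa [Ex_const] at this
    have e1 := Real.add_one_le_exp (ν a * (Real.exp (g a) - 1))
    have e2 : ν a * (Real.exp (g a) * Ex ν l (fun s => Real.exp (LS g s))) +
        (1 - ν a) * Ex ν l (fun s => Real.exp (LS g s)) =
        (ν a * (Real.exp (g a) - 1) + 1) * Ex ν l (fun s => Real.exp (LS g s)) := by ring
    rw [e2]
    exact mul_le_mul e1 ih p (Real.exp_pos _).le

lemma ineq1 {q ε : ℝ} (hq : 1 < q) (hε : 0 < ε) : ∃ C, 0 < C ∧ ∀ A u : ℝ, 0 ≤ A → 0 ≤ u →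
    (u + A) ^ q ≤ A ^ q + (1 + ε) * u ^ q + C * u * (1 + A ^ q) := by
  set δ := (1 + ε) ^ (1 / q) - 1 with hδ
  have hq0 : 0 < q := by linarith
  have hδ0 : 0 < δ := by
    have := Real.one_lt_rpow (show 1 < 1 + ε by linarith) (show 0 < 1 / q by positivity)
    linarith
  have hδq : (1 + δ) ^ q = 1 + ε := by
    rw [hδ, add_sub_cancel, ← Real.rpow_mul (by linarith), one_div_mul_cancel hq0.ne', Real.rpow_one]
  refine ⟨q * (1 + 1 / δ) ^ (q - 1), by positivity, fun A u hA hu => ?_⟩
  have pA : 0 ≤ A ^ q := by positivity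
  have pu : 0 ≤ u ^ q := by positivity
  rcases le_or_gt A (δ * u) with hc | hc
  · have h1 : (u + A) ^ q ≤ ((1 + δ) * u) ^ q := Real.rpow_le_rpow (by positivity) (by linarith) hq0.le
    rw [Real.mul_rpow (by linarith) hu, hδq] at h1
    have : 0 ≤ q * (1 + 1 / δ) ^ (q - 1) * u * (1 + A ^ q) := by positivity
    linarith
  · have hA0 : 0 < A := lt_of_le_of_lt (by positivity) hc
    set y := u + A with hy
    have hy0 : 0 < y := by positivity
    have b := one_add_mul_self_le_rpow_one_add (s := -(u / y))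
      (by have : u / y ≤ 1 := by rw [div_le_one hy0]; linarith
          linarith) hq.le
    have e1 : 1 + -(u / y) = A / y := by field_simp; ring
    rw [e1, Real.div_rpow hA hy0.le, le_div_iff₀ (by positivity)] at b
    have e2 : y ^ q = y ^ (q - 1) * y := by
      rw [← Real.rpow_add_one hy0.ne']; congr 1; ring
    have e3 : (1 + q * -(u / y)) * y ^ q = y ^ q - q * u * y ^ (q - 1) := by
      conv_lhs => rw [add_mul, one_mul]
      conv_lhs => arg 2; rw [e2]
      field_simp
      ring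
    have h2 : y ≤ (1 + 1 / δ) * A := by
      have : u ≤ 1 / δ * A := by
        rw [one_div, ← div_eq_inv_mul, le_div_iff₀ hδ0]; linarith
      linarith
    have h3 : y ^ (q - 1) ≤ (1 + 1 / δ) ^ (q - 1) * A ^ (q - 1) := by
      rw [← Real.mul_rpow (by positivity) hA]
      exact Real.rpow_le_rpow hy0.le h2 (by linarith)
    have h4 : A ^ (q - 1) ≤ 1 + A ^ q := by
      rcases le_total A 1 with h | h
      · have := Real.rpow_le_one hA h (show 0 ≤ q - 1 by linarith)
        linarith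
      · have := Real.rpow_le_rpow_of_exponent_le h (show q - 1 ≤ q by linarith)
        linarith
    have h5 : y ^ (q - 1) ≤ (1 + 1 / δ) ^ (q - 1) * (1 + A ^ q) :=
      le_trans h3 (mul_le_mul_of_nonneg_left h4 (by positivity))
    have h6 := mul_le_mul_of_nonneg_left h5 (show 0 ≤ q * u by positivity)
    have : 0 ≤ (1 + ε) * u ^ q := by positivity
    linarith

lemma Ex_pow {ν : I → ℝ} (h0 : ∀ a, 0 ≤ ν a) (h1 : ∀ a, ν a ≤ 1) {q ε C : ℝ} (hq : 0 < q)
    (hC0 : 0 ≤ C) (hC : ∀ A u : ℝ, 0 ≤ A → 0 ≤ u →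
      (u + A) ^ q ≤ A ^ q + (1 + ε) * u ^ q + C * u * (1 + A ^ q)) (w : I → ℝ) (hw : ∀ a, 0 ≤ w a)
    (l : List I) :
    Ex ν l (fun s => LS w s ^ q) ≤ (1 + ε) * LS (fun a => ν a * w a ^ q) l +
      C * LS (fun a => ν a * w a) l * (1 + Ex ν l (fun s => LS w s ^ q)) := by
  induction l with
  | nil => simp [Ex, hq.ne']
  | cons a l ih =>
    set Q := Ex ν l (fun s => LS w s ^ q) with hQ
    have Q0 : 0 ≤ Q := by
      have := Ex_mono h0 h1 l (fun _ => 0) (fun s => LS w s ^ q)
        fun s => Real.rpow_nonneg (LS_nn hw s) q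
      rwa [Ex_const] at this
    have a1 : Ex ν l (fun s => (w a + LS w s) ^ q) ≤ Q + (1 + ε) * w a ^ q + C * w a * (1 + Q) := by
      have := Ex_mono h0 h1 l (fun s => (w a + LS w s) ^ q)
        (fun s => ((1 + ε) * w a ^ q + C * w a) + (1 + C * w a) * LS w s ^ q) (fun s => by
          have := hC (LS w s) (w a) (LS_nn hw s) (hw a)
          linarith)
      rw [Ex_add l (fun _ => (1 + ε) * w a ^ q + C * w a), Ex_const, Ex_mul] at this
      linarith
    have a2 : Q ≤ Ex ν l (fun s => (w a + LS w s) ^ q) :=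
      Ex_mono h0 h1 l _ _ fun s =>
        Real.rpow_le_rpow (LS_nn hw s) (by linarith [hw a]) hq.le
    simp only [Ex, LS_cons]
    rw [← hQ]
    set R := Ex ν l (fun s => (w a + LS w s) ^ q) with hR
    have b1 := mul_le_mul_of_nonneg_left a1 (h0 a)
    have b2 := mul_le_mul_of_nonneg_left a2 (h0 a)
    have L0 : 0 ≤ LS (fun a => ν a * w a) l := LS_nn (fun a => mul_nonneg (h0 a) (hw a)) l
    have b3 : 0 ≤ ν a * w a := mul_nonneg (h0 a) (hw a)
    have b4 : Q ≤ ν a * R + (1 - ν a) * Q := by linarith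
    have b5 := mul_le_mul_of_nonneg_left b4
      (show 0 ≤ C * (ν a * w a + LS (fun a => ν a * w a) l) by positivity)
    linarith

noncomputable def LM (u : I → ℝ) : List I → ℝ
  | [] => 0
  | a :: s => max |u a| (LM u s)

lemma LM_nn (u : I → ℝ) (s : List I) : 0 ≤ LM u s := by
  cases s with
  | nil => exact le_rfl
  | cons a s => exact le_trans (abs_nonneg _) (le_max_left _ _)

lemma LS_abs (u : I → ℝ) (s : List I) : |LS u s| ≤ LS (fun a => |u a|) s := by
  induction s with
  | nil => simp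
  | cons a s ih =>
    rw [LS_cons, LS_cons]
    exact le_trans (abs_add_le _ _) (by linarith)

lemma LM_le (u : I → ℝ) (s : List I) : 2 * LM u s - LS (fun a => |u a|) s ≤ |LS u s| := by
  induction s with
  | nil => simp [LM]
  | cons a s ih =>
    rw [LS_cons, LS_cons, LM]
    have h1 := LS_abs u s
    have h2 : |u a| ≤ |u a + LS u s| + |LS u s| := by
      have := abs_sub (u a + LS u s) (LS u s)
      simpa using this
    have h3 : |LS u s| ≤ |u a + LS u s| + |u a| := by
      have := abs_sub (u a + LS u s) (u a)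
      simpa using this
    rcases le_total |u a| (LM u s) with h | h
    · rw [max_eq_right h]; linarith
    · rw [max_eq_left h]; linarith

lemma LM_pow (u : I → ℝ) {q : ℝ} (hq : 1 < q) (s : List I) :
    LS (fun a => |u a| ^ q) s ≤ LM u s ^ (q - 1) * LS (fun a => |u a|) s := by
  induction s with
  | nil => simp
  | cons a s ih =>
    rw [LS_cons, LS_cons, LM, mul_add]
    have h1 : |u a| ^ q = |u a| ^ (q - 1) * |u a| := by
      rw [← Real.rpow_add_one' (abs_nonneg _) (by linarith)]; congr 1; ring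
    have h2 : |u a| ^ (q - 1) ≤ (max |u a| (LM u s)) ^ (q - 1) :=
      Real.rpow_le_rpow (abs_nonneg _) (le_max_left _ _) (by linarith)
    have h3 : LM u s ^ (q - 1) ≤ (max |u a| (LM u s)) ^ (q - 1) :=
      Real.rpow_le_rpow (LM_nn u s) (le_max_right _ _) (by linarith)
    have h4 := mul_le_mul_of_nonneg_right h2 (abs_nonneg (u a))
    have h5 := mul_le_mul_of_nonneg_right h3 (LS_nn (fun a => abs_nonneg (u a)) s)
    linarith

lemma ineq2 {q ε : ℝ} (hq : 1 < q) (hε : 0 < ε) (hε1 : ε < 1) : ∃ C, 0 < C ∧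
    ∀ A P m U : ℝ, 0 ≤ m → 0 ≤ P → 0 ≤ U → U ≤ A → 2 * m - A ≤ U → P ≤ m ^ (q - 1) * A →
      (1 - ε) * P - C * (A ^ q - P) ≤ U ^ q := by
  have hq0 : 0 < q := by linarith
  set δ := ε / (2 * q) with hδ
  have hδ0 : 0 < δ := by positivity
  have hδ1 : δ < 1 / 2 := by
    rw [hδ, div_lt_iff₀ (by positivity)]; nlinarith
  have hc : (1 - δ) ^ (q - 1) < 1 := Real.rpow_lt_one (by linarith) (by linarith) (by linarith)
  set c := 1 - (1 - δ) ^ (q - 1) with hcdef
  have hc0 : 0 < c := by linarith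
  refine ⟨1 / c, by positivity, fun A P m U hm hP hU hUA h1 h2 => ?_⟩
  have hA : 0 ≤ A := le_trans hU hUA
  have eA : A ^ q = A ^ (q - 1) * A := by
    rw [← Real.rpow_add_one' hA (by linarith)]; congr 1; ring
  have hPA : P ≤ A ^ q := by
    have : m ^ (q - 1) ≤ A ^ (q - 1) := Real.rpow_le_rpow hm (by linarith) (by linarith)
    have := mul_le_mul_of_nonneg_right this hA
    linarith
  rcases le_total ((1 - δ) * A) m with h | h
  · have a1 : ((1 - 2 * δ) * A) ^ q ≤ U ^ q :=
      Real.rpow_le_rpow (mul_nonneg (by linarith) hA) (by linarith) hq0.le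
    rw [Real.mul_rpow (by linarith) hA] at a1
    have a2 := one_add_mul_self_le_rpow_one_add (s := -(2 * δ)) (by linarith) hq.le
    have a3 : q * -(2 * δ) = -ε := by rw [hδ]; field_simp
    rw [a3] at a2
    have a4 := mul_le_mul_of_nonneg_right a2 (show 0 ≤ A ^ q by positivity)
    have a5 := mul_le_mul_of_nonneg_left hPA (show 0 ≤ 1 - ε by linarith)
    have a6 : 0 ≤ 1 / c * (A ^ q - P) := mul_nonneg (by positivity) (by linarith)
    have e : 1 + -(2 * δ) = 1 - 2 * δ := by ring
    rw [e] at a4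
    linarith
  · have a1 : m ^ (q - 1) ≤ (1 - δ) ^ (q - 1) * A ^ (q - 1) := by
      rw [← Real.mul_rpow (by linarith) hA]
      exact Real.rpow_le_rpow hm h (by linarith)
    have a2 := mul_le_mul_of_nonneg_right a1 hA
    have a3 : c * A ^ q ≤ A ^ q - P := by rw [hcdef, eA]; linarith
    have a4 : P ≤ 1 / c * (A ^ q - P) := by
      rw [one_div, ← div_eq_inv_mul, le_div_iff₀ hc0]
      have := mul_le_mul_of_nonneg_left hPA hc0.le
      linarith
    have : 0 ≤ U ^ q := by positivity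
    nlinarith

lemma sampling {J : Type*} [Fintype J] {ν : I → ℝ} (h0 : ∀ a, 0 ≤ ν a) (h1 : ∀ a, ν a ≤ 1)
    (l : List I) (Y : J → List I → ℝ) {B ε : ℝ} (hB : 1 ≤ B) (hε : 0 < ε) (hε1 : ε ≤ 1)
    (hY0 : ∀ e s, 0 ≤ Y e s) (hYB : ∀ e s, Y e s ≤ B) (n : ℕ)
    (hn : 4 * B ^ 2 * Real.log (2 * Fintype.card J) / ε ^ 2 ≤ n) :
    ∃ s : Fin n → List I, ∀ e, |∑ j, Y e (s j) - n * Ex ν l (Y e)| ≤ ε * n := by
  set θ := ε / (2 * B ^ 2) with hθ
  have hθ0 : 0 < θ := by positivity
  have hθB : θ * B ≤ 1 := by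
    rw [hθ, div_mul_eq_mul_div, div_le_one (by positivity)]; nlinarith
  have hE0 : ∀ e, 0 ≤ Ex ν l (Y e) := fun e => by
    have := Ex_mono h0 h1 l (fun _ => 0) (Y e) (hY0 e)
    rwa [Ex_const] at this
  have hEB : ∀ e, Ex ν l (Y e) ≤ B := fun e => by
    have := Ex_mono h0 h1 l (Y e) (fun _ => B) (hYB e)
    rwa [Ex_const] at this
  have mgf : ∀ (e : J) (c : ℝ), |c| = θ →
      Ex ν l (fun s => Real.exp (c * (Y e s - Ex ν l (Y e)))) ≤ Real.exp (θ ^ 2 * B ^ 2) := by
    intro e c hc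
    have := Ex_mono h0 h1 l (fun s => Real.exp (c * (Y e s - Ex ν l (Y e))))
      (fun s => (1 + θ ^ 2 * B ^ 2 - c * Ex ν l (Y e)) + c * Y e s) (fun s => by
        have z1 : |Y e s - Ex ν l (Y e)| ≤ B := by
          rw [abs_le]; constructor <;> linarith [hY0 e s, hYB e s, hE0 e, hEB e]
        have z2 : |c * (Y e s - Ex ν l (Y e))| ≤ θ * B := by
          rw [abs_mul, hc]; exact mul_le_mul_of_nonneg_left z1 hθ0.le
        have z3 := Real.abs_exp_sub_one_sub_id_le (le_trans z2 hθB)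
        have z4 : (c * (Y e s - Ex ν l (Y e))) ^ 2 ≤ (θ * B) ^ 2 := by
          rw [← sq_abs]; exact pow_le_pow_left₀ (abs_nonneg _) z2 2
        have z5 := (abs_le.mp z3).2
        nlinarith)
    rw [Ex_add l (fun _ => 1 + θ ^ 2 * B ^ 2 - c * Ex ν l (Y e)), Ex_const, Ex_mul] at this
    have z := Real.add_one_le_exp (θ ^ 2 * B ^ 2)
    linarith
  have key : ∀ k : ℕ, ∃ s : Fin k → List I,
      ∑ e, (Real.exp (θ * (∑ j, Y e (s j) - k * Ex ν l (Y e))) +
        Real.exp (-θ * (∑ j, Y e (s j) - k * Ex ν l (Y e)))) ≤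
        2 * Fintype.card J * Real.exp (k * (θ ^ 2 * B ^ 2)) := by
    intro k
    induction k with
    | zero => exact ⟨Fin.elim0, by simp; linarith⟩
    | succ k ih =>
      obtain ⟨s, hs⟩ := ih
      obtain ⟨t, ht⟩ := Ex_exists h0 h1 l (fun t => ∑ e,
        (Real.exp (θ * (∑ j, Y e (s j) - k * Ex ν l (Y e))) *
          Real.exp (θ * (Y e t - Ex ν l (Y e))) +
        Real.exp (-θ * (∑ j, Y e (s j) - k * Ex ν l (Y e))) *
          Real.exp (-θ * (Y e t - Ex ν l (Y e)))))
      refine ⟨Fin.cons t s, ?_⟩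
      rw [Ex_sum] at ht
      have a1 : ∑ e, Ex ν l (fun t => Real.exp (θ * (∑ j, Y e (s j) - k * Ex ν l (Y e))) *
          Real.exp (θ * (Y e t - Ex ν l (Y e))) +
        Real.exp (-θ * (∑ j, Y e (s j) - k * Ex ν l (Y e))) *
          Real.exp (-θ * (Y e t - Ex ν l (Y e)))) ≤
          (∑ e, (Real.exp (θ * (∑ j, Y e (s j) - k * Ex ν l (Y e))) +
        Real.exp (-θ * (∑ j, Y e (s j) - k * Ex ν l (Y e))))) * Real.exp (θ ^ 2 * B ^ 2) := by
        rw [sum_mul]
        apply sum_le_sum; intro e _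
        rw [Ex_add, Ex_mul, Ex_mul, add_mul]
        exact add_le_add
          (mul_le_mul_of_nonneg_left (mgf e θ (abs_of_pos hθ0)) (Real.exp_pos _).le)
          (mul_le_mul_of_nonneg_left (mgf e (-θ) (by rw [abs_neg, abs_of_pos hθ0]))
            (Real.exp_pos _).le)
      have a2 := mul_le_mul_of_nonneg_right hs (Real.exp_pos (θ ^ 2 * B ^ 2)).le
      have a3 : 2 * Fintype.card J * Real.exp (k * (θ ^ 2 * B ^ 2)) * Real.exp (θ ^ 2 * B ^ 2) =
          2 * Fintype.card J * Real.exp ((k + 1 : ℕ) * (θ ^ 2 * B ^ 2)) := by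
        rw [mul_assoc, ← Real.exp_add]; push_cast; ring_nf
      refine le_trans (le_of_eq ?_) (le_trans ht (le_trans a1 (le_trans a2 (le_of_eq a3))))
      apply sum_congr rfl; intro e _
      rw [← Real.exp_add, ← Real.exp_add, Fin.sum_univ_succ]
      simp only [Fin.cons_zero, Fin.cons_succ]
      push_cast
      congr 2 <;> ring
  obtain ⟨s, hs⟩ := key n
  refine ⟨s, fun e => ?_⟩
  set W := ∑ j, Y e (s j) - n * Ex ν l (Y e) with hW
  have a1 := single_le_sum (f := fun e => Real.exp (θ * (∑ j, Y e (s j) - n * Ex ν l (Y e))) +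
        Real.exp (-θ * (∑ j, Y e (s j) - n * Ex ν l (Y e)))) (fun e _ => by positivity) (mem_univ e)
  have a2 : Real.exp (θ * |W|) ≤ Real.exp (θ * W) + Real.exp (-θ * W) := by
    rcases abs_cases W with h | h
    · rw [h.1]; linarith [Real.exp_pos (-θ * W)]
    · rw [h.1]
      have : θ * -W = -θ * W := by ring
      rw [this]; linarith [Real.exp_pos (θ * W)]
  have hJ : (0 : ℝ) < 2 * Fintype.card J := by
    have : 0 < Fintype.card J := Fintype.card_pos_iff.mpr ⟨e⟩
    positivity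
  have a3 : θ * |W| ≤ Real.log (2 * Fintype.card J) + n * (θ ^ 2 * B ^ 2) := by
    rw [← Real.exp_le_exp, Real.exp_add, Real.exp_log hJ]
    exact le_trans a2 (le_trans a1 hs)
  have a4 : θ ^ 2 * B ^ 2 = θ * (ε / 2) := by rw [hθ]; field_simp
  have a5 : Real.log (2 * Fintype.card J) ≤ θ * (ε / 2 * n) := by
    rw [div_le_iff₀ (by positivity)] at hn
    have : θ * (ε / 2 * n) = (n * ε ^ 2) / (4 * B ^ 2) := by rw [hθ]; field_simp; ring
    rw [this, le_div_iff₀ (by positivity)]
    linarith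
  have a6 : θ * |W| ≤ θ * (ε * n) := by rw [a4] at a3; linarith
  exact le_of_mul_le_mul_left a6 hθ0

lemma rpow_le_exp {q x : ℝ} (hq : 0 < q) (hx : 0 ≤ x) : x ^ q ≤ q ^ q * Real.exp x := by
  have h1 : x / q ≤ Real.exp (x / q) := by linarith [Real.add_one_le_exp (x / q)]
  have h2 := Real.rpow_le_rpow (by positivity) h1 hq.le
  rw [← Real.exp_mul, div_mul_cancel₀ _ hq.ne', Real.div_rpow hx hq.le,
    div_le_iff₀ (by positivity)] at h2
  linarith

open Classical in
theorem merge {q ε : ℝ} (hq : 1 < q) (hε : 0 < ε) (hε1 : ε < 1) : ∃ L0, 0 < L0 ∧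
    ∀ (I J : Type) [Fintype J] (ν : I → ℝ) (_ : ∀ a, 0 ≤ ν a) (_ : ∀ a, ν a ≤ 1) (l : List I)
      (u : J → I → ℝ) (K t : ℝ) (_ : 1 ≤ K) (_ : 1 ≤ t) (_ : ∀ e a, |u e a| ≤ K)
      (_ : ∀ e, LS (fun a => ν a * |u e a|) l ≤ L0)
      (_ : ∀ e, 1 ≤ LS (fun a => ν a * |u e a| ^ q) l)
      (_ : Fintype.card J * q ^ q * K ^ q * Real.exp (7 - t) ≤ ε) (n : ℕ)
      (_ : 4 * ((t * K) ^ q) ^ 2 * Real.log (2 * Fintype.card J) / ε ^ 2 ≤ n),
      ∃ s : Fin n → List I, ∀ e,
        (1 - 4 * ε) * LS (fun a => ν a * |u e a| ^ q) l * n ≤ ∑ j, |LS (u e) (s j)| ^ q ∧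
        ∑ j, |LS (u e) (s j)| ^ q ≤ (1 + 2 * ε) * LS (fun a => ν a * |u e a| ^ q) l * n := by
  have hq0 : 0 < q := by linarith
  obtain ⟨C2, hC2, H2⟩ := ineq2 hq hε hε1
  set ε' := ε / (6 * (C2 + 1)) with hε'
  have hε'0 : 0 < ε' := by positivity
  have hε'1 : 6 * ε' * (C2 + 1) = ε := by rw [hε']; field_simp
  obtain ⟨C1, hC1, H1⟩ := ineq1 hq hε'0
  refine ⟨min 1 (ε' / C1), lt_min one_pos (by positivity), ?_⟩
  intro I J _ ν h0 h1 l u K t hK ht hu hL hP htail n hn
  have hK0 : 0 < K := by linarith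
  let A : J → List I → ℝ := fun e s => LS (fun a => |u e a|) s
  have A0 : ∀ e s, 0 ≤ A e s := fun e s => LS_nn (fun a => abs_nonneg _) s
  let good : List I → Prop := fun s => ∀ e, A e s ≤ t * K
  let Y : J → List I → ℝ := fun e s => if good s then |LS (u e) s| ^ q else 0
  have hY0 : ∀ e s, 0 ≤ Y e s := fun e s => by
    simp only [Y]; split_ifs <;> positivity
  have hYA : ∀ e s, |LS (u e) s| ^ q ≤ A e s ^ q := fun e s =>
    Real.rpow_le_rpow (abs_nonneg _) (LS_abs _ _) hq0.le
  have hYB : ∀ e s, Y e s ≤ (t * K) ^ q := fun e s => by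
    simp only [Y]
    split_ifs with h
    · exact le_trans (hYA e s) (Real.rpow_le_rpow (A0 e s) (h e) hq0.le)
    · positivity
  have hB : 1 ≤ (t * K) ^ q := Real.one_le_rpow (by nlinarith) hq0.le
  obtain ⟨s, hs⟩ := sampling h0 h1 l Y hB hε hε1.le hY0 hYB n hn
  have mg : ∀ e, Ex ν l (fun s => Real.exp (2 * (A e s / K))) ≤ Real.exp 7 := by
    intro e
    have a1 := Ex_exp h0 h1 (fun a => (2 / K) * |u e a|) l
    simp only [LS_mul] at a1
    have a2 : LS (fun a => ν a * (Real.exp (2 / K * |u e a|) - 1)) l ≤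
        LS (fun a => 7 * (ν a * |u e a|)) l := by
      apply LS_mono; intro a
      have b0 : |u e a| / K ≤ 1 := by rw [div_le_one hK0]; exact hu e a
      have b1 := exp_two_le (show 0 ≤ |u e a| / K by positivity) b0
      have b2 : 2 / K * |u e a| = 2 * (|u e a| / K) := by ring
      have b3 : |u e a| / K ≤ |u e a| := div_le_self (abs_nonneg _) hK
      rw [b2]
      have := mul_le_mul_of_nonneg_left
        (show Real.exp (2 * (|u e a| / K)) - 1 ≤ 7 * |u e a| by linarith) (h0 a)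
      linarith
    rw [LS_mul] at a2
    have a3 := le_trans (hL e) (min_le_left _ _)
    have a4 : (fun s => Real.exp (2 * (A e s / K))) =
        fun s => Real.exp (2 / K * LS (fun a => |u e a|) s) := by
      funext s; congr 1; simp only [A]; ring
    rw [a4]
    exact le_trans a1 (Real.exp_le_exp.mpr (by linarith))
  refine ⟨fun j => if good (s j) then s j else [], fun e => ?_⟩
  have eY : ∑ j, |LS (u e) (if good (s j) then s j else [])| ^ q = ∑ j, Y e (s j) := by
    apply sum_congr rfl; intro j _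
    simp only [Y]
    split_ifs
    · rfl
    · simp [hq0.ne']
  rw [eY]
  set P := LS (fun a => ν a * |u e a| ^ q) l with hPdef
  set Q := Ex ν l (fun s => A e s ^ q) with hQ
  have hP1 : 1 ≤ P := hP e
  have hQ1 := Ex_pow h0 h1 hq0 hC1.le H1 (fun a => |u e a|) (fun a => abs_nonneg _) l
  have Q0 : 0 ≤ Q := by
    have := Ex_mono h0 h1 l (fun _ => 0) (fun s => A e s ^ q)
      fun s => Real.rpow_nonneg (A0 e s) q
    rwa [Ex_const] at this
  have hL2 : C1 * LS (fun a => ν a * |u e a|) l ≤ ε' := by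
    have := le_trans (hL e) (min_le_right _ _)
    rw [le_div_iff₀ hC1] at this
    linarith
  have hQ2 : Q ≤ (1 + ε') * P + ε' * (1 + Q) := by
    have := mul_le_mul_of_nonneg_right hL2 (show 0 ≤ 1 + Q by linarith)
    exact le_trans hQ1 (by linarith)
  have hε6 : ε' ≤ 1 / 6 := by nlinarith
  have hQ3 : Q ≤ 2 * P := by nlinarith
  have hQ4 : Q - P ≤ 6 * ε' * P := by nlinarith
  have up : Ex ν l (Y e) ≤ (1 + ε) * P := by
    have : Ex ν l (Y e) ≤ Q := Ex_mono h0 h1 l _ _ fun s => by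
      simp only [Y]
      split_ifs
      · exact hYA e s
      · exact Real.rpow_nonneg (A0 e s) q
    have h2 : 6 * ε' * P ≤ ε * P := mul_le_mul_of_nonneg_right (by nlinarith) (by linarith)
    linarith
  have lo : (1 - 3 * ε) * P ≤ Ex ν l (Y e) := by
    have pt : ∀ s, ((1 - ε + C2) * LS (fun a => |u e a| ^ q) s - C2 * A e s ^ q) -
        ∑ e', (q ^ q * K ^ q * Real.exp (-t) / 2) *
          (Real.exp (2 * (A e s / K)) + Real.exp (2 * (A e' s / K))) ≤ Y e s := by
      intro s
      have z1 := H2 (A e s) (LS (fun a => |u e a| ^ q) s) (LM (u e) s) |LS (u e) s| (LM_nn _ _)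
        (LS_nn (fun a => by positivity) s) (abs_nonneg _) (LS_abs _ _) (LM_le _ _) (LM_pow _ hq _)
      have z0 : ∀ e' ∈ (univ : Finset J), 0 ≤ (q ^ q * K ^ q * Real.exp (-t) / 2) *
          (Real.exp (2 * (A e s / K)) + Real.exp (2 * (A e' s / K))) := fun e' _ => by positivity
      simp only [Y]
      split_ifs with h
      · have := sum_nonneg z0
        linarith
      · simp only [good, not_forall, not_le] at h
        obtain ⟨e', he'⟩ := h
        have z2 := single_le_sum z0 (mem_univ e')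
        have z3 := rpow_le_exp hq0 (show 0 ≤ A e s / K from div_nonneg (A0 e s) hK0.le)
        rw [Real.div_rpow (A0 e s) hK0.le, div_le_iff₀ (by positivity)] at z3
        have z4 : 1 ≤ Real.exp (-t) * Real.exp (A e' s / K) := by
          rw [← Real.exp_add, Real.one_le_exp_iff]
          have : t ≤ A e' s / K := by rw [le_div_iff₀ hK0]; exact he'.le
          linarith
        have z5 : Real.exp (A e s / K) * Real.exp (A e' s / K) ≤
            (Real.exp (2 * (A e s / K)) + Real.exp (2 * (A e' s / K))) / 2 := by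
          rw [two_mul, two_mul, Real.exp_add, Real.exp_add]
          nlinarith [sq_nonneg (Real.exp (A e s / K) - Real.exp (A e' s / K))]
        have z6 := mul_le_mul_of_nonneg_left z4
          (show 0 ≤ q ^ q * Real.exp (A e s / K) * K ^ q by positivity)
        have z7 := mul_le_mul_of_nonneg_left z5
          (show 0 ≤ q ^ q * K ^ q * Real.exp (-t) by positivity)
        have z8 := hYA e s
        linarith
    have z := Ex_mono h0 h1 l _ _ pt
    rw [Ex_sub, Ex_sub, Ex_mul, Ex_mul, Ex_LS, Ex_sum] at z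
    have z9 : ∑ e', Ex ν l (fun s => (q ^ q * K ^ q * Real.exp (-t) / 2) *
          (Real.exp (2 * (A e s / K)) + Real.exp (2 * (A e' s / K)))) ≤ ε := by
      refine le_trans ?_ htail
      calc _ ≤ ∑ _e' : J, q ^ q * K ^ q * Real.exp (7 - t) := by
            apply sum_le_sum; intro e' _
            rw [Ex_mul, Ex_add]
            have := mul_le_mul_of_nonneg_left (add_le_add (mg e) (mg e'))
              (show 0 ≤ q ^ q * K ^ q * Real.exp (-t) / 2 by positivity)
            rw [sub_eq_neg_add, Real.exp_add]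
            linarith
        _ = _ := by simp; ring
    have z10 := mul_le_mul_of_nonneg_left hQ4 hC2.le
    have z11 : C2 * (6 * ε' * P) ≤ ε * P := by
      rw [← hε'1]
      have : 0 ≤ ε' * P := by positivity
      nlinarith
    have z12 : ε ≤ ε * P := le_mul_of_one_le_right hε.le hP1
    linarith
  have hs' := abs_le.mp (hs e)
  have n0 : (0 : ℝ) ≤ n := Nat.cast_nonneg n
  have z12 : ε * n ≤ ε * P * n :=
    mul_le_mul_of_nonneg_right (le_mul_of_one_le_right hε.le hP1) n0
  have u1 := mul_le_mul_of_nonneg_left up n0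
  have u2 := mul_le_mul_of_nonneg_left lo n0
  constructor <;> linarith [hs'.1, hs'.2]

end Vale.Agent.P249
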