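import Vale.Agent.P249.Chain

namespace Vale.Agent.P249

open Finset

variable {E : Type*} [NormedAddCommGroup E] [NormedSpace ℝ E]

structure PairHyp (P Q : PD) (d r0 : ℝ) (j N : ℕ) (a0 : ℝ) (T : ℕ → ℝ) (σ : ℝ) : Prop where
  d0 : 0 < d
  r00 : 0 < r0
  jN : j ≤ N
  hj1 : d ≤ rr r0 j
  hj2 : rr r0 j ≤ 2 * d
  hcP : ∀ i, j ≤ i → i ≤ N → |P.S i - Q.S i| ≤ 7 * (d / rr r0 i) * P.Em i i
  hcQ : ∀ i, j ≤ i → i ≤ N → |P.S i - Q.S i| ≤ 7 * (d / rr r0 i) * Q.Em i i
  hEP : ∀ i k, j ≤ i → i < k → k ≤ N →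
    |P.Em i k - Q.Em i k| ≤ 7 * d * (P.Em i k / rr r0 k + P.Em i i / rr r0 i)
  hEQ : ∀ i k, j ≤ i → i < k → k ≤ N →
    |P.Em i k - Q.Em i k| ≤ 7 * d * (Q.Em i k / rr r0 k + Q.Em i i / rr r0 i)
  hD : ∀ k, j ≤ k → k ≤ N → |P.D k - Q.D k| ≤ 7 * d * (P.D k / rr r0 k) + a0 * d
  ha0 : |P.x - Q.x| = a0 * d
  top : P.S N = Q.S N
  hT1 : ∀ k, T (k + 1) ≤ T k
  hT2 : ∀ k, k < N → Q.χ k < 1 → 2 * T (k + 1) ≤ T k
  hT3 : 1 ≤ T N
  hT4 : ∀ k, T k ≤ σ

noncomputable def pot (d M η β G : ℝ) : ℝ :=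
  if β < M / η then 98 * d * (M / η + M - β) + 2 * G else 0

lemma pot_nonneg {d M η β G : ℝ} (hd : 0 < d) (hM : 0 ≤ M) (hG : 0 ≤ G) : 0 ≤ pot d M η β G := by
  unfold pot
  split_ifs with h
  · have : 0 ≤ M / η + M - β := by linarith
    positivity
  · exact le_rfl

lemma stepPure {d M η β β' e a c G G' : ℝ} (hd : 0 < d) (hη : 0 < η) (hβ : 0 < β) (he : 0 ≤ e)
    (_ha : 0 ≤ a) (heM : e ≤ M) (haM : a ≤ M) (h1 : β + e ≤ β') (h2 : β + a / 4 ≤ β')
    (hc1 : c ≤ 28 * d * β) (hc2 : c ≤ 7 * d * M) (hG : 0 ≤ G) (hG1 : G ≤ 14 * M * d)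
    (hG'0 : 0 ≤ G') (hG' : G' ≤ G + 7 * d * (e + a)) :
    c * (e / β) + G' * (e / (β + e)) + pot d M η β' (G' / 2) ≤ pot d M η β G + 35 * d * η * e := by
  have hM : 0 ≤ M := le_trans he heM
  have q0 : 0 ≤ e / β := div_nonneg he hβ.le
  have q1 : e / (β + e) ≤ 1 := by rw [div_le_one (by linarith)]; linarith
  have q2 : e / (β + e) ≤ e / β := div_le_div_of_nonneg_left he hβ (by linarith)
  have q3 : 0 ≤ 35 * d * η * e := by positivity
  by_cases hs : β < M / η
  · have c1 : c * (e / β) ≤ 28 * d * e := by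
      calc c * (e / β) ≤ (28 * d * β) * (e / β) := mul_le_mul_of_nonneg_right hc1 q0
        _ = 28 * d * e := by field_simp
    have c2 : G' * (e / (β + e)) ≤ G' := by nlinarith
    unfold pot
    rw [if_pos hs]
    split_ifs with hs'
    · have k1 : d * e ≤ d * (β' - β) := mul_le_mul_of_nonneg_left (by linarith) hd.le
      have k2 : d * a ≤ d * (4 * (β' - β)) := mul_le_mul_of_nonneg_left (by linarith) hd.le
      nlinarith
    · have k1 : d * e ≤ d * M := mul_le_mul_of_nonneg_left heM hd.le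
      have k2 : d * a ≤ d * M := mul_le_mul_of_nonneg_left haM hd.le
      have k3 : 0 ≤ d * (M / η - β) := mul_nonneg hd.le (by linarith)
      have k4 : 0 ≤ d * M := by positivity
      nlinarith
  · push Not at hs
    have hs' : ¬ β' < M / η := by push Not; linarith
    unfold pot
    rw [if_neg hs', if_neg (not_lt.mpr hs)]
    have k0 : M * (e / β) ≤ η * e := by
      rw [div_le_iff₀ hη] at hs
      have : M * (e / β) ≤ (β * η) * (e / β) := mul_le_mul_of_nonneg_right hs q0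
      have h3 : (β * η) * (e / β) = η * e := by field_simp
      linarith
    have c1 : c * (e / β) ≤ (7 * d * M) * (e / β) := mul_le_mul_of_nonneg_right hc2 q0
    have hG'' : G' ≤ 28 * d * M := by
      have k1 : d * e ≤ d * M := mul_le_mul_of_nonneg_left heM hd.le
      have k2 : d * a ≤ d * M := mul_le_mul_of_nonneg_left haM hd.le
      nlinarith
    have c2 : G' * (e / (β + e)) ≤ (28 * d * M) * (e / β) :=
      mul_le_mul hG'' q2 (div_nonneg he (by linarith)) (by positivity)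
    have k5 : d * (M * (e / β)) ≤ d * (η * e) := mul_le_mul_of_nonneg_left k0 hd.le
    nlinarith

lemma stepReal {d M η ρ ru rk b Ee Ek c G G' : ℝ} (hd : 0 < d) (hη : 0 < η) (hρ : 0 < ρ)
    (hrk : 0 < rk) (hru : 2 * rk ≤ ru) (hb : 0 < b) (hEe : 0 ≤ Ee) (hEk : 0 ≤ Ek)
    (hEk2 : Ek ≤ 2 * Ee) (heM : Ee ≤ M * ru) (haM : Ek ≤ M * rk)
    (hc1 : c ≤ 28 * d * (ρ * b / ru)) (hc2 : c ≤ 7 * d * M) (hG : 0 ≤ G) (hG1 : G ≤ 14 * M * d)
    (hG'0 : 0 ≤ G') (hG' : G' ≤ G + 7 * d * (Ee / ru + Ek / rk)) :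
    c * ((Ee / ρ) / b) + G' * ((Ee / ρ) / (b + Ee / ρ)) +
      pot d M η ((ρ / 2) * (b + Ee / ρ) / rk) (G' / 2) ≤
      pot d M η (ρ * b / ru) G + 35 * d * η * (Ee / ru) := by
  have hru0 : 0 < ru := by linarith
  have e1 : (Ee / ρ) / b = (Ee / ru) / (ρ * b / ru) := by field_simp
  have e2 : (Ee / ρ) / (b + Ee / ρ) = (Ee / ru) / (ρ * b / ru + Ee / ru) := by field_simp
  have e3 : (ρ / 2) * (b + Ee / ρ) / rk = ρ * b / (2 * rk) + Ee / (2 * rk) := by field_simp
  have f1 : ρ * b / ru ≤ ρ * b / (2 * rk) :=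
    div_le_div_of_nonneg_left (by positivity) (by positivity) hru
  have f2 : Ee / ru ≤ Ee / (2 * rk) := div_le_div_of_nonneg_left hEe (by positivity) hru
  have f3 : Ek / rk / 4 ≤ Ee / (2 * rk) := by
    rw [div_div, div_le_div_iff₀ (by positivity) (by positivity)]
    nlinarith
  rw [e1, e2]
  apply stepPure (a := Ek / rk) hd hη (by positivity) (by positivity) (by positivity)
    (by rw [div_le_iff₀ hru0]; exact heM) (by rw [div_le_iff₀ hrk]; exact haM)
    (by rw [e3]; linarith) (by rw [e3]; linarith) hc1 hc2 hG hG1 hG'0 hG'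

lemma max_move {Ψ : ℝ → E} (h : LL Ψ) {bx by' ux uy c : ℝ} (hx : 0 < bx) (hy : 0 < by')
    (hux : 0 ≤ ux) (huy : 0 ≤ uy) :
    ‖c • (Ψ (max (bx + ux) (by' + uy)) - Ψ (max bx by'))‖ ≤ |c| * (ux / bx) + |c| * (uy / by') := by
  have hm : 0 < max bx by' := lt_max_of_lt_left hx
  have h1 := h.lin hm (show max bx by' ≤ max (bx + ux) (by' + uy) from
    max_le_max (by linarith) (by linarith))
  have h2 : (max (bx + ux) (by' + uy) - max bx by') / max bx by' ≤ ux / bx + uy / by' := by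
    have a1 : ux / max bx by' ≤ ux / bx := div_le_div_of_nonneg_left hux hx (le_max_left _ _)
    have a2 : uy / max bx by' ≤ uy / by' := div_le_div_of_nonneg_left huy hy (le_max_right _ _)
    have a3 : max (bx + ux) (by' + uy) - max bx by' ≤ ux + uy := by
      have := le_max_left bx by'
      have := le_max_right bx by'
      have : max (bx + ux) (by' + uy) ≤ max bx by' + (ux + uy) := max_le (by linarith) (by linarith)
      linarith
    have a4 := div_le_div_of_nonneg_right a3 hm.le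
    rw [add_div] at a4
    linarith
  rw [norm_smul, Real.norm_eq_abs, ← mul_add]
  exact mul_le_mul_of_nonneg_left (le_trans h1 h2) (abs_nonneg _)

lemma lvl_move {Ψ : ℝ → E} (h : LL Ψ) {v A ρ b b' : ℝ} (hρ : 0 < ρ) (hb : 0 < b)
    (hv : |v| ≤ A) :
    ‖v • (Ψ b - Ψ (max b b'))‖ ≤ (ρ * |b - b'|) * ((A / ρ) / b) := by
  have h1 := h.lin hb (le_max_left b b')
  have h2 : max b b' - b ≤ |b - b'| := by
    have := neg_abs_le (b - b')
    have := abs_nonneg (b - b')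
    have : max b b' ≤ b + |b - b'| := max_le (by linarith) (by linarith)
    linarith
  have h3 := div_le_div_of_nonneg_right h2 hb.le
  rw [norm_smul, Real.norm_eq_abs, norm_sub_rev]
  calc |v| * ‖Ψ (max b b') - Ψ b‖ ≤ A * (|b - b'| / b) :=
        mul_le_mul hv (le_trans h1 h3) (norm_nonneg _) (le_trans (abs_nonneg _) hv)
    _ = (ρ * |b - b'|) * ((A / ρ) / b) := by field_simp

/-- cost of adding matched terms -/
lemma match_cost {Ψ : ℝ → E} (h : LL Ψ) {vx vy cu Ax Ay ρ bx by' : ℝ} (hρ : 0 < ρ) (hx : 0 < bx)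
    (hy : 0 < by') (hvx : |vx| ≤ Ax) (hvy : |vy| ≤ Ay) :
    ‖vx • Ψ (bx + Ax / ρ) - vy • Ψ (by' + Ay / ρ) + cu • Ψ (max bx by') -
      (vx - vy + cu) • Ψ (max (bx + Ax / ρ) (by' + Ay / ρ))‖ ≤
      (|cu| * ((Ax / ρ) / bx) +
        (ρ * |(bx + Ax / ρ) - (by' + Ay / ρ)|) * ((Ax / ρ) / (bx + Ax / ρ))) +
      (|cu| * ((Ay / ρ) / by') +
        (ρ * |(bx + Ax / ρ) - (by' + Ay / ρ)|) * ((Ay / ρ) / (by' + Ay / ρ))) := by
  have hAx : 0 ≤ Ax / ρ := div_nonneg (le_trans (abs_nonneg _) hvx) hρ.le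
  have hAy : 0 ≤ Ay / ρ := div_nonneg (le_trans (abs_nonneg _) hvy) hρ.le
  have n1 := lvl_move h (b' := by' + Ay / ρ) hρ (show 0 < bx + Ax / ρ by linarith) hvx
  have n2 := lvl_move h (b' := bx + Ax / ρ) hρ (show 0 < by' + Ay / ρ by linarith) hvy
  rw [max_comm, abs_sub_comm] at n2
  have n3 := max_move h (c := cu) hx hy hAx hAy
  have key : vx • Ψ (bx + Ax / ρ) - vy • Ψ (by' + Ay / ρ) + cu • Ψ (max bx by') -
      (vx - vy + cu) • Ψ (max (bx + Ax / ρ) (by' + Ay / ρ)) =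
      vx • (Ψ (bx + Ax / ρ) - Ψ (max (bx + Ax / ρ) (by' + Ay / ρ))) -
      vy • (Ψ (by' + Ay / ρ) - Ψ (max (bx + Ax / ρ) (by' + Ay / ρ))) -
      cu • (Ψ (max (bx + Ax / ρ) (by' + Ay / ρ)) - Ψ (max bx by')) := by
    simp only [smul_sub, sub_smul, add_smul]
    abel
  rw [key]
  have := le_trans (norm_sub_le _ _) (add_le_add (le_trans (norm_sub_le _ _) (add_le_add n1 n2)) n3)
  linarith

noncomputable def dl (P Q : PD) (r0 : ℝ) (i : ℕ) : ℝ := (P.D i + Q.D i) / rr r0 i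

structure Inv (P Q : PD) (d r0 : ℝ) (N : ℕ) (T : ℕ → ℝ) (M fl bm : ℝ) (k up : ℕ)
    (ρ bx by' : ℝ) : Prop where
  k1 : k ≤ up
  k2 : up ≤ N
  r1 : rr r0 up ≤ ρ
  r2 : ρ ≤ rr r0 k * T k
  f1 : fl ≤ bx
  f2 : fl ≤ by'
  m1 : bx + dl P Q r0 up + 2 * ∑ i ∈ range k, dl P Q r0 i ≤ bm
  m2 : by' + dl P Q r0 up + 2 * ∑ i ∈ range k, dl P Q r0 i ≤ bm
  c1 : |P.S up - Q.S up| ≤ 28 * d * (ρ * bx / rr r0 up)
  c2 : |P.S up - Q.S up| ≤ 28 * d * (ρ * by' / rr r0 up)
  g : ρ * |bx - by'| ≤ 14 * M * d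
  u1 : 2 * P.D up ≤ M * rr r0 up
  u2 : 2 * Q.D up ≤ M * rr r0 up

lemma dl_nonneg {P Q : PD} (hP : P.Good) (hQ : Q.Good) {r0 : ℝ} (hr : 0 < r0) (i : ℕ) :
    0 ≤ dl P Q r0 i := div_nonneg (add_nonneg (hP.D0 i) (hQ.D0 i)) (rr_pos hr i).le

lemma log_final {Ψ : ℝ → E} (h : LL Ψ) {v a0 d fl b bm η K : ℝ} (hd : 0 < d) (ha : 0 ≤ a0)
    (hv : |v| = a0 * d) (hfl : 0 < fl) (hη : 0 < η) (hK : 1 ≤ K) (hb1 : a0 + fl ≤ K * b)
    (hb2 : b ≤ bm) :
    ‖v • (Ψ b - Ψ (a0 + fl))‖ ≤ d * (a0 * (Real.log K + 1 / η) + η * bm) := by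
  have hb : 0 < b := by
    by_contra hc
    push Not at hc
    nlinarith
  have hlK : 0 ≤ Real.log K := Real.log_nonneg hK
  have hbm : 0 < bm := by linarith
  rw [norm_smul, Real.norm_eq_abs, hv, mul_comm a0 d, mul_assoc]
  apply mul_le_mul_of_nonneg_left _ hd.le
  rcases le_total b (a0 + fl) with hc | hc
  · have h1 := h b (a0 + fl) hb hc
    rw [norm_sub_rev]
    have h2 : Real.log ((a0 + fl) / b) ≤ Real.log K := by
      apply Real.log_le_log (by positivity)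
      rw [div_le_iff₀ hb]; exact hb1
    have h3 := mul_le_mul_of_nonneg_left (le_trans h1 h2) ha
    have : 0 ≤ a0 * (1 / η) := by positivity
    have : 0 ≤ η * bm := by positivity
    nlinarith
  · have h1 := h (a0 + fl) b (by linarith) hc
    have h2 : Real.log (b / (a0 + fl)) ≤ 1 / η + η * (b / (a0 + fl)) := by
      have e : b / (a0 + fl) = (1 / η) * (η * (b / (a0 + fl))) := by field_simp
      have p1 : 0 < η * (b / (a0 + fl)) := by positivity
      have l1 := Real.log_le_sub_one_of_pos p1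
      have l2 := Real.log_le_sub_one_of_pos (show 0 < 1 / η by positivity)
      have l3 : Real.log (b / (a0 + fl)) = Real.log (1 / η) + Real.log (η * (b / (a0 + fl))) := by
        rw [← Real.log_mul (by positivity) (by positivity), ← e]
      linarith
    have h3 := mul_le_mul_of_nonneg_left (le_trans h1 h2) ha
    have h4 : a0 * (η * (b / (a0 + fl))) ≤ η * bm := by
      have : a0 * (b / (a0 + fl)) ≤ b := by
        rw [← mul_div_assoc, div_le_iff₀ (by linarith)]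
        nlinarith
      nlinarith
    have : 0 ≤ a0 * Real.log K := by positivity
    nlinarith

lemma closing {P Q : PD} (hP : P.Good) (hQ : Q.Good) {d r0 a0 σ : ℝ} {j N : ℕ} {T : ℕ → ℝ}
    (H : PairHyp P Q d r0 j N a0 T σ) {Ψ : ℝ → E} (h : LL Ψ) {M fl bm η : ℝ} (hfl : 0 < fl)
    (hη : 0 < η) (haM : a0 ≤ M) {up : ℕ} {ρ bx by' : ℝ}
    (I : Inv P Q d r0 N T M fl bm j up ρ bx by') :
    ‖P.V Ψ 0 up ρ bx - Q.V Ψ 0 up ρ by' + (P.S up - Q.S up) • Ψ (max bx by') -
      (P.x - Q.x) • Ψ (a0 + fl)‖ ≤ d * (100 * M + a0 * (Real.log (64 * σ) + 1 / η) + η * bm) := by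
  have hd := H.d0
  have hu := rr_pos H.r00 up
  have hρ : 0 < ρ := lt_of_lt_of_le hu I.r1
  have hx : 0 < bx := lt_of_lt_of_le hfl I.f1
  have hy : 0 < by' := lt_of_lt_of_le hfl I.f2
  have ha : 0 ≤ a0 := by
    have := abs_nonneg (P.x - Q.x)
    rw [H.ha0] at this
    exact nonneg_of_mul_nonneg_left this hd
  have hM : 0 ≤ M := le_trans ha haM
  have hσ : 1 ≤ σ := le_trans H.hT3 (H.hT4 N)
  have mc := match_cost h (cu := P.S up - Q.S up) hρ hx hy (hP.hx up) (hQ.hx up)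
  have e0 : P.x - P.S up - (Q.x - Q.S up) + (P.S up - Q.S up) = P.x - Q.x := by ring
  rw [e0] at mc
  set bs := max (bx + P.D up / ρ) (by' + Q.D up / ρ) with hbs
  have DP := hP.D0 up
  have DQ := hQ.D0 up
  have hDP : 0 ≤ P.D up / ρ := div_nonneg DP hρ.le
  have hDQ : 0 ≤ Q.D up / ρ := div_nonneg DQ hρ.le
  have hdu : d ≤ rr r0 up := le_trans H.hj1 (rr_mono H.r00 I.k1)
  -- final move
  have lf : ‖(P.x - Q.x) • (Ψ bs - Ψ (a0 + fl))‖ ≤
      d * (a0 * (Real.log (64 * σ) + 1 / η) + η * bm) := by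
    apply log_final h hd ha H.ha0 hfl hη (by linarith)
    · have b1 : bx + P.D up / ρ ≤ bs := le_max_left _ _
      have b2 : by' + Q.D up / ρ ≤ bs := le_max_right _ _
      have b3 : P.D up ≤ ρ * bs := by
        have : P.D up / ρ ≤ bs := by linarith
        rwa [div_le_iff₀ hρ, mul_comm] at this
      have b4 : Q.D up ≤ ρ * bs := by
        have : Q.D up / ρ ≤ bs := by linarith
        rwa [div_le_iff₀ hρ, mul_comm] at this
      have b5 := H.hcQ up I.k1 I.k2
      have b6 : d / rr r0 up ≤ 1 := by rw [div_le_one hu]; exact hdu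
      have b7 := hQ.t2 up up
      have b8 : 7 * (d / rr r0 up) * Q.Em up up ≤ 14 * Q.D up := by
        have := mul_le_mul_of_nonneg_right b6 (hQ.E0 up up)
        linarith
      have b9 : |P.x - Q.x| ≤ P.D up + Q.D up + |P.S up - Q.S up| := by
        have s1 := hP.hx up
        have s2 := hQ.hx up
        have s3 : P.x - Q.x = (P.x - P.S up) - (Q.x - Q.S up) + (P.S up - Q.S up) := by ring
        rw [s3]
        have s4 := abs_add_le ((P.x - P.S up) - (Q.x - Q.S up)) (P.S up - Q.S up)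
        have s5 := abs_sub (P.x - P.S up) (Q.x - Q.S up)
        linarith
      rw [H.ha0] at b9
      have hbs0 : 0 < bs := by linarith
      have b10 : ρ ≤ 2 * d * σ := by
        have t0 : 0 ≤ T j := by
          by_contra hc
          push Not at hc
          have := rr_pos H.r00 j
          have := I.r2
          nlinarith
        calc ρ ≤ rr r0 j * T j := I.r2
          _ ≤ (2 * d) * σ := mul_le_mul H.hj2 (H.hT4 j) t0 (by positivity)
      have b11 : a0 * d ≤ (32 * σ * bs) * d := by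
        have : ρ * bs ≤ 2 * d * σ * bs := mul_le_mul_of_nonneg_right b10 hbs0.le
        linarith
      have b12 : a0 ≤ 32 * σ * bs := le_of_mul_le_mul_right b11 hd
      have b13 : fl ≤ bs := by linarith [I.f1]
      have b14 : bs ≤ σ * bs := le_mul_of_one_le_left hbs0.le hσ
      linarith
    · have s0 : 0 ≤ ∑ i ∈ range j, dl P Q r0 i := sum_nonneg fun i _ => dl_nonneg hP hQ H.r00 i
      have s1 : P.D up / ρ ≤ dl P Q r0 up := by
        unfold dl
        exact div_le_div₀ (by linarith) (by linarith) hu I.r1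
      have s2 : Q.D up / ρ ≤ dl P Q r0 up := by
        unfold dl
        exact div_le_div₀ (by linarith) (by linarith) hu I.r1
      exact max_le (by linarith [I.m1]) (by linarith [I.m2])
  -- matched cost
  have cst : ∀ (b A : ℝ), 0 < b → 0 ≤ A → 2 * A ≤ M * rr r0 up →
      |P.S up - Q.S up| ≤ 28 * d * (ρ * b / rr r0 up) →
      |P.S up - Q.S up| * ((A / ρ) / b) +
        (ρ * |(bx + P.D up / ρ) - (by' + Q.D up / ρ)|) * ((A / ρ) / (b + A / ρ)) ≤ 50 * M * d := by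
    intro b A hb hA hAM hc
    have w0 : 0 ≤ A / ρ := div_nonneg hA hρ.le
    have w1 : |P.S up - Q.S up| * ((A / ρ) / b) ≤ 14 * M * d := by
      calc |P.S up - Q.S up| * ((A / ρ) / b) ≤ (28 * d * (ρ * b / rr r0 up)) * ((A / ρ) / b) :=
            mul_le_mul_of_nonneg_right hc (by positivity)
        _ = 14 * d * ((2 * A) / rr r0 up) := by field_simp; ring
        _ ≤ 14 * d * M := by
            apply mul_le_mul_of_nonneg_left _ (by positivity)
            rw [div_le_iff₀ hu]; exact hAM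
        _ = 14 * M * d := by ring
    have w2 : (A / ρ) / (b + A / ρ) ≤ 1 := by rw [div_le_one (by linarith)]; linarith
    have w3 : ρ * |(bx + P.D up / ρ) - (by' + Q.D up / ρ)| ≤ 19 * M * d := by
      have z1 : (bx + P.D up / ρ) - (by' + Q.D up / ρ) = (bx - by') + (P.D up - Q.D up) / ρ := by
        ring
      rw [z1]
      have z2 := abs_add_le (bx - by') ((P.D up - Q.D up) / ρ)
      rw [abs_div, abs_of_pos hρ] at z2
      have z3 : ρ * (|P.D up - Q.D up| / ρ) = |P.D up - Q.D up| := by field_simp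
      have z4 := H.hD up I.k1 I.k2
      have z5 : P.D up / rr r0 up ≤ M / 2 := by
        rw [div_le_iff₀ hu]; linarith [I.u1]
      have z6 := mul_le_mul_of_nonneg_left z2 hρ.le
      have z7 := I.g
      have z8 : d * (P.D up / rr r0 up) ≤ d * (M / 2) := mul_le_mul_of_nonneg_left z5 hd.le
      have z9 : a0 * d ≤ M * d := mul_le_mul_of_nonneg_right haM hd.le
      have z10 : 0 ≤ M * d := by positivity
      rw [mul_add, z3] at z6
      linarith
    have w4 : 0 ≤ ρ * |(bx + P.D up / ρ) - (by' + Q.D up / ρ)| := by positivity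
    have w5 := mul_le_mul_of_nonneg_left w2 w4
    have z10 : 0 ≤ M * d := by positivity
    linarith
  have c1 := cst bx _ hx DP I.u1 I.c1
  have c2 := cst by' _ hy DQ I.u2 I.c2
  have key : P.V Ψ 0 up ρ bx - Q.V Ψ 0 up ρ by' + (P.S up - Q.S up) • Ψ (max bx by') -
      (P.x - Q.x) • Ψ (a0 + fl) =
      ((P.x - P.S up) • Ψ (bx + P.D up / ρ) - (Q.x - Q.S up) • Ψ (by' + Q.D up / ρ) +
        (P.S up - Q.S up) • Ψ (max bx by') - (P.x - Q.x) • Ψ bs) +
        (P.x - Q.x) • (Ψ bs - Ψ (a0 + fl)) := by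
    rw [PD.V_zero, PD.V_zero, smul_sub]; abel
  rw [key]
  refine le_trans (norm_add_le _ _) ?_
  linarith

end Vale.Agent.P249
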