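import Vale.Agent.P249.Core2

namespace Vale.Agent.P249

open Filter Topology

lemma ev_small (A s : ℝ) {c L0 : ℝ} (hc : 0 < c) (hL0 : 0 < L0) :
    ∀ᶠ L : ℝ in atTop, A * (L ^ s * Real.exp (-c * L)) ≤ L0 := by
  have h := (tendsto_rpow_mul_exp_neg_mul_atTop_nhds_zero s c hc).const_mul A
  rw [mul_zero] at h
  exact (h.eventually (gt_mem_nhds hL0)).mono fun L hL => hL.le

lemma ev_poly (A : ℝ) (k : ℕ) {c : ℝ} (hc : 0 < c) :
    ∀ᶠ L : ℝ in atTop, A * L ^ k ≤ Real.exp (c * L) := by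
  refine (ev_small A k hc one_pos).mono fun L hL => ?_
  rw [Real.rpow_natCast, neg_mul, Real.exp_neg, ← mul_assoc, ← div_eq_mul_inv,
    div_le_one (Real.exp_pos _)] at hL
  exact hL

lemma ev_root (A : ℝ) {q c : ℝ} (hq : 1 < q) (hc : 0 < c) :
    ∀ᶠ L : ℝ in atTop, A * L ^ (1 / q) ≤ c * L := by
  have h0 : 0 < 1 - 1 / q := by
    have : 1 / q < 1 := by rw [div_lt_one (by linarith)]; exact hq
    linarith
  have h := (tendsto_rpow_neg_atTop h0).const_mul A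
  rw [mul_zero] at h
  filter_upwards [h.eventually (gt_mem_nhds hc), eventually_gt_atTop 0] with L hL hL0
  have e : L ^ (1 / q) = L ^ (-(1 - 1 / q)) * L := by
    rw [← Real.rpow_add_one hL0.ne']; congr 1; ring
  rw [e, ← mul_assoc]
  exact mul_le_mul_of_nonneg_right hL.le hL0.le

lemma Kc_le {δ L l : ℝ} {h : ℕ} (hδ : 0 < δ) (hδ1 : δ ≤ 1) (hL : 1 ≤ δ * L) (hl : 2 / δ ≤ l)
    (hh : (h : ℝ) ≤ 2 * (δ * L)) (hp : 2000 * L ^ 2 ≤ Real.exp (δ * L)) :
    Kc L l (2 * h) ≤ Real.exp (15 * (δ * L)) := by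
  have L0 : 0 < L := by
    by_contra hc
    push Not at hc
    nlinarith
  have L1 : δ * L ≤ L := by nlinarith
  have l0 : 0 < l := lt_of_lt_of_le (by positivity) hl
  have h0 : (0 : ℝ) ≤ h := Nat.cast_nonneg h
  unfold Kc
  have a1 : 2 * L / l ≤ δ * L := by
    rw [div_le_iff₀ l0]
    rw [div_le_iff₀ hδ] at hl
    nlinarith
  have a2 : 3 * ((2 * h : ℕ) : ℝ) + 1 ≤ 13 * (δ * L) := by push_cast; linarith
  have a3 : 120 * ((2 * h : ℕ) : ℝ) + 168 + 256 * ((2 * h : ℕ) : ℝ) * L ≤ Real.exp (δ * L) := by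
    refine le_trans ?_ hp
    push_cast
    have b1 : (h : ℝ) ≤ 2 * L := by linarith
    have b2 : (h : ℝ) * L ≤ 2 * L * L := mul_le_mul_of_nonneg_right b1 L0.le
    have b3 : 1 ≤ L := by linarith
    nlinarith
  have e : Real.exp (15 * (δ * L)) =
      Real.exp (δ * L) * Real.exp (13 * (δ * L)) * Real.exp (δ * L) := by
    rw [← Real.exp_add, ← Real.exp_add]; congr 1; ring
  rw [e]
  exact mul_le_mul (mul_le_mul (Real.exp_le_exp.mpr a1) (Real.exp_le_exp.mpr a2)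
    (Real.exp_pos _).le (Real.exp_pos _).le) a3 (by positivity) (by positivity)

lemma Kc_nn {L l : ℝ} (hL : 0 ≤ L) (m : ℕ) : 0 ≤ Kc L l m := by unfold Kc; positivity

theorem params {q ε L0 θ : ℝ} (hq : 1 < q) (hε : 0 < ε) (hε1 : ε ≤ 1 / 8) (hL0 : 0 < L0)
    (hθ : 0 < θ) : ∀ᶠ L : ℝ in atTop, ∃ (l η t : ℝ) (h : ℕ), 1 ≤ L ∧ 1 ≤ l ∧ 0 < η ∧ 8 ≤ h ∧
      Del q L l η ≤ ε * h / 4 ∧
      Real.exp (-(q - 1) * (2 * h : ℕ)) / (1 - Real.exp (-(q - 1))) *
        ((4 * h) ^ q + (3 + 8 * L) ^ q) ≤ L0 ∧ 1 ≤ t ∧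
      Real.exp (2 * L) * q ^ q * Kc L l (2 * h) ^ q * Real.exp (7 - t) ≤ ε ∧
      4 * ((t * Kc L l (2 * h)) ^ q) ^ 2 * (1 + 2 * L) / ε ^ 2 ≤ Real.exp (θ * L) - 1 := by
  have hq0 : 0 < q := by linarith
  obtain ⟨δ, hδ, hδ1, hδθ⟩ : ∃ δ : ℝ, 0 < δ ∧ δ ≤ 1 ∧ 40 * q * δ ≤ θ := by
    refine ⟨min 1 (θ / (40 * q)), lt_min one_pos (by positivity), min_le_left _ _, ?_⟩
    have := min_le_right 1 (θ / (40 * q))
    rw [le_div_iff₀ (by positivity)] at this
    linarith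
  obtain ⟨η, hη⟩ : ∃ η, η = ε * δ / 5000 := ⟨_, rfl⟩
  obtain ⟨l, hl⟩ : ∃ l, l = 7000 / (ε * δ) := ⟨_, rfl⟩
  have η0 : 0 < η := by rw [hη]; positivity
  have hl2 : 2 / δ ≤ l := by
    rw [hl, div_le_div_iff₀ hδ (by positivity)]
    nlinarith
  have hl1 : 1 ≤ l := by
    refine le_trans ?_ hl2
    rw [le_div_iff₀ hδ]; linarith
  have h1 : 0 < 1 - Real.exp (-(q - 1)) := by
    have : Real.exp (-(q - 1)) < 1 := Real.exp_lt_one_iff.mpr (by linarith)
    linarith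
  have hc : 0 < ε * δ / 16 := by positivity
  filter_upwards [eventually_ge_atTop (8 / δ),
    eventually_ge_atTop ((1 + 5 * (196 / η + 296) + 64 + 1 / η + 108 * η + 24 * Real.exp (2 * l)) /
      (ε * δ / 16)),
    ev_root (80 * (196 / η + 296) * Real.exp (2 * l)) hq hc,
    ev_small (2 * 11 ^ q / (1 - Real.exp (-(q - 1)))) q (show 0 < 2 * (q - 1) * δ by
      have : 0 < q - 1 := by linarith
      positivity) hL0,
    ev_poly 2000 2 hδ, ev_poly (9 + q ^ 2 + 15 * q + 1 / ε) 1 hδ, ev_poly (12 / ε ^ 2) 1 hδ]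
    with L e1 e2 e3 e4 e5 e6 e7
  rw [div_le_iff₀ hδ] at e1
  rw [div_le_iff₀ hc] at e2
  have L0' : 0 < L := by
    by_contra hc
    push Not at hc
    nlinarith
  have L1 : δ * L ≤ L := by nlinarith
  have L8 : 8 ≤ L := by linarith
  have hh1 : δ * L ≤ (⌈δ * L⌉₊ : ℝ) := Nat.le_ceil _
  have hh2 : (⌈δ * L⌉₊ : ℝ) < δ * L + 1 := Nat.ceil_lt_add_one (by positivity)
  set h := ⌈δ * L⌉₊ with hh
  have hK := Kc_le (h := h) hδ hδ1 (by linarith) hl2 (by linarith) e5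
  have hK0 := Kc_nn (l := l) L0'.le (2 * h)
  have hKq : Kc L l (2 * h) ^ q ≤ Real.exp (15 * (δ * L) * q) := by
    rw [Real.exp_mul]; exact Real.rpow_le_rpow hK0 hK hq0.le
  refine ⟨l, η, 7 + 2 * L + q ^ 2 + 15 * (δ * L) * q + 1 / ε, h, by linarith, hl1, η0, ?_, ?_, ?_,
    ?_, ?_, ?_⟩
  · have : (8 : ℝ) ≤ h := by linarith
    exact_mod_cast this
  · unfold Del
    have a1 : 386 * L / l ≤ ε * δ / 16 * L := by
      rw [hl, div_div_eq_mul_div, div_le_iff₀ (by norm_num)]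
      have : 0 < ε * δ * L := by positivity
      linarith
    have a2 : 288 * η * L ≤ ε * δ / 16 * L := by
      rw [hη]
      have : 0 < ε * δ * L := by positivity
      linarith
    have a3 := mul_le_mul_of_nonneg_left hh1 hε.le
    have a4 : 386 * L / l = 2 * L / l + 384 * L / l := by ring
    linarith
  · refine le_trans ?_ e4
    have a1 : Real.exp (-(q - 1) * (2 * h : ℕ)) ≤ Real.exp (-(2 * (q - 1) * δ) * L) := by
      apply Real.exp_le_exp.mpr
      push_cast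
      have := mul_le_mul_of_nonneg_left hh1 (show 0 ≤ q - 1 by linarith)
      linarith
    have a2 : (4 * (h : ℝ)) ^ q ≤ 11 ^ q * L ^ q := by
      rw [← Real.mul_rpow (by norm_num) L0'.le]
      exact Real.rpow_le_rpow (by positivity) (by linarith) hq0.le
    have a3 : (3 + 8 * L) ^ q ≤ 11 ^ q * L ^ q := by
      rw [← Real.mul_rpow (by norm_num) L0'.le]
      exact Real.rpow_le_rpow (by positivity) (by linarith) hq0.le
    calc _ ≤ Real.exp (-(2 * (q - 1) * δ) * L) / (1 - Real.exp (-(q - 1))) *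
          (11 ^ q * L ^ q + 11 ^ q * L ^ q) :=
          mul_le_mul (div_le_div_of_nonneg_right a1 h1.le) (add_le_add a2 a3) (by positivity)
            (by positivity)
      _ = _ := by ring
  · have : 0 ≤ 2 * L + q ^ 2 + 15 * (δ * L) * q + 1 / ε := by positivity
    linarith
  · have a1 : q ^ q ≤ Real.exp (q ^ 2) := by
      rw [sq, Real.exp_mul]
      exact Real.rpow_le_rpow hq0.le (by linarith [Real.add_one_le_exp q]) hq0.le
    have a2 : Real.exp (-(1 / ε)) ≤ ε := by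
      rw [Real.exp_neg, inv_le_comm₀ (Real.exp_pos _) hε, ← one_div]
      linarith [Real.add_one_le_exp (1 / ε)]
    refine le_trans ?_ a2
    calc _ ≤ Real.exp (2 * L) * Real.exp (q ^ 2) * Real.exp (15 * (δ * L) * q) *
          Real.exp (7 - (7 + 2 * L + q ^ 2 + 15 * (δ * L) * q + 1 / ε)) := by gcongr
      _ = _ := by
          rw [← Real.exp_add, ← Real.exp_add, ← Real.exp_add]; congr 1; ring
  · have t0 : 0 ≤ 7 + 2 * L + q ^ 2 + 15 * (δ * L) * q + 1 / ε := by positivity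
    have a1 : 7 + 2 * L + q ^ 2 + 15 * (δ * L) * q + 1 / ε ≤ Real.exp (δ * L) := by
      refine le_trans ?_ e6
      rw [pow_one]
      have b1 : q ^ 2 ≤ q ^ 2 * L := le_mul_of_one_le_right (by positivity) (by linarith)
      have b2 : 1 / ε ≤ 1 / ε * L := le_mul_of_one_le_right (by positivity) (by linarith)
      have b3 := mul_le_mul_of_nonneg_right L1 hq0.le
      linarith
    have a2 : (7 + 2 * L + q ^ 2 + 15 * (δ * L) * q + 1 / ε) * Kc L l (2 * h) ≤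
        Real.exp (16 * (δ * L)) := by
      have : Real.exp (16 * (δ * L)) = Real.exp (δ * L) * Real.exp (15 * (δ * L)) := by
        rw [← Real.exp_add]; congr 1; ring
      rw [this]
      exact mul_le_mul a1 hK hK0 (Real.exp_pos _).le
    have a3 := Real.rpow_le_rpow (mul_nonneg t0 hK0) a2 hq0.le
    rw [← Real.exp_mul] at a3
    have a4 := pow_le_pow_left₀ (Real.rpow_nonneg (mul_nonneg t0 hK0) q) a3 2
    rw [← Real.exp_nat_mul] at a4
    have a5 : 4 * (1 + 2 * L) / ε ^ 2 ≤ Real.exp (δ * L * q) := by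
      have b1 : Real.exp (δ * L) ≤ Real.exp (δ * L * q) :=
        Real.exp_le_exp.mpr (le_mul_of_one_le_right (by positivity) hq.le)
      refine le_trans ?_ (le_trans e7 b1)
      rw [pow_one, div_mul_eq_mul_div]
      exact div_le_div_of_nonneg_right (by linarith) (by positivity)
    have a6 := mul_le_mul a4 a5 (by positivity) (Real.exp_pos _).le
    rw [← Real.exp_add] at a6
    have a7 : Real.exp (((2 : ℕ) : ℝ) * (16 * (δ * L) * q) + δ * L * q) * Real.exp (7 * (δ * L * q)) ≤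
        Real.exp (θ * L) := by
      rw [← Real.exp_add]
      apply Real.exp_le_exp.mpr
      have := mul_le_mul_of_nonneg_right hδθ L0'.le
      push_cast
      linarith
    have a8 : 2 ≤ Real.exp (7 * (δ * L * q)) := by
      have b1 : δ * L ≤ δ * L * q := le_mul_of_one_le_right (by positivity) hq.le
      linarith [Real.add_one_le_exp (7 * (δ * L * q))]
    have a9 : 1 ≤ Real.exp (((2 : ℕ) : ℝ) * (16 * (δ * L) * q) + δ * L * q) :=
      Real.one_le_exp (by positivity)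
    have a10 := mul_le_mul_of_nonneg_left a8
      (Real.exp_pos (((2 : ℕ) : ℝ) * (16 * (δ * L) * q) + δ * L * q)).le
    have fin : ∀ A B : ℝ, 1 ≤ A → A * 2 ≤ B → A ≤ B - 1 := by intro A B h1 h2; linarith
    refine le_trans (le_of_eq ?_) (le_trans a6 (fin _ _ a9 (le_trans a10 a7)))
    generalize ((7 + 2 * L + q ^ 2 + 15 * (δ * L) * q + 1 / ε) * Kc L l (2 * h)) ^ q = W
    ring

open scoped ENNReal

theorem finite_case (p : ℝ≥0∞) [Fact (1 ≤ p)] (hq : 1 < p.toReal) {D θ : ℝ} (hD : 1 < D)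
    (hθ : 0 < θ) : ∃ n₀ : ℕ, ∀ n : ℕ, n₀ ≤ n → ∀ (X Ω : Type) [Fintype X] [Fintype Ω]
      (F : X → Ω → ℝ), Fintype.card X = n → (∀ x y, x ≠ y → 0 < dd p F x y) →
      ∃ (G : X → Fin ⌊(n : ℝ) ^ θ⌋₊ → ℝ) (s : ℝ), 0 < s ∧ ∀ x y,
        s * dd p F x y ≤ nm p (fun i => G x i - G y i) ∧
        nm p (fun i => G x i - G y i) ≤ D * s * dd p F x y := by
  obtain ⟨ε, hε, hε1, hεD⟩ : ∃ ε : ℝ, 0 < ε ∧ ε ≤ 1 / 8 ∧ 1 + 20 * ε ≤ D := by
    refine ⟨min (1 / 8) ((D - 1) / 20), lt_min (by norm_num) (by linarith), min_le_left _ _, ?_⟩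
    have := min_le_right (1 / 8) ((D - 1) / 20)
    linarith
  obtain ⟨L0, hL0, hcore⟩ := core p hq hε hε1
  have hev := (Real.tendsto_log_atTop.comp tendsto_natCast_atTop_atTop).eventually
    (params hq hε hε1 hL0 hθ)
  obtain ⟨n₀, hn₀⟩ := eventually_atTop.mp hev
  refine ⟨n₀, fun n hn X Ω _ _ F hX inj => ?_⟩
  obtain ⟨l, η, t, h, c0, c1, c2, c3, c4, c5, c6, c7, c8⟩ := hn₀ n hn
  simp only [Function.comp] at c0 c4 c5 c7 c8
  have n0 : (0 : ℝ) < n := by
    rcases Nat.eq_zero_or_pos n with h0 | h0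
    · rw [h0] at c0; simp at c0; linarith
    · exact_mod_cast h0
  obtain ⟨G, s, hs, hG⟩ := hcore X Ω F inj (Real.log n) l η t h ⌊(n : ℝ) ^ θ⌋₊ (by rw [hX]) c0 c1 c2
    c3 c4 c5 c6 c7 (by
      refine le_trans c8 ?_
      rw [Real.rpow_def_of_pos n0, mul_comm (Real.log n) θ]
      exact (Nat.sub_one_lt_floor _).le)
  refine ⟨G, s, hs, fun x y => ⟨(hG x y).1, le_trans (hG x y).2 ?_⟩⟩
  exact mul_le_mul_of_nonneg_right (mul_le_mul_of_nonneg_right hεD hs.le) (nm_nn _)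

end Vale.Agent.P249
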