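import Vale.Agent.P249.Params

namespace Vale.Agent.P249

open MeasureTheory Finset
open scoped ENNReal

lemma simple_exact (p : ℝ≥0∞) [Fact (1 ≤ p)] (hp : p ≠ ∞) (hq : 1 < p.toReal) {Ω : Type*}
    [MeasurableSpace Ω] (μ : Measure Ω) {n : ℕ} (g : Fin n → Lp.simpleFunc ℝ p μ) :
    ∃ (R : Finset (Fin n → ℝ)) (F : Fin n → R → ℝ),
      ∀ i j, dd p F i j = ‖(g i : Lp ℝ p μ) - (g j : Lp ℝ p μ)‖ := by
  classical
  let s : Fin n → SimpleFunc Ω ℝ := fun i => Lp.simpleFunc.toSimpleFunc (g i)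
  let G : SimpleFunc Ω (Fin n → ℝ) :=
    { toFun := fun ω i => s i ω
      measurableSet_fiber' := fun v => by
        have : (fun ω i => s i ω) ⁻¹' {v} = ⋂ i, (s i) ⁻¹' {v i} := by
          ext ω
          simp [funext_iff]
        rw [this]
        exact MeasurableSet.iInter fun i => (s i).measurableSet_fiber _
      finite_range' := by
        apply (Set.Finite.pi' (fun i => (s i).finite_range)).subset
        rintro _ ⟨ω, rfl⟩ i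
        exact ⟨ω, rfl⟩ }
  have hp0 : p ≠ 0 := by
    intro h; rw [h] at hq; simp at hq; linarith
  have hq0 : 0 < p.toReal := by linarith
  refine ⟨G.range, fun i v => v.1 i * (μ (G ⁻¹' {v.1})).toReal ^ (1 / p.toReal), fun i j => ?_⟩
  have ae : (⇑((g i : Lp ℝ p μ) - (g j : Lp ℝ p μ)) : Ω → ℝ) =ᵐ[μ] fun ω => s i ω - s j ω := by
    filter_upwards [Lp.coeFn_sub (g i : Lp ℝ p μ) (g j : Lp ℝ p μ),
      Lp.simpleFunc.toSimpleFunc_eq_toFun (g i), Lp.simpleFunc.toSimpleFunc_eq_toFun (g j)]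
      with ω h1 h2 h3
    rw [h1, Pi.sub_apply]
    simp only [s]
    rw [h2, h3]
  have fin := Lp.eLpNorm_ne_top ((g i : Lp ℝ p μ) - (g j : Lp ℝ p μ))
  rw [Lp.norm_def]
  rw [eLpNorm_congr_ae ae, eLpNorm_eq_lintegral_rpow_enorm_toReal hp0 hp] at fin ⊢
  have li : ∫⁻ ω, ‖s i ω - s j ω‖ₑ ^ p.toReal ∂μ =
      ∑ v ∈ G.range, ‖v i - v j‖ₑ ^ p.toReal * μ (G ⁻¹' {v}) := by
    rw [← SimpleFunc.map_lintegral (fun v : Fin n → ℝ => ‖v i - v j‖ₑ ^ p.toReal) G,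
      ← SimpleFunc.lintegral_eq_lintegral]
    rfl
  rw [li] at fin ⊢
  have fin2 : ∑ v ∈ G.range, ‖v i - v j‖ₑ ^ p.toReal * μ (G ⁻¹' {v}) ≠ ∞ := by
    intro h
    rw [h, ENNReal.top_rpow_of_pos (by positivity)] at fin
    exact fin rfl
  rw [← ENNReal.toReal_rpow, ENNReal.toReal_sum fun v hv => (ENNReal.lt_top_of_sum_ne_top fin2 hv).ne]
  unfold dd
  rw [nm_eq hq]
  congr 1
  rw [← Finset.sum_coe_sort G.range]
  apply sum_congr rfl; intro v _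
  rw [← sub_mul, abs_mul, abs_of_nonneg (show 0 ≤ (μ (G ⁻¹' {v.1})).toReal ^ (1 / p.toReal) by
    positivity), Real.mul_rpow (abs_nonneg _) (by positivity), ← Real.rpow_mul ENNReal.toReal_nonneg,
    one_div_mul_cancel hq0.ne', Real.rpow_one, ENNReal.toReal_mul, ← ENNReal.toReal_rpow,
    toReal_enorm, Real.norm_eq_abs]

lemma approx (p : ℝ≥0∞) [Fact (1 ≤ p)] (hp : p ≠ ∞) (hq : 1 < p.toReal) {Ω : Type*}
    [MeasurableSpace Ω] (μ : Measure Ω) {n : ℕ} (a : Fin n → Lp ℝ p μ) (ha : Function.Injective a)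
    {γ : ℝ} (hγ : 0 < γ) :
    ∃ (R : Finset (Fin n → ℝ)) (F : Fin n → R → ℝ),
      ∀ i j, |dd p F i j - ‖a i - a j‖| ≤ γ * ‖a i - a j‖ := by
  have hM : IsM (fun i j => ‖a i - a j‖) :=
    ⟨fun i j => norm_sub_rev _ _, fun i j k => norm_sub_le_norm_sub_add_norm_sub _ _ _,
      fun i => by simp⟩
  obtain ⟨r0, _, hr, hr1, _⟩ := exists_setup hM fun i j hij =>
    norm_pos_iff.mpr (sub_ne_zero.mpr fun h => hij (ha h))
  have hd := Lp.simpleFunc.dense (E := ℝ) (μ := μ) hp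
  have ex : ∀ i, ∃ g : Lp.simpleFunc ℝ p μ, ‖a i - (g : Lp ℝ p μ)‖ < γ * r0 / 2 := by
    intro i
    obtain ⟨y, hy, hy2⟩ := hd.exists_dist_lt (a i) (show 0 < γ * r0 / 2 by positivity)
    exact ⟨⟨y, hy⟩, by rwa [dist_eq_norm] at hy2⟩
  choose g hg using ex
  obtain ⟨R, F, hF⟩ := simple_exact p hp hq μ g
  refine ⟨R, F, fun i j => ?_⟩
  rw [hF]
  by_cases hij : i = j
  · subst hij; simp
  · have h1 := abs_norm_sub_norm_le ((g i : Lp ℝ p μ) - (g j : Lp ℝ p μ)) (a i - a j)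
    have h2 : (g i : Lp ℝ p μ) - (g j : Lp ℝ p μ) - (a i - a j) =
        (a j - (g j : Lp ℝ p μ)) - (a i - (g i : Lp ℝ p μ)) := by abel
    rw [h2] at h1
    have h3 := norm_sub_le (a j - (g j : Lp ℝ p μ)) (a i - (g i : Lp ℝ p μ))
    have h4 := mul_le_mul_of_nonneg_left (hr1 i j hij) hγ.le
    linarith [hg i, hg j]

theorem general.{u} (p : ℝ≥0∞) [Fact (1 ≤ p)] (hp1 : 1 < p) (hp : p ≠ ∞) (D : ℝ) (hD : 1 < D)
    (θ : ℝ) (hθ : 0 < θ) :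
    ∃ n₀ : ℕ, ∀ n : ℕ, n₀ ≤ n → ∃ d : ℕ, (d : ℝ) ≤ (n : ℝ) ^ θ ∧
      ∀ (Ω : Type u) [MeasurableSpace Ω] (μ : Measure Ω) (X : Finset (Lp ℝ p μ)), X.card = n →
        ∃ (f : Lp ℝ p μ → PiLp p (fun _ : Fin d => ℝ)) (s : ℝ), 0 < s ∧
          ∀ x ∈ X, ∀ y ∈ X, s * ‖x - y‖ ≤ ‖f x - f y‖ ∧ ‖f x - f y‖ ≤ D * s * ‖x - y‖ := by
  classical
  have hq : 1 < p.toReal := by
    have := (ENNReal.toReal_lt_toReal ENNReal.one_ne_top hp).mpr hp1
    simpa using this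
  obtain ⟨n₀, hn₀⟩ := finite_case p hq (show 1 < (1 + D) / 2 by linarith) hθ
  refine ⟨n₀, fun n hn => ⟨⌊(n : ℝ) ^ θ⌋₊, Nat.floor_le (by positivity), ?_⟩⟩
  intro Ω _ μ X hX
  let e : X ≃ Fin n := Finset.equivFinOfCardEq hX
  let a : Fin n → Lp ℝ p μ := fun i => (e.symm i).1
  have ha : Function.Injective a := Subtype.val_injective.comp e.symm.injective
  set γ := (D - 1) / (3 * D + 1) with hγ
  have γ0 : 0 < γ := by rw [hγ]; apply div_pos <;> linarith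
  have γ1 : γ < 1 := by rw [hγ, div_lt_one (by linarith)]; linarith
  have γ2 : (1 + D) / 2 * (1 + γ) = D * (1 - γ) := by
    rw [hγ]; field_simp; ring
  obtain ⟨R, F, hF⟩ := approx p hp hq μ a ha γ0
  obtain ⟨G, s, hs, hG⟩ := hn₀ n hn (Fin n) R F (Fintype.card_fin n) (fun i j hij => by
    have h1 := (abs_le.mp (hF i j)).1
    have h2 : 0 < ‖a i - a j‖ := norm_pos_iff.mpr (sub_ne_zero.mpr fun h => hij (ha h))
    nlinarith)
  refine ⟨fun x => if h : x ∈ X then WithLp.toLp p (G (e ⟨x, h⟩)) else 0, s * (1 - γ),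
    mul_pos hs (by linarith), fun x hx y hy => ?_⟩
  simp only [dif_pos hx, dif_pos hy]
  obtain ⟨h1, h2⟩ := hG (e ⟨x, hx⟩) (e ⟨y, hy⟩)
  obtain ⟨h3, h4⟩ := abs_le.mp (hF (e ⟨x, hx⟩) (e ⟨y, hy⟩))
  have ex : a (e ⟨x, hx⟩) = x := by simp [a]
  have ey : a (e ⟨y, hy⟩) = y := by simp [a]
  rw [ex, ey] at h3 h4
  have en : ‖(WithLp.toLp p (G (e ⟨x, hx⟩)) : PiLp p (fun _ : Fin ⌊(n : ℝ) ^ θ⌋₊ => ℝ)) -
      WithLp.toLp p (G (e ⟨y, hy⟩))‖ = nm p (fun i => G (e ⟨x, hx⟩) i - G (e ⟨y, hy⟩) i) := rfl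
  rw [en]
  constructor
  · have := mul_le_mul_of_nonneg_left h3 hs.le
    linarith
  · have b1 : dd p F (e ⟨x, hx⟩) (e ⟨y, hy⟩) ≤ (1 + γ) * ‖x - y‖ := by linarith
    have b2 := mul_le_mul_of_nonneg_left b1 (show 0 ≤ (1 + D) / 2 * s by positivity)
    have b3 : (1 + D) / 2 * s * ((1 + γ) * ‖x - y‖) = D * (s * (1 - γ)) * ‖x - y‖ := by
      calc _ = ((1 + D) / 2 * (1 + γ)) * (s * ‖x - y‖) := by ring
        _ = _ := by rw [γ2]; ring
    linarith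

end Vale.Agent.P249
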