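import Vale.Agent.P249.Merge

namespace Vale.Agent.P249

open Finset
open scoped ENNReal

noncomputable def nm (p : ℝ≥0∞) [Fact (1 ≤ p)] {ι : Type*} [Fintype ι] (f : ι → ℝ) : ℝ :=
  ‖(WithLp.toLp p f : PiLp p (fun _ : ι => ℝ))‖

section
variable {p : ℝ≥0∞} [Fact (1 ≤ p)] {ι : Type*} [Fintype ι]

lemma nm_nn (f : ι → ℝ) : 0 ≤ nm p f := norm_nonneg _

lemma nm_eq (hq : 1 < p.toReal) (f : ι → ℝ) :
    nm p f = (∑ i, |f i| ^ p.toReal) ^ (1 / p.toReal) := by
  unfold nm
  rw [PiLp.norm_eq_sum (by linarith)]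
  simp

lemma nm_rpow (hq : 1 < p.toReal) (f : ι → ℝ) :
    nm p f ^ p.toReal = ∑ i, |f i| ^ p.toReal := by
  rw [nm_eq hq, ← Real.rpow_mul (sum_nonneg fun i _ => by positivity),
    one_div_mul_cancel (by linarith), Real.rpow_one]

lemma nm_le_of (hq : 1 < p.toReal) {f : ι → ℝ} {c : ℝ} (hc : 0 ≤ c)
    (h : ∑ i, |f i| ^ p.toReal ≤ c ^ p.toReal) : nm p f ≤ c := by
  rw [← nm_rpow hq] at h
  exact (Real.rpow_le_rpow_iff (nm_nn f) hc (by linarith)).mp h

lemma le_nm_of (hq : 1 < p.toReal) {f : ι → ℝ} {c : ℝ} (hc : 0 ≤ c)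
    (h : c ^ p.toReal ≤ ∑ i, |f i| ^ p.toReal) : c ≤ nm p f := by
  rw [← nm_rpow hq] at h
  exact (Real.rpow_le_rpow_iff hc (nm_nn f) (by linarith)).mp h

lemma nm_mono (hq : 1 < p.toReal) {f g : ι → ℝ} (h : ∀ i, |f i| ≤ g i) : nm p f ≤ nm p g := by
  apply nm_le_of hq (nm_nn g)
  rw [nm_rpow hq]
  apply sum_le_sum; intro i _
  exact Real.rpow_le_rpow (abs_nonneg _) (le_trans (h i) (le_abs_self _)) (by linarith)

lemma nm_add (f g : ι → ℝ) : nm p (fun i => f i + g i) ≤ nm p f + nm p g :=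
  norm_add_le (WithLp.toLp p f : PiLp p (fun _ : ι => ℝ)) (WithLp.toLp p g)

lemma nm_smul {c : ℝ} (hc : 0 ≤ c) (f : ι → ℝ) : nm p (fun i => c * f i) = c * nm p f := by
  have := norm_smul c (WithLp.toLp p f : PiLp p (fun _ : ι => ℝ))
  rw [Real.norm_eq_abs, abs_of_nonneg hc] at this
  exact this

lemma nm_zero : nm p (fun _ : ι => (0 : ℝ)) = 0 :=
  norm_zero (E := PiLp p (fun _ : ι => ℝ))

lemma nm_sum {κ : Type*} (t : Finset κ) (f : κ → ι → ℝ) :
    nm p (fun i => ∑ k ∈ t, f k i) ≤ ∑ k ∈ t, nm p (f k) := by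
  classical
  induction t using Finset.induction_on with
  | empty => simp [nm_zero]
  | insert a t ha ih =>
    simp only [sum_insert ha]
    exact le_trans (nm_add _ _) (by linarith)

lemma nm_abs (hq : 1 < p.toReal) (f : ι → ℝ) : nm p (fun i => |f i|) = nm p f := by
  rw [nm_eq hq, nm_eq hq]; simp

lemma le_nm (hq : 1 < p.toReal) (f : ι → ℝ) (i : ι) : |f i| ≤ nm p f := by
  apply le_nm_of hq (abs_nonneg _)
  exact single_le_sum (f := fun i => |f i| ^ p.toReal) (fun i _ => by positivity) (mem_univ i)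

end

noncomputable def tent (q : ℝ) (m : ℕ) (t : ℝ) : ℝ := max 0 (m - |t|) / (4 * m + 2 : ℝ) ^ (1 / q)

lemma kap_ge {q : ℝ} (hq : 1 < q) (m : ℕ) : 1 ≤ (4 * m + 2 : ℝ) ^ (1 / q) :=
  Real.one_le_rpow (by have : (0 : ℝ) ≤ m := Nat.cast_nonneg m; linarith) (by positivity)

lemma kap_rpow {q : ℝ} (hq : 1 < q) (m : ℕ) : ((4 * m + 2 : ℝ) ^ (1 / q)) ^ q = 4 * m + 2 := by
  rw [← Real.rpow_mul (by positivity), one_div_mul_cancel (by linarith), Real.rpow_one]

lemma tent_nn (q : ℝ) (m : ℕ) (t : ℝ) : 0 ≤ tent q m t :=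
  div_nonneg (le_max_left _ _) (by positivity)

lemma tent_zero (q : ℝ) (m : ℕ) {t : ℝ} (h : (m : ℝ) ≤ |t|) : tent q m t = 0 := by
  unfold tent
  rw [max_eq_left (by linarith), zero_div]

lemma tent_lip (q : ℝ) (m : ℕ) (t t' : ℝ) :
    |tent q m t - tent q m t'| ≤ |t - t'| / (4 * m + 2 : ℝ) ^ (1 / q) := by
  unfold tent
  rw [← sub_div, abs_div, abs_of_pos (show (0 : ℝ) < (4 * m + 2 : ℝ) ^ (1 / q) by positivity)]
  apply div_le_div_of_nonneg_right _ (by positivity)
  refine le_trans (abs_max_sub_max_le_max _ _ _ _) (max_le (by simp) ?_)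
  have : (m : ℝ) - |t| - (m - |t'|) = |t'| - |t| := by ring
  rw [this, abs_sub_comm t t']
  exact abs_abs_sub_abs_le_abs_sub _ _

lemma tent_le {q : ℝ} (hq : 1 < q) (m : ℕ) (t : ℝ) : |tent q m t| ≤ m := by
  rw [abs_of_nonneg (tent_nn q m t)]
  unfold tent
  have h1 : max 0 ((m : ℝ) - |t|) ≤ m := max_le (Nat.cast_nonneg m) (by linarith [abs_nonneg t])
  exact le_trans (div_le_self (le_max_left _ _) (kap_ge hq m)) h1

lemma count_supp (Nw m : ℕ) (α : ℝ) :
    (univ.filter (fun s : Fin Nw => |(s : ℝ) + α| < m)).card ≤ 2 * m + 1 := by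
  set a : ℤ := ⌊-(m : ℝ) - α⌋ with ha
  have h := card_le_card_of_injOn (s := univ.filter (fun s : Fin Nw => |(s : ℝ) + α| < m))
    (t := Finset.Icc (a + 1) (a + 2 * m)) (fun s => ((s : ℕ) : ℤ)) (by
      intro s hs
      simp only [coe_filter, mem_univ, true_and, Set.mem_ofPred_eq] at hs
      have h1 := abs_lt.mp hs
      have h2 : (a : ℝ) ≤ -(m : ℝ) - α := Int.floor_le _
      have h3 : -(m : ℝ) - α < a + 1 := Int.lt_floor_add_one _
      simp only [coe_Icc, Set.mem_Icc]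
      constructor
      · have : (a : ℝ) < (((s : ℕ) : ℤ) : ℝ) := by push_cast; linarith
        have : a < ((s : ℕ) : ℤ) := by exact_mod_cast this
        omega
      · have : (((s : ℕ) : ℤ) : ℝ) < ((a + 2 * m + 1 : ℤ) : ℝ) := by push_cast; linarith
        have : ((s : ℕ) : ℤ) < a + 2 * m + 1 := by exact_mod_cast this
        omega) (by
      intro s _ t _ hst
      simp only [Nat.cast_inj] at hst
      exact Fin.ext hst)
  rw [Int.card_Icc] at h
  omega

noncomputable def psi (q : ℝ) (m : ℕ) (s : ℕ) (b : ℝ) : ℝ :=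
  tent q m ((s : ℝ) + (Real.log b - (2 * m + 1)))

noncomputable def Psi (p : ℝ≥0∞) (m Nw : ℕ) (b : ℝ) : PiLp p (fun _ : Fin Nw => ℝ) :=
  WithLp.toLp p (fun s : Fin Nw => psi p.toReal m s b)

lemma log_diff {b b' : ℝ} (hb : 0 < b) (hbb : b ≤ b') (s c : ℝ) :
    |(s + (Real.log b' - c)) - (s + (Real.log b - c))| = Real.log (b' / b) := by
  rw [Real.log_div (by linarith) hb.ne']
  have := Real.log_le_log hb hbb
  rw [abs_of_nonneg (by linarith)]; ring

lemma psi_LL {q : ℝ} (hq : 1 < q) (m s : ℕ) : LL (psi q m s) := by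
  intro b b' hb hbb
  rw [Real.norm_eq_abs]
  refine le_trans (tent_lip _ _ _ _) ?_
  rw [log_diff hb hbb]
  apply div_le_self _ (kap_ge hq m)
  exact Real.log_nonneg (by rw [le_div_iff₀ hb]; linarith)

lemma Psi_LL {p : ℝ≥0∞} [Fact (1 ≤ p)] (hq : 1 < p.toReal) (m Nw : ℕ) : LL (Psi p m Nw) := by
  intro b b' hb hbb
  have hl : 0 ≤ Real.log (b' / b) := Real.log_nonneg (by rw [le_div_iff₀ hb]; linarith)
  have : ‖Psi p m Nw b' - Psi p m Nw b‖ =
      nm p (fun s : Fin Nw => psi p.toReal m s b' - psi p.toReal m s b) := rfl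
  rw [this]
  apply nm_le_of hq hl
  set q := p.toReal with hqdef
  set U := univ.filter (fun s : Fin Nw => |(s : ℝ) + (Real.log b - (2 * m + 1))| < m) ∪
    univ.filter (fun s : Fin Nw => |(s : ℝ) + (Real.log b' - (2 * m + 1))| < m) with hU
  have hUc : (U.card : ℝ) ≤ 4 * m + 2 := by
    have a1 := count_supp Nw m (Real.log b - (2 * m + 1))
    have a2 := count_supp Nw m (Real.log b' - (2 * m + 1))
    have a3 : U.card ≤ 4 * m + 2 := le_trans (card_union_le _ _) (by omega)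
    exact_mod_cast a3
  have h1 : ∑ s : Fin Nw, |psi q m s b' - psi q m s b| ^ q =
      ∑ s ∈ U, |psi q m s b' - psi q m s b| ^ q := by
    symm
    apply sum_subset (subset_univ _)
    intro s _ hs
    simp only [hU, mem_union, mem_filter, mem_univ, true_and, not_or, not_lt] at hs
    unfold psi
    rw [tent_zero _ _ hs.1, tent_zero _ _ hs.2]
    simp [show q ≠ 0 by linarith]
  rw [h1]
  calc ∑ s ∈ U, |psi q m s b' - psi q m s b| ^ q
      ≤ ∑ _s ∈ U, Real.log (b' / b) ^ q / (4 * m + 2) := by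
        apply sum_le_sum; intro s _
        have a1 := tent_lip q m ((s : ℝ) + (Real.log b' - (2 * m + 1)))
          ((s : ℝ) + (Real.log b - (2 * m + 1)))
        rw [log_diff hb hbb] at a1
        have a2 := Real.rpow_le_rpow (abs_nonneg _) a1 (show 0 ≤ q by linarith)
        rw [Real.div_rpow hl (by positivity), kap_rpow hq] at a2
        exact a2
    _ = U.card * (Real.log (b' / b) ^ q / (4 * m + 2)) := by simp
    _ ≤ (4 * m + 2) * (Real.log (b' / b) ^ q / (4 * m + 2)) :=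
        mul_le_mul_of_nonneg_right hUc (by positivity)
    _ = _ := by field_simp

noncomputable def N0 (p : ℝ≥0∞) [Fact (1 ≤ p)] (m : ℕ) : ℝ :=
  nm p (fun u : Fin (2 * m + 1) => tent p.toReal m ((u : ℝ) - m))

lemma N0_le {p : ℝ≥0∞} [Fact (1 ≤ p)] (hq : 1 < p.toReal) (m : ℕ) : N0 p m ≤ m := by
  apply nm_le_of hq (Nat.cast_nonneg m)
  set q := p.toReal
  calc ∑ u : Fin (2 * m + 1), |tent q m ((u : ℝ) - m)| ^ q
      ≤ ∑ _u : Fin (2 * m + 1), (m : ℝ) ^ q / (4 * m + 2) := by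
        apply sum_le_sum; intro u _
        have a1 : |tent q m ((u : ℝ) - m)| ≤ m / (4 * m + 2 : ℝ) ^ (1 / q) := by
          rw [abs_of_nonneg (tent_nn _ _ _)]
          unfold tent
          apply div_le_div_of_nonneg_right _ (by positivity)
          exact max_le (Nat.cast_nonneg m) (by linarith [abs_nonneg ((u : ℝ) - m)])
        have a2 := Real.rpow_le_rpow (abs_nonneg _) a1 (show 0 ≤ q by linarith)
        rw [Real.div_rpow (Nat.cast_nonneg m) (by positivity), kap_rpow hq] at a2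
        exact a2
    _ = (2 * m + 1) * ((m : ℝ) ^ q / (4 * m + 2)) := by simp
    _ = (m : ℝ) ^ q / 2 := by field_simp; ring
    _ ≤ _ := by
        have : (0 : ℝ) ≤ (m : ℝ) ^ q := by positivity
        linarith

lemma N0_ge {p : ℝ≥0∞} [Fact (1 ≤ p)] (hq : 1 < p.toReal) (h : ℕ) : (h : ℝ) / 4 ≤ N0 p (2 * h) := by
  apply le_nm_of hq (by positivity)
  set q := p.toReal
  rw [Fin.sum_univ_eq_sum_range (fun u => |tent q (2 * h) ((u : ℝ) - (2 * h : ℕ))| ^ q)]
  have a0 : ∑ u ∈ Ico h (3 * h + 1), |tent q (2 * h) ((u : ℝ) - (2 * h : ℕ))| ^ q ≤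
      ∑ u ∈ range (2 * (2 * h) + 1), |tent q (2 * h) ((u : ℝ) - (2 * h : ℕ))| ^ q := by
    apply sum_le_sum_of_subset_of_nonneg
    · intro u hu
      simp only [mem_Ico, mem_range] at hu ⊢
      omega
    · intro u _ _; positivity
  refine le_trans ?_ a0
  have a1 : ∑ _u ∈ Ico h (3 * h + 1), (h : ℝ) ^ q / (4 * (2 * h : ℕ) + 2) ≤
      ∑ u ∈ Ico h (3 * h + 1), |tent q (2 * h) ((u : ℝ) - (2 * h : ℕ))| ^ q := by
    apply sum_le_sum; intro u hu
    simp only [mem_Ico] at hu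
    have b1 : (h : ℝ) ≤ u := by exact_mod_cast hu.1
    have b2 : (u : ℝ) ≤ 3 * h := by exact_mod_cast Nat.lt_succ_iff.mp hu.2
    have b3 : (h : ℝ) / (4 * (2 * h : ℕ) + 2 : ℝ) ^ (1 / q) ≤ |tent q (2 * h) ((u : ℝ) - (2 * h : ℕ))| := by
      rw [abs_of_nonneg (tent_nn _ _ _)]
      unfold tent
      apply div_le_div_of_nonneg_right _ (by positivity)
      apply le_max_of_le_right
      have : |(u : ℝ) - (2 * h : ℕ)| ≤ h := by
        rw [abs_le]; push_cast; constructor <;> linarith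
      push_cast at this ⊢
      linarith
    have a2 := Real.rpow_le_rpow (by positivity) b3 (show 0 ≤ q by linarith)
    rw [Real.div_rpow (Nat.cast_nonneg h) (by positivity), kap_rpow hq] at a2
    exact a2
  refine le_trans ?_ a1
  rw [sum_const, Nat.card_Ico, nsmul_eq_mul, Real.div_rpow (Nat.cast_nonneg h) (by norm_num)]
  have e : ((3 * h + 1 - h : ℕ) : ℝ) = 2 * h + 1 := by
    have : 3 * h + 1 - h = 2 * h + 1 := by omega
    rw [this]; push_cast; ring
  rw [e]
  have b4 : (4 : ℝ) ≤ 4 ^ q := by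
    have := Real.rpow_le_rpow_of_exponent_le (show (1 : ℝ) ≤ 4 by norm_num) hq.le
    rwa [Real.rpow_one] at this
  have b5 : (h : ℝ) ^ q / 4 ^ q ≤ (h : ℝ) ^ q / 4 :=
    div_le_div_of_nonneg_left (by positivity) (by norm_num) b4
  refine le_trans b5 ?_
  push_cast
  rw [← mul_div_assoc, div_le_div_iff₀ (by norm_num) (by positivity)]
  have : (0 : ℝ) ≤ (h : ℝ) ^ q := by positivity
  nlinarith

lemma Psi_int {p : ℝ≥0∞} [Fact (1 ≤ p)] (hq : 1 < p.toReal) {m Nw k : ℕ} (hk : k + 3 * m + 1 ≤ Nw) :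
    ‖Psi p m Nw (Real.exp (1 - k))‖ = N0 p m := by
  have : ‖Psi p m Nw (Real.exp (1 - k))‖ =
      nm p (fun s : Fin Nw => psi p.toReal m s (Real.exp (1 - k))) := rfl
  rw [this, N0, nm_eq hq, nm_eq hq]
  congr 1
  set q := p.toReal
  rw [Fin.sum_univ_eq_sum_range (fun u => |tent q m ((u : ℝ) - m)| ^ q),
    Fin.sum_univ_eq_sum_range (fun s => |psi q m s (Real.exp (1 - k))| ^ q)]
  have h1 : ∑ s ∈ Ico (k + m) (k + m + (2 * m + 1)), |psi q m s (Real.exp (1 - k))| ^ q =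
      ∑ s ∈ range Nw, |psi q m s (Real.exp (1 - k))| ^ q := by
    apply sum_subset
    · intro s hs
      simp only [mem_Ico, mem_range] at hs ⊢
      omega
    · intro s _ hs
      simp only [mem_Ico, not_and_or, not_le, not_lt] at hs
      unfold psi
      rw [tent_zero, abs_zero, Real.zero_rpow (by linarith)]
      rw [Real.log_exp]
      rcases hs with hs | hs
      · have : (s : ℝ) + 1 ≤ k + m := by exact_mod_cast hs
        rw [abs_of_nonpos (by linarith [(Nat.cast_nonneg m : (0 : ℝ) ≤ m)])]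
        linarith
      · have : (k : ℝ) + m + (2 * m + 1) ≤ s := by exact_mod_cast hs
        rw [abs_of_nonneg (by linarith [(Nat.cast_nonneg m : (0 : ℝ) ≤ m)])]
        linarith
  rw [← h1, sum_Ico_eq_sum_range, Nat.add_sub_cancel_left]
  apply sum_congr rfl; intro u _
  unfold psi
  rw [Real.log_exp]
  congr 3
  push_cast; ring

lemma Psi_ref {p : ℝ≥0∞} [Fact (1 ≤ p)] (hq : 1 < p.toReal) {m Nw : ℕ} {b : ℝ} (hb : 0 < b)
    (hb2 : b ≤ 2) (hk : ⌈1 - Real.log b⌉₊ + 3 * m + 1 ≤ Nw) :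
    |‖Psi p m Nw b‖ - N0 p m| ≤ 1 := by
  have h0 : Real.log b ≤ 1 := by
    have := Real.log_le_sub_one_of_pos hb
    linarith
  set k := ⌈1 - Real.log b⌉₊ with hkdef
  have h1 : 1 - Real.log b ≤ k := Nat.le_ceil _
  have h2 : (k : ℝ) < 1 - Real.log b + 1 := Nat.ceil_lt_add_one (by linarith)
  have h3 : Real.exp (1 - k) ≤ b := by
    rw [← Real.exp_log hb]; exact Real.exp_le_exp.mpr (by linarith)
  have h4 := Psi_LL hq m Nw _ _ (Real.exp_pos _) h3
  rw [Real.log_div hb.ne' (Real.exp_pos _).ne', Real.log_exp] at h4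
  rw [← Psi_int hq hk]
  exact le_trans (abs_norm_sub_norm_le _ _) (by linarith)

lemma geo_tail {c : ℝ} (hc : 0 < c) (s0 : ℝ) (Nw : ℕ) :
    ∑ s ∈ range Nw, (if s0 ≤ (s : ℝ) then Real.exp (-c * s) else 0) ≤
      Real.exp (-c * s0) / (1 - Real.exp (-c)) := by
  have h1 : 0 < 1 - Real.exp (-c) := by
    have : Real.exp (-c) < 1 := Real.exp_lt_one_iff.mpr (by linarith)
    linarith
  have mono : ∀ a b : ℝ, a ≤ b → Real.exp (-c * b) / (1 - Real.exp (-c)) ≤
      Real.exp (-c * a) / (1 - Real.exp (-c)) := fun a b hab =>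
    div_le_div_of_nonneg_right (Real.exp_le_exp.mpr (by nlinarith)) h1.le
  have key : ∀ n : ℕ, ∑ s ∈ range n, (if s0 ≤ (s : ℝ) then Real.exp (-c * s) else 0) +
      Real.exp (-c * max (n : ℝ) s0) / (1 - Real.exp (-c)) ≤
      Real.exp (-c * s0) / (1 - Real.exp (-c)) := by
    intro n
    induction n with
    | zero => simpa using mono _ _ (le_max_right 0 s0)
    | succ n ih =>
      rw [sum_range_succ]
      split_ifs with h
      · rw [max_eq_left h] at ih
        rw [max_eq_left (by push_cast; linarith)]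
        have : Real.exp (-c * n) + Real.exp (-c * ((n + 1 : ℕ) : ℝ)) / (1 - Real.exp (-c)) =
            Real.exp (-c * n) / (1 - Real.exp (-c)) := by
          have e : Real.exp (-c * ((n + 1 : ℕ) : ℝ)) = Real.exp (-c * n) * Real.exp (-c) := by
            rw [← Real.exp_add]; push_cast; ring_nf
          rw [e]; field_simp; ring
        linarith
      · have := mono (max (n : ℝ) s0) (max ((n + 1 : ℕ) : ℝ) s0)
          (max_le_max (by push_cast; linarith) le_rfl)
        linarith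
  have := key Nw
  have : 0 ≤ Real.exp (-c * max (Nw : ℝ) s0) / (1 - Real.exp (-c)) := by positivity
  linarith

lemma geo_w {r0 : ℝ} (hr : 0 < r0) (la : ℕ → ℝ) (N : ℕ) :
    ∑ i ∈ range N, (∑ i' ∈ range (i + 1), la i' * rr r0 i') / rr r0 i +
      2 * ((∑ i' ∈ range N, la i' * rr r0 i') / rr r0 N) = 2 * ∑ i ∈ range N, la i := by
  induction N with
  | zero => simp
  | succ N ih =>
    have := rr_pos hr N
    rw [sum_range_succ, sum_range_succ la, mul_add, ← ih, rr_succ, sum_range_succ _ N]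
    field_simp
    ring

lemma geo_r {r0 : ℝ} (hr : 0 < r0) (j : ℕ) : ∑ i ∈ range j, rr r0 i ≤ rr r0 j := by
  induction j with
  | zero => simpa using (rr_pos hr 0).le
  | succ j ih => rw [sum_range_succ, rr_succ]; linarith

end Vale.Agent.P249
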